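import Vale.Agent.P165.Gladkov.Main

/-!
# Cut vertices near a set with flat mass

When every point reaches a finite set `S` with total probability at most `B` and the origin reaches
each point of `S` with probability at least `r`, a connection from `o` to `y` has on average at most
`4 B (1 + log (2 / r))` points of `S` that lie on all its open paths. The chains of `k` points along
one path are bounded by van den Berg and Kesten, the last link by Harris; this bounds an exponential
moment of the count.
-/

namespace Vale.Agent.P165.EX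

open Finset FF Gladkov

variable {V : Type} [DecidableEq V]

/-- Disjoint open connections from `a` through the points of `l` to `y`. -/
def BKChain (y : V) : V → List V → Finset (Sym2 V) → Prop
  | a, [] => fun η => Rch η a y
  | a, u :: l => box (fun η => Rch η a u) (BKChain y u l)

theorem inc_bkChain (y : V) : ∀ (l : List V) (a : V), Inc (BKChain y a l)
  | [], _ => fun _ _ h hr => rch_mono h hr
  | _ :: _, _ => fun _ _ h ⟨K, K', u1, u2, u3, u4, u5⟩ =>
      ⟨K, K', u1.trans h, u2.trans h, u3, u4, u5⟩

/-- The product of the links of a chain. -/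
noncomputable def chainProd (E : Finset (Sym2 V)) (p : ℝ) (y : V) : V → List V → ℝ
  | a, [] => Gladkov.tau E p a y
  | a, u :: l => Gladkov.tau E p a u * chainProd E p y u l

theorem avg_chain_le (E : Finset (Sym2 V)) {p : ℝ} (h0 : 0 ≤ p) (h1 : p ≤ 1) (y : V) :
    ∀ (l : List V) (a : V), avg E p (fun η => ind (BKChain y a l η)) ≤ chainProd E p y a l
  | [], _ => le_rfl
  | u :: l, a => by
      refine (bk E h0 h1 _ _ (fun _ _ h hr => rch_mono h hr) (inc_bkChain y l u)).trans ?_
      exact mul_le_mul_of_nonneg_left (avg_chain_le E h0 h1 y l u)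
        (avg_nonneg _ h0 h1 fun _ _ => ind_nonneg _)

/-- Lists of `k` points of `S`. -/
def tuples (S : Finset V) : ℕ → Finset (List V)
  | 0 => {[]}
  | k + 1 => (S ×ˢ tuples S k).image fun q => q.1 :: q.2

theorem mem_tuples {S : Finset V} : ∀ {k : ℕ} {l : List V},
    l.length = k → (∀ u ∈ l, u ∈ S) → l ∈ tuples S k
  | 0, [], _, _ => mem_singleton_self _
  | k + 1, u :: l, h, hS => mem_image.2 ⟨(u, l), mem_product.2 ⟨hS u (List.mem_cons_self ..),
      mem_tuples (Nat.succ_injective h) fun v hv => hS v (List.mem_cons_of_mem _ hv)⟩, rfl⟩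

theorem sum_tuples (S : Finset V) (k : ℕ) (f : List V → ℝ) :
    ∑ l ∈ tuples S (k + 1), f l = ∑ u ∈ S, ∑ l ∈ tuples S k, f (u :: l) := by
  rw [tuples, sum_image (by
    rintro ⟨a, b⟩ - ⟨c, d⟩ - h
    obtain ⟨rfl, rfl⟩ := List.cons.inj h
    rfl), sum_product]

theorem sum_chainProd_le (E : Finset (Sym2 V)) {p : ℝ} (h0 : 0 ≤ p) (h1 : p ≤ 1) (y : V)
    {S : Finset V} {A : Finset V} (hSA : S ⊆ A) {B M : ℝ} (hB : 0 ≤ B) (hM : 0 ≤ M)
    (row : ∀ x ∈ A, ∑ u ∈ S, Gladkov.tau E p x u ≤ B)
    (last : ∀ x ∈ A, Gladkov.tau E p x y ≤ M) :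
    ∀ (k : ℕ), ∀ a ∈ A, ∑ l ∈ tuples S k, chainProd E p y a l ≤ B ^ k * M
  | 0, a, ha => by simpa [tuples, chainProd] using last a ha
  | k + 1, a, ha => by
      rw [sum_tuples]
      calc ∑ u ∈ S, ∑ l ∈ tuples S k, chainProd E p y a (u :: l)
          = ∑ u ∈ S, Gladkov.tau E p a u * ∑ l ∈ tuples S k, chainProd E p y u l := by
            simp [chainProd, mul_sum]
        _ ≤ ∑ u ∈ S, Gladkov.tau E p a u * (B ^ k * M) := by
            gcongr with u hu
            · exact avg_nonneg _ h0 h1 fun _ _ => ind_nonneg _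
            · exact sum_chainProd_le E h0 h1 y hSA hB hM row last k u (hSA hu)
        _ ≤ B ^ (k + 1) * M := by
            rw [← sum_mul, pow_succ']
            exact (mul_le_mul_of_nonneg_right (row a ha) (by positivity)).trans_eq (by ring)

/-- Selected points of a path form a chain on the edges of the path. -/
theorem bkChain_of_path {η : Finset (Sym2 V)} {c y : V}
    (q : (SimpleGraph.fromEdgeSet (↑η : Set (Sym2 V))).Walk c y) (hq : q.IsPath) :
    ∀ l : List V, List.Sublist l q.support.tail → BKChain y c l q.edges.toFinset := by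
  induction q with
  | nil =>
    intro l hl
    obtain rfl : l = [] := by simpa using hl
    exact .rfl
  | @cons c d y hadj q ih =>
    obtain ⟨hq', hc⟩ := SimpleGraph.Walk.cons_isPath_iff _ _ |>.1 hq
    have hne : s(c, d) ∉ q.edges.toFinset := fun h =>
      hc (SimpleGraph.Walk.fst_mem_support_of_mem_edges q (List.mem_toFinset.1 h))
    have hsub : q.edges.toFinset ⊆ (SimpleGraph.Walk.cons hadj q).edges.toFinset := fun e he =>
      List.mem_toFinset.2 (by simp [List.mem_toFinset.1 he])
    have hcd : s(c, d) ∈ (SimpleGraph.Walk.cons hadj q).edges.toFinset :=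
      List.mem_toFinset.2 (by simp)
    intro l hl
    rw [SimpleGraph.Walk.support_cons, List.tail_cons, SimpleGraph.Walk.support_eq_cons] at hl
    cases hl with
    | cons _ h =>
      cases l with
      | nil => exact (rch_edge hcd).trans (rch_mono hsub (ih hq' [] (List.nil_sublist _)))
      | cons u l =>
        obtain ⟨K, K', u1, u2, u3, u4, u5⟩ := ih hq' (u :: l) h
        refine ⟨insert s(c, d) K, K', insert_subset hcd (u1.trans hsub), u2.trans hsub,
          disjoint_insert_left.2 ⟨fun h => hne (u2 h), u3⟩,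
          (rch_edge (mem_insert_self _ _)).trans (rch_mono (subset_insert _ _) u4), u5⟩
    | cons_cons _ h =>
      exact ⟨{s(c, d)}, q.edges.toFinset, singleton_subset_iff.2 hcd, hsub,
        disjoint_singleton_left.2 hne, rch_edge (mem_singleton_self _), ih hq' _ h⟩

/-- The points of `S` on every open path from `o` to `y`. -/
noncomputable def cut (S : Finset V) (o y : V) (η : Finset (Sym2 V)) : Finset V :=
  @Finset.filter _ (fun u => ∀ q : (SimpleGraph.fromEdgeSet (↑η : Set (Sym2 V))).Walk o y,
    q.IsPath → u ∈ q.support) (Classical.decPred _) S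

theorem mem_cut {S : Finset V} {o y u : V} {η : Finset (Sym2 V)} :
    u ∈ cut S o y η ↔ u ∈ S ∧ ∀ q : (SimpleGraph.fromEdgeSet (↑η : Set (Sym2 V))).Walk o y,
      q.IsPath → u ∈ q.support := by
  simp [cut]

/-- Both ends of a pivotal edge are cut points. -/
theorem mem_cut_of_pivotal {S : Finset V} {o y u : V} {η : Finset (Sym2 V)} {e : Sym2 V}
    (hu : u ∈ S) (hue : u ∈ e) (he : ¬Rch (η.erase e) o y) : u ∈ cut S o y η := by
  refine mem_cut.2 ⟨hu, fun q _ => ?_⟩
  by_contra hn
  refine he ⟨q.transfer _ fun f hf => ?_⟩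
  have h1 := q.edges_subset_edgeSet hf
  rw [SimpleGraph.edgeSet_fromEdgeSet] at h1 ⊢
  exact ⟨mem_coe.2 (mem_erase.2 ⟨fun h => hn (SimpleGraph.Walk.mem_support_of_mem_edges hf (h ▸ hue)),
    mem_coe.1 h1.1⟩), h1.2⟩

/-- The moments of the count along one path. -/
theorem exp_cut_le {η : Finset (Sym2 V)} {o y : V} (S : Finset V) (h : Rch η o y) {x : ℝ}
    (hx : 0 ≤ x) :
    ∃ N : ℕ, (cut S o y η).card ≤ N + 1 ∧ (1 + x) ^ N ≤
      ∑ k ∈ range (S.card + 1), x ^ k * ∑ l ∈ tuples S k, ind (BKChain y o l η) := by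
  classical
  obtain ⟨q⟩ := h
  set P := q.toPath
  set L := P.1.support.tail.filter fun u => decide (u ∈ S)
  have hnd : L.Nodup := (P.2.support_nodup.sublist (List.tail_sublist _)).filter _
  have hLS : ∀ u ∈ L, u ∈ S := fun u hu => by simpa using (List.mem_filter.1 hu).2
  have hN : L.length ≤ S.card := by
    rw [← List.toFinset_card_of_nodup hnd]
    exact card_le_card fun u hu => hLS u (List.mem_toFinset.1 hu)
  refine ⟨L.length, ?_, ?_⟩
  · refine (card_le_card (t := insert o L.toFinset) fun u hu => ?_).trans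
      ((card_insert_le _ _).trans (Nat.succ_le_succ (List.toFinset_card_le _)))
    obtain ⟨huS, hu⟩ := mem_cut.1 hu
    have := hu P.1 P.2
    rw [SimpleGraph.Walk.support_eq_cons, List.mem_cons] at this
    exact this.elim (fun h => mem_insert.2 (.inl h)) fun h =>
      mem_insert_of_mem (List.mem_toFinset.2 (List.mem_filter.2 ⟨h, by simpa using huS⟩))
  have hsub : P.1.edges.toFinset ⊆ η := fun e he => by
    have h1 := P.1.edges_subset_edgeSet (List.mem_toFinset.1 he)
    rw [SimpleGraph.edgeSet_fromEdgeSet] at h1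
    exact mem_coe.1 h1.1
  have hk : ∀ k, (L.length.choose k : ℝ) ≤ ∑ l ∈ tuples S k, ind (BKChain y o l η) := by
    intro k
    have hs : (L.sublistsLen k).toFinset ⊆ tuples S k := fun l hl => by
      obtain ⟨hl, hlen⟩ := List.mem_sublistsLen.1 (List.mem_toFinset.1 hl)
      exact mem_tuples hlen fun u hu => hLS u (hl.subset hu)
    refine le_trans (le_of_eq ?_) (sum_le_sum_of_subset_of_nonneg hs fun _ _ _ => ind_nonneg _)
    have one : ∀ l ∈ (L.sublistsLen k).toFinset, ind (BKChain y o l η) = 1 := fun l hl =>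
      if_pos (inc_bkChain y l o _ _ hsub (bkChain_of_path P.1 P.2 l
        ((List.mem_sublistsLen.1 (List.mem_toFinset.1 hl)).1.trans List.filter_sublist)))
    rw [sum_congr rfl one, sum_const, List.toFinset_card_of_nodup (List.nodup_sublistsLen k hnd),
      List.length_sublistsLen, nsmul_eq_mul, mul_one]
  rw [add_comm 1 x, add_pow]
  refine le_trans (sum_le_sum fun k _ => ?_) (sum_le_sum_of_subset_of_nonneg
    (range_subset_range.2 (Nat.succ_le_succ hN)) fun k _ _ =>
      mul_nonneg (pow_nonneg hx k) (sum_nonneg fun _ _ => ind_nonneg _))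
  rw [one_pow, mul_one]
  exact mul_le_mul_of_nonneg_left (hk k) (pow_nonneg hx k)

/-- The conditional mean number of cut points in a set with flat mass is logarithmic in the
smallest chance to reach it. -/
theorem avg_cut_le (E : Finset (Sym2 V)) {p : ℝ} (h0 : 0 ≤ p) (h1 : p ≤ 1) (o y : V)
    (S : Finset V) {B r : ℝ} (hB : 1 ≤ B) (hr : 0 < r) (hr1 : r ≤ 1)
    (row : ∀ x ∈ insert o S, ∑ u ∈ S, Gladkov.tau E p x u ≤ B)
    (low : ∀ u ∈ S, r ≤ Gladkov.tau E p o u) :
    (avg E p fun η => ind (Rch η o y) * (cut S o y η).card) ≤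
      4 * B * (1 + Real.log (2 / r)) * Gladkov.tau E p o y := by
  set τ := Gladkov.tau E p o y
  set L₀ := Real.log (2 / r)
  have hτ : 0 ≤ τ := avg_nonneg _ h0 h1 fun _ _ => ind_nonneg _
  have hL : 0 ≤ L₀ := Real.log_nonneg (by rw [le_div_iff₀ hr]; linarith)
  have last : ∀ x ∈ insert o S, Gladkov.tau E p x y ≤ τ / r := by
    intro x hx
    rw [le_div_iff₀ hr]
    rcases mem_insert.1 hx with rfl | hx
    · exact mul_le_of_le_one_right hτ hr1
    · calc Gladkov.tau E p x y * r ≤ Gladkov.tau E p o x * Gladkov.tau E p x y := by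
            rw [mul_comm]
            exact mul_le_mul_of_nonneg_right (low x hx) (avg_nonneg _ h0 h1 fun _ _ => ind_nonneg _)
        _ ≤ τ := by
            refine (harris E h0 h1 _ _ (monotone_ind fun _ _ h hr => rch_mono h hr)
              (monotone_ind fun _ _ h hr => rch_mono h hr)).trans (avg_mono E h0 h1 fun η _ => ?_)
            by_cases h : Rch η o x ∧ Rch η x y
            · rw [show ind (Rch η o y) = 1 from if_pos (h.1.trans h.2)]
              exact mul_le_one₀ (ind_le_one _) (ind_nonneg _) (ind_le_one _)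
            · refine le_trans (le_of_eq ?_) (ind_nonneg _)
              rcases not_and_or.1 h with h | h <;> simp [ind, h]
  set x : ℝ := 1 / (2 * B)
  have hx : 0 ≤ x := by positivity
  have hl : 1 / (3 * B) ≤ Real.log (1 + x) := by
    refine le_trans ?_ (Real.one_sub_inv_le_log_of_pos (by positivity))
    rw [show 1 - (1 + x)⁻¹ = 1 / (2 * B + 1) from by simp only [x]; field_simp; ring]
    exact one_div_le_one_div_of_le (by linarith) (by linarith)
  set Z : Finset (Sym2 V) → ℝ := fun η =>
    ∑ k ∈ range (S.card + 1), x ^ k * ∑ l ∈ tuples S k, ind (BKChain y o l η)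
  have hZ : avg E p Z ≤ 2 * (τ / r) := by
    simp only [Z, avg_sum, avg_mul]
    have hgeo : ∑ k ∈ range (S.card + 1), (1 / 2 : ℝ) ^ k ≤ 2 := sum_geometric_two_le _
    refine le_trans (sum_le_sum fun k _ => ?_) ((sum_mul _ _ _).symm.trans_le
      (mul_le_mul_of_nonneg_right hgeo (div_nonneg hτ hr.le)))
    calc x ^ k * ∑ l ∈ tuples S k, avg E p (fun η => ind (BKChain y o l η))
        ≤ x ^ k * (B ^ k * (τ / r)) := by
          refine mul_le_mul_of_nonneg_left ?_ (pow_nonneg hx k)
          exact (sum_le_sum fun l _ => avg_chain_le E h0 h1 y l o).trans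
            (sum_chainProd_le E h0 h1 y (subset_insert o S) (by linarith) (div_nonneg hτ hr.le)
              row last k o (mem_insert_self _ _))
      _ = (1 / 2) ^ k * (τ / r) := by
          rw [← mul_assoc, ← mul_pow]
          congr 2
          simp only [x]
          field_simp
  have point : ∀ η, ind (Rch η o y) * (cut S o y η).card ≤
      (1 + 3 * B * L₀) * ind (Rch η o y) + 3 * B * (r / 2) * Z η := by
    intro η
    have hZ0 : 0 ≤ Z η := sum_nonneg fun k _ =>
      mul_nonneg (pow_nonneg hx k) (sum_nonneg fun _ _ => ind_nonneg _)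
    by_cases h : Rch η o y
    · rw [show ind (Rch η o y) = 1 from if_pos h, one_mul, mul_one]
      obtain ⟨N, hc, hN⟩ := exp_cut_le S h hx
      have hN' : (N : ℝ) * Real.log (1 + x) ≤ L₀ + r / 2 * Z η := by
        have e := Real.add_one_le_exp ((N : ℝ) * Real.log (1 + x) - L₀)
        rw [Real.exp_sub, Real.exp_nat_mul, Real.exp_log (by positivity),
          Real.exp_log (by positivity), div_div_eq_mul_div] at e
        nlinarith
      have hc' : ((cut S o y η).card : ℝ) ≤ N + 1 := by exact_mod_cast hc
      have := mul_le_mul_of_nonneg_left hl (Nat.cast_nonneg (α := ℝ) N)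
      rw [mul_one_div, div_le_iff₀ (by positivity)] at this
      nlinarith [mul_le_mul_of_nonneg_left hN' (show (0 : ℝ) ≤ 3 * B by positivity)]
    · rw [show ind (Rch η o y) = 0 from if_neg h, zero_mul, mul_zero, zero_add]
      positivity
  calc (avg E p fun η => ind (Rch η o y) * (cut S o y η).card)
      ≤ avg E p fun η => (1 + 3 * B * L₀) * ind (Rch η o y) + 3 * B * (r / 2) * Z η :=
        avg_mono E h0 h1 fun η _ => point η
    _ ≤ (1 + 3 * B * L₀) * τ + 3 * B * (r / 2) * (2 * (τ / r)) := by
        rw [avg_add, avg_mul, avg_mul]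
        exact add_le_add le_rfl (mul_le_mul_of_nonneg_left hZ (by positivity))
    _ ≤ 4 * B * (1 + L₀) * τ := by
        rw [show 3 * B * (r / 2) * (2 * (τ / r)) = 3 * B * τ from by field_simp, ← add_mul]
        exact mul_le_mul_of_nonneg_right (by nlinarith) hτ

end Vale.Agent.P165.EX
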