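import Vale.Agent.P165.EX.Insert
import Vale.Agent.P165.EX.Pivotal

/-!
# Linear volume from children of pushes

Parents `w` in a set push to anchors and the anchors have children. The second moment off the
explored cluster, the insertion of a pivotal edge and the count of cut points bound the parent mass
by the mass of the children, up to a loss that is small with the square norm of the averaged anchor
connections.
-/

namespace Vale.Agent.P165.EX

open Finset FF Gladkov

variable {V : Type} [DecidableEq V]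

theorem sum_biUnion_le_sum {κ β : Type} [DecidableEq β] (s : Finset κ) (t : κ → Finset β)
    (f : β → ℝ) (hf : ∀ b, 0 ≤ f b) : ∑ b ∈ s.biUnion t, f b ≤ ∑ i ∈ s, ∑ b ∈ t i, f b := by
  classical
  induction s using Finset.induction with
  | empty => simp
  | @insert i s hi ih =>
    rw [biUnion_insert, sum_insert hi]
    have := sum_union_inter (s₁ := t i) (s₂ := s.biUnion t) (f := f)
    linarith [sum_nonneg fun b (_ : b ∈ t i ∩ s.biUnion t) => hf b]

theorem tau_trans (E : Finset (Sym2 V)) {p : ℝ} (h0 : 0 ≤ p) (h1 : p ≤ 1)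
    (a b c : V) : Gladkov.tau E p a b * Gladkov.tau E p b c ≤ Gladkov.tau E p a c := by
  refine (harris E h0 h1 _ _ (monotone_ind (inc_rch a b)) (monotone_ind (inc_rch b c))).trans
    (avg_mono E h0 h1 fun η _ => ?_)
  by_cases h : Rch η a b ∧ Rch η b c
  · rw [show ind (Rch η a c) = 1 from if_pos (h.1.trans h.2)]
    exact mul_le_one₀ (ind_le_one _) (ind_nonneg _) (ind_le_one _)
  · refine le_trans (le_of_eq ?_) (ind_nonneg _)
    rcases not_and_or.1 h with h | h <;> simp [ind, h]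

/-- A short open path connects its ends. -/
theorem tau_path {E F : Finset (Sym2 V)} (hF : F ⊆ E) {p : ℝ} (h0 : 0 ≤ p) (h1 : p ≤ 1) {m : ℕ}
    (hm : F.card ≤ m) {a b : V} (h : Rch F a b) : p ^ m ≤ Gladkov.tau E p a b := by
  have e := avg_forced hF p fun _ => (1 : ℝ)
  rw [avg_one, mul_one] at e
  refine (pow_le_pow_of_le_one h0 h1 hm).trans (e.symm.le.trans (avg_mono E h0 h1 fun η _ => ?_))
  by_cases hs : F ⊆ η
  · rw [if_pos hs, show ind (Rch η a b) = 1 from if_pos (rch_mono hs h)]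
  · rw [if_neg hs]; exact ind_nonneg _

/-- The three point event against the geometric means. -/
theorem both_le (R : Finset (Sym2 V)) {p : ℝ} (h0 : 0 ≤ p) (h1 : p ≤ 1) (o w u : V) :
    both R p o w u ≤ √8 * (√(Gladkov.tau R p o w) *
      √(Gladkov.tau R p o u * Gladkov.tau R p w u)) := by
  rw [← Real.sqrt_mul (tau_nonneg R h0 h1 o w), ← Real.sqrt_mul (by norm_num)]
  refine Real.le_sqrt_of_sq_le ?_
  have e : both R p o w u = avg R p fun η => ind (Rch η o w ∧ Rch η o u) := avg_congr R p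
    fun η _ => by by_cases a : Rch η o w <;> by_cases b : Rch η o u <;> simp [ind, a, b]
  rw [e]
  exact (three_point R h0 h1 o w u).trans_eq (by ring)

/-- The constant in front of the children. -/
noncomputable def masterConst (p Fl : ℝ) (m M Dg n : ℕ) : ℝ :=
  32 * (n * Fl / p ^ m) * (1 + M * (2 / p) ^ m * (Dg * (4 * (1 + 2 * m * n * Fl / p ^ m))))

/-- The loss term: Cauchy–Schwarz with the anchor norm on one side and the flat mass on the
other. -/
theorem master_loss_le {E R : Finset (Sym2 V)} (hR : R ⊆ E) {p : ℝ} (h0 : 0 ≤ p) (h1 : p ≤ 1)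
    (o : V) (W0 W : Finset V) {ι : Type} (P : Finset ι) (anchor : V → ι → V)
    (child : V → ι → Finset V) {Fl X e : ℝ} (he : 0 ≤ e)
    (hflat : ∀ x y, ∑ w ∈ W0.filter (fun w => y ∈ P.biUnion (child w)),
      Gladkov.tau E p x w ≤ Fl)
    (hX : ∀ x (S : Finset V), ∑ y ∈ S, Gladkov.tau E p x y ≤ X)
    (hnorm : ∀ w ∈ W0, ∑ u ∈ W, (∑ i ∈ P, Gladkov.tau E p (anchor w i) u) ^ 2 ≤ e ^ 2) :
    ∑ w ∈ W0, ∑ i ∈ P, ∑ y ∈ child w i, ∑ u ∈ W,
        both R p o w u * (Gladkov.tau E p (anchor w i) u * Gladkov.tau E p u y) ≤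
      √8 * (√Fl * X * e *
        √((∑ w ∈ W0, Gladkov.tau R p o w) * ∑ u ∈ W, Gladkov.tau R p o u)) := by
  classical
  have tn := fun (A : Finset (Sym2 V)) (x u : V) => tau_nonneg A h0 h1 x u
  have hX0 : 0 ≤ X := (sum_empty (f := fun y => Gladkov.tau E p o y)).symm.le.trans (hX o ∅)
  set b := fun u => Gladkov.tau R p o u
  set kids := fun w => P.biUnion (child w)
  set tb := fun w u => ∑ i ∈ P, Gladkov.tau E p (anchor w i) u
  set mm := fun w u => ∑ y ∈ kids w, Gladkov.tau E p u y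
  have hmm : ∀ w u, 0 ≤ mm w u := fun w u => sum_nonneg fun _ _ => tn _ _ _
  have htb : ∀ w u, 0 ≤ tb w u := fun w u => sum_nonneg fun _ _ => tn _ _ _
  have hboth : ∀ w u, 0 ≤ both R p o w u := fun w u =>
    avg_nonneg R h0 h1 fun _ _ => mul_nonneg (ind_nonneg _) (ind_nonneg _)
  set f : V × V → ℝ := fun q => b q.1 * tb q.1 q.2 ^ 2 * mm q.1 q.2
  set g : V × V → ℝ := fun q => b q.2 * Gladkov.tau R p q.1 q.2 * mm q.1 q.2
  calc ∑ w ∈ W0, ∑ i ∈ P, ∑ y ∈ child w i, ∑ u ∈ W,
        both R p o w u * (Gladkov.tau E p (anchor w i) u * Gladkov.tau E p u y)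
      ≤ ∑ w ∈ W0, ∑ u ∈ W, both R p o w u * (tb w u * mm w u) := by
        refine sum_le_sum fun w _ => ?_
        rw [sum_congr rfl fun i _ => sum_comm, sum_comm]
        refine sum_le_sum fun u _ => ?_
        simp only [← mul_sum]
        rw [sum_mul]
        refine mul_le_mul_of_nonneg_left (sum_le_sum fun i hi => ?_) (hboth w u)
        exact mul_le_mul_of_nonneg_left (sum_le_sum_of_subset_of_nonneg
          (subset_biUnion_of_mem (child w) hi) fun _ _ _ => tn _ _ _) (tn _ _ _)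
    _ ≤ ∑ q ∈ W0 ×ˢ W, √8 * (√(f q) * √(g q)) := by
        rw [sum_product]
        refine sum_le_sum fun w _ => sum_le_sum fun u _ => ?_
        refine (mul_le_mul_of_nonneg_right (both_le R h0 h1 o w u)
          (mul_nonneg (htb w u) (hmm w u))).trans_eq ?_
        simp only [f, g, b]
        rw [Real.sqrt_mul (mul_nonneg (tn _ _ _) (sq_nonneg _)),
          Real.sqrt_mul (tn R o w) (tb w u ^ 2), Real.sqrt_sq (htb w u),
          Real.sqrt_mul (mul_nonneg (tn _ _ _) (tn _ _ _)) (mm w u)]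
        linear_combination (-(√8 * √(Gladkov.tau R p o w) * tb w u *
          √(Gladkov.tau R p o u * Gladkov.tau R p w u))) * Real.mul_self_sqrt (hmm w u)
    _ ≤ √8 * (√(∑ q ∈ W0 ×ˢ W, f q) * √(∑ q ∈ W0 ×ˢ W, g q)) := by
        rw [← mul_sum]
        exact mul_le_mul_of_nonneg_left (Real.sum_sqrt_mul_sqrt_le _
          (fun q => mul_nonneg (mul_nonneg (tn _ _ _) (sq_nonneg _)) (hmm _ _))
          fun q => mul_nonneg (mul_nonneg (tn _ _ _) (tn _ _ _)) (hmm _ _)) (Real.sqrt_nonneg _)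
    _ ≤ √8 * (√(X * e ^ 2 * ∑ w ∈ W0, b w) * √(X * Fl * ∑ u ∈ W, b u)) := by
        refine mul_le_mul_of_nonneg_left (mul_le_mul (Real.sqrt_le_sqrt ?_) (Real.sqrt_le_sqrt ?_)
          (Real.sqrt_nonneg _) (Real.sqrt_nonneg _)) (Real.sqrt_nonneg _)
        · rw [sum_product, mul_sum]
          refine sum_le_sum fun w hw => ?_
          refine (sum_le_sum fun u _ => mul_le_mul_of_nonneg_left (hX u (kids w))
            (mul_nonneg (tn _ _ _) (sq_nonneg _))).trans ?_
          dsimp only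
          rw [← sum_mul, ← mul_sum]
          refine (mul_le_mul_of_nonneg_right (mul_le_mul_of_nonneg_left (hnorm w hw) (tn _ _ _))
            hX0).trans_eq ?_
          simp only [b]
          ring
        · rw [sum_product, sum_comm, mul_sum]
          refine sum_le_sum fun u _ => ?_
          simp only [g, mm]
          simp only [mul_assoc, ← mul_sum]
          rw [← mul_assoc X, mul_comm (X * Fl)]
          refine mul_le_mul_of_nonneg_left ?_ (tn _ _ _)
          calc ∑ w ∈ W0, Gladkov.tau R p w u * ∑ y ∈ kids w, Gladkov.tau E p u y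
              = ∑ y ∈ W0.biUnion kids, Gladkov.tau E p u y *
                  ∑ w ∈ W0.filter (fun w => y ∈ kids w), Gladkov.tau R p w u := by
                simp only [mul_sum]
                rw [sum_comm' (t' := W0.biUnion kids) (s' := fun y => W0.filter fun w => y ∈ kids w)
                  fun w y => by simp only [mem_biUnion, mem_filter]; tauto]
                exact sum_congr rfl fun y _ => sum_congr rfl fun w _ => mul_comm _ _
            _ ≤ ∑ y ∈ W0.biUnion kids, Gladkov.tau E p u y * Fl := sum_le_sum fun y _ => by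
                refine mul_le_mul_of_nonneg_left ((sum_le_sum fun w _ => ?_).trans (hflat u y))
                  (tn _ _ _)
                rw [Gladkov.tau_comm E p u w]
                exact tau_mono hR h0 h1 w u
            _ ≤ X * Fl := by
                rw [← sum_mul]
                refine mul_le_mul_of_nonneg_right (hX u _) ?_
                exact (sum_nonneg fun w _ => tn E u w).trans (hflat u u)
    _ = _ := by
        refine congrArg (√8 * ·) ?_
        have h2 : 0 ≤ ∑ w ∈ W0, b w := sum_nonneg fun _ _ => tn _ _ _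
        have h4 : 0 ≤ Fl := (sum_nonneg fun w _ => tn E o w).trans (hflat o o)
        rw [Real.sqrt_mul (mul_nonneg hX0 (sq_nonneg e)), Real.sqrt_mul hX0 (e ^ 2),
          Real.sqrt_mul (mul_nonneg hX0 h4), Real.sqrt_mul hX0 Fl, Real.sqrt_sq he,
          Real.sqrt_mul h2]
        linear_combination (e * √Fl * √(∑ w ∈ W0, b w) * √(∑ u ∈ W, b u)) *
          Real.mul_self_sqrt hX0

/-- The upper bound for one child: connection times the logarithm of the smallest parent
connection, plus twice the loss. -/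
theorem master_upper {E R : Finset (Sym2 V)} (hR : R ⊆ E) {p : ℝ} (h0 : 0 < p) (h1 : p ≤ 1)
    (o y : V) {W : Finset V} (hW : ∀ e ∈ R, ∀ v ∈ e, v ∈ W) {ι : Type} (Z : Finset (V × ι))
    (anchor : V → ι → V) (push : V → ι → Finset (Sym2 V)) {m M Dg n : ℕ} {Fl r : ℝ}
    (hFl : 0 ≤ Fl) (hP : ∀ q ∈ Z, push q.1 q.2 ⊆ E) (hm : ∀ q ∈ Z, (push q.1 q.2).card ≤ m)
    (hjoin : ∀ q ∈ Z, Rch (push q.1 q.2) q.1 (anchor q.1 q.2))
    (hconn : ∀ q ∈ Z, ∀ e ∈ push q.1 q.2, ∀ v ∈ e, Rch (push q.1 q.2) q.1 v)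
    (hM : ∀ e, (Z.filter fun q => e ∈ push q.1 q.2).card ≤ M)
    (hDg : ∀ u : V, (E.filter fun e => u ∈ e).card ≤ Dg)
    (hflat : ∀ x, ∑ q ∈ Z, Gladkov.tau E p x q.1 ≤ n * Fl)
    (hr : 0 < r) (hr1 : r ≤ 1) (hlow : ∀ q ∈ Z, r ≤ Gladkov.tau E p o q.1) :
    ∑ q ∈ Z, Gladkov.tau R p o q.1 * Gladkov.tau E p (anchor q.1 q.2) y ≤
      masterConst p Fl m M Dg n * (1 + Real.log (2 / (r * p ^ m))) * Gladkov.tau E p o y +
      2 * ∑ q ∈ Z, ∑ w ∈ W,
        both R p o q.1 w * (Gladkov.tau E p (anchor q.1 q.2) w * Gladkov.tau E p w y) := by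
  classical
  have tn := fun (x u : V) => tau_nonneg E h0.le h1 x u
  have hpm : 0 < p ^ m := pow_pos h0 m
  have hpm1 : p ^ m ≤ 1 := pow_le_one₀ h0.le h1
  have hB : 0 ≤ (n : ℝ) * Fl / p ^ m := by positivity
  have near : ∀ q ∈ Z, ∀ v, Rch (push q.1 q.2) q.1 v →
      ∀ x, Gladkov.tau E p x v ≤ Gladkov.tau E p x q.1 / p ^ m := by
    intro q hq v hv x
    rw [le_div_iff₀ hpm]
    exact (mul_le_mul_of_nonneg_left (tau_path (hP q hq) h0.le h1 (hm q hq) hv.symm) (tn _ _)).trans
      (tau_trans E h0.le h1 x v q.1)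
  have sums : ∀ x, ∑ q ∈ Z, Gladkov.tau E p x q.1 / p ^ m ≤ n * Fl / p ^ m := fun x => by
    rw [← sum_div]
    exact div_le_div_of_nonneg_right (hflat x) hpm.le
  have hz : ∀ i ∈ Z, ∑ j ∈ Z, Gladkov.tau E p i.1 j.1 ≤ n * Fl / p ^ m := fun i _ =>
    (hflat i.1).trans (le_div_self (by positivity) hpm hpm1)
  have ha : ∀ i ∈ Z, ∑ j ∈ Z, Gladkov.tau E p (anchor i.1 i.2) (anchor j.1 j.2) ≤
      n * Fl / p ^ m := fun i _ =>
    (sum_le_sum fun j hj => near j hj _ (hjoin j hj) _).trans (sums _)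
  refine (explore_insert_le hR h0 h1 o y Prod.fst (fun q => anchor q.1 q.2)
    (fun q => push q.1 q.2) Z hB hW hP hm hjoin hM hz ha).trans (add_le_add ?_ le_rfl)
  set S := Z.biUnion fun q => push q.1 q.2
  set Q := S.biUnion Sym2.toFinset
  have hQ : ∀ u ∈ Q, ∃ q ∈ Z, Rch (push q.1 q.2) q.1 u := fun u hu => by
    obtain ⟨e, he, hue⟩ := mem_biUnion.1 hu
    obtain ⟨q, hq, heq⟩ := mem_biUnion.1 he
    exact ⟨q, hq, hconn q hq e heq u (Sym2.mem_toFinset.1 hue)⟩
  set B' : ℝ := 1 + 2 * m * n * Fl / p ^ m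
  have hB' : 1 ≤ B' := le_add_of_nonneg_right (by positivity)
  have hrow : ∀ x, ∑ u ∈ Q, Gladkov.tau E p x u ≤ B' := by
    intro x
    have hsub : Q ⊆ Z.biUnion fun q => (push q.1 q.2).biUnion Sym2.toFinset := fun u hu => by
      simp only [Q, S, mem_biUnion] at hu ⊢
      obtain ⟨e, ⟨q, hq, heq⟩, hue⟩ := hu
      exact ⟨q, hq, e, heq, hue⟩
    refine (sum_le_sum_of_subset_of_nonneg hsub fun _ _ _ => tn _ _).trans
      ((sum_biUnion_le_sum _ _ _ fun _ => tn _ _).trans ?_)
    calc ∑ q ∈ Z, ∑ u ∈ (push q.1 q.2).biUnion Sym2.toFinset, Gladkov.tau E p x u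
        ≤ ∑ q ∈ Z, (2 * m : ℝ) * (Gladkov.tau E p x q.1 / p ^ m) := sum_le_sum fun q hq => by
          refine (sum_le_card_nsmul _ _ (Gladkov.tau E p x q.1 / p ^ m) fun u hu => ?_).trans ?_
          · obtain ⟨e, he, hue⟩ := mem_biUnion.1 hu
            exact near q hq u (hconn q hq e he u (Sym2.mem_toFinset.1 hue)) x
          · rw [nsmul_eq_mul]
            refine mul_le_mul_of_nonneg_right ?_ (div_nonneg (tn _ _) hpm.le)
            have : ((push q.1 q.2).biUnion Sym2.toFinset).card ≤ (push q.1 q.2).card * 2 :=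
              card_biUnion_le_card_mul _ _ _ fun e _ => by
                rw [Sym2.card_toFinset]; split_ifs <;> omega
            have := this.trans (Nat.mul_le_mul_right 2 (hm q hq))
            calc (((push q.1 q.2).biUnion Sym2.toFinset).card : ℝ)
                ≤ ((m * 2 : ℕ) : ℝ) := Nat.cast_le.2 this
              _ = 2 * m := by push_cast; ring
      _ ≤ B' := by
          rw [← mul_sum]
          refine (mul_le_mul_of_nonneg_left (sums x) (by positivity)).trans ?_
          refine le_trans (le_of_eq ?_) (le_add_of_nonneg_left zero_le_one)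
          ring
  have hrm : r * p ^ m ≤ 1 := mul_le_one₀ hr1 hpm.le hpm1
  have hlow' : ∀ u ∈ Q, r * p ^ m ≤ Gladkov.tau E p o u := fun u hu => by
    obtain ⟨q, hq, hv⟩ := hQ u hu
    exact (mul_le_mul (hlow q hq) (tau_path (hP q hq) h0.le h1 (hm q hq) hv) hpm.le
      (tn _ _)).trans (tau_trans E h0.le h1 o q.1 u)
  have hcut := avg_cut_le E h0.le h1 o y Q hB' (mul_pos hr hpm) hrm (fun x _ => hrow x) hlow'
  have hpiv : avg E p (pivCount S o y) ≤
      (Dg : ℝ) * (4 * B' * (1 + Real.log (2 / (r * p ^ m))) * Gladkov.tau E p o y) := by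
    refine le_trans ?_ (mul_le_mul_of_nonneg_left hcut (Nat.cast_nonneg _))
    rw [← avg_mul]
    refine avg_mono E h0.le h1 fun η _ => ?_
    by_cases hy : Rch η o y
    · rw [show ind (Rch η o y) = 1 from if_pos hy, one_mul]
      have hsub : (S.filter fun e => Piv η o y e) ⊆
          (cut Q o y η).biUnion fun u => E.filter fun e => u ∈ e := fun e he => by
        obtain ⟨heS, hpe⟩ := mem_filter.1 he
        obtain ⟨q, hq, heq⟩ := mem_biUnion.1 heS
        have hv : e.out.1 ∈ e := Sym2.out_fst_mem e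
        exact mem_biUnion.2 ⟨e.out.1, mem_cut_of_pivotal
          (mem_biUnion.2 ⟨e, heS, Sym2.mem_toFinset.2 hv⟩) hv hpe.2,
          mem_filter.2 ⟨hP q hq heq, hv⟩⟩
      calc pivCount S o y η = ((S.filter fun e => Piv η o y e).card : ℝ) := by
            simp [pivCount, ind]
        _ ≤ (((cut Q o y η).card * Dg : ℕ) : ℝ) := Nat.cast_le.2
            ((card_le_card hsub).trans (card_biUnion_le_card_mul _ _ _ fun u _ => hDg u))
        _ = _ := by push_cast; ring
    · rw [show ind (Rch η o y) = 0 from if_neg hy, zero_mul, mul_zero]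
      exact (sum_eq_zero fun e _ => if_neg fun h => hy h.1).le
  set L := Real.log (2 / (r * p ^ m))
  have hL : 0 ≤ L := Real.log_nonneg (by rw [le_div_iff₀ (mul_pos hr hpm)]; linarith)
  have hM0 : 0 ≤ (M : ℝ) * (2 / p) ^ m := by positivity
  have := mul_le_mul_of_nonneg_left hpiv hM0
  have hτ := tn o y
  calc 32 * (n * Fl / p ^ m) *
        (Gladkov.tau E p o y + M * (2 / p) ^ m * avg E p (pivCount S o y))
      ≤ 32 * (n * Fl / p ^ m) * ((1 + L) * Gladkov.tau E p o y + M * (2 / p) ^ m *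
          (Dg * (4 * B' * (1 + L) * Gladkov.tau E p o y))) := by
        refine mul_le_mul_of_nonneg_left (add_le_add ?_ this) (by positivity)
        nlinarith
    _ = _ := by simp only [masterConst, B', L]; ring

/-- Parents carry at most the children's mass times a logarithm, plus a loss proportional to the
anchor norm. -/
theorem master_abs {E R : Finset (Sym2 V)} (hR : R ⊆ E) {p : ℝ} (h0 : 0 < p) (h1 : p ≤ 1) (o : V)
    (W0 W : Finset V) (hW : ∀ e ∈ R, ∀ v ∈ e, v ∈ W) {ι : Type} (P : Finset ι)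
    (anchor : V → ι → V) (push : V → ι → Finset (Sym2 V)) (child : V → ι → Finset V)
    {m M Dg : ℕ} {Fl X e r Gm : ℝ} (he : 0 ≤ e) (hFl : 0 ≤ Fl)
    (hP : ∀ w ∈ W0, ∀ i ∈ P, push w i ⊆ E) (hm : ∀ w ∈ W0, ∀ i ∈ P, (push w i).card ≤ m)
    (hjoin : ∀ w ∈ W0, ∀ i ∈ P, Rch (push w i) w (anchor w i))
    (hconn : ∀ w ∈ W0, ∀ i ∈ P, ∀ e ∈ push w i, ∀ v ∈ e, Rch (push w i) w v)
    (hM : ∀ e, ((W0 ×ˢ P).filter fun q => e ∈ push q.1 q.2).card ≤ M)
    (hDg : ∀ u : V, (E.filter fun e => u ∈ e).card ≤ Dg)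
    (hflat : ∀ x y, ∑ w ∈ W0.filter (fun w => y ∈ P.biUnion (child w)),
      Gladkov.tau E p x w ≤ Fl)
    (hX : ∀ x (S : Finset V), ∑ y ∈ S, Gladkov.tau E p x y ≤ X)
    (hr : 0 < r) (hr1 : r ≤ 1) (hlow : ∀ w ∈ W0, r ≤ Gladkov.tau E p o w)
    (hnorm : ∀ w ∈ W0, ∑ u ∈ W, (∑ i ∈ P, Gladkov.tau E p (anchor w i) u) ^ 2 ≤ e ^ 2)
    (hmass : ∀ w ∈ W0, Gm ≤ ∑ i ∈ P, ∑ y ∈ child w i, Gladkov.tau E p (anchor w i) y) :
    Gm * ∑ w ∈ W0, Gladkov.tau R p o w ≤
      masterConst p Fl m M Dg P.card * (1 + Real.log (2 / (r * p ^ m))) *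
          ∑ y ∈ W0.biUnion (fun w => P.biUnion (child w)), Gladkov.tau E p o y +
        6 * (√Fl * X * e *
          √((∑ w ∈ W0, Gladkov.tau R p o w) * ∑ u ∈ W, Gladkov.tau R p o u)) := by
  classical
  set kids := fun w => P.biUnion (child w)
  set Y := W0.biUnion kids
  set Z := fun y => (W0 ×ˢ P).filter fun q => y ∈ child q.1 q.2
  have swap : ∀ f : V → ι → V → ℝ, ∑ y ∈ Y, ∑ q ∈ Z y, f q.1 q.2 y =
      ∑ w ∈ W0, ∑ i ∈ P, ∑ y ∈ child w i, f w i y := fun f => by
    rw [← sum_product' W0 P]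
    refine sum_comm' fun y q => ?_
    simp only [Z, Y, kids, mem_biUnion, mem_filter, mem_product]
    exact ⟨fun h => ⟨h.2.2, h.2.1⟩, fun h => ⟨⟨q.1, h.2.1, q.2, h.2.2, h.1⟩, h.2, h.1⟩⟩
  have up : ∀ y ∈ Y, _ := fun y _ =>
    master_upper hR h0 h1 o y hW (Z y) anchor push hFl (n := P.card)
      (fun q hq => hP _ (mem_product.1 (mem_filter.1 hq).1).1 _ (mem_product.1 (mem_filter.1 hq).1).2)
      (fun q hq => hm _ (mem_product.1 (mem_filter.1 hq).1).1 _ (mem_product.1 (mem_filter.1 hq).1).2)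
      (fun q hq => hjoin _ (mem_product.1 (mem_filter.1 hq).1).1 _
        (mem_product.1 (mem_filter.1 hq).1).2)
      (fun q hq => hconn _ (mem_product.1 (mem_filter.1 hq).1).1 _
        (mem_product.1 (mem_filter.1 hq).1).2)
      (fun e => (card_le_card (filter_subset_filter _ (filter_subset _ _))).trans (hM e)) hDg
      (fun x => by
        refine le_trans (sum_le_sum_of_subset_of_nonneg
          (t := W0.filter (fun w => y ∈ kids w) ×ˢ P) (fun q hq => ?_)
          fun _ _ _ => tau_nonneg E h0.le h1 _ _) ?_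
        · obtain ⟨hq, hy⟩ := mem_filter.1 hq
          obtain ⟨hw, hi⟩ := mem_product.1 hq
          exact mem_product.2 ⟨mem_filter.2 ⟨hw, mem_biUnion.2 ⟨_, hi, hy⟩⟩, hi⟩
        · rw [sum_product]
          simp only [sum_const, nsmul_eq_mul, ← mul_sum]
          exact mul_le_mul_of_nonneg_left (hflat x y) (Nat.cast_nonneg _))
      hr hr1 (fun q hq => hlow _ (mem_product.1 (mem_filter.1 hq).1).1)
  have total := sum_le_sum up
  rw [sum_add_distrib, ← mul_sum, ← mul_sum,
    swap fun w i y => Gladkov.tau R p o w * Gladkov.tau E p (anchor w i) y,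
    swap fun w i y => ∑ u ∈ W,
      both R p o w u * (Gladkov.tau E p (anchor w i) u * Gladkov.tau E p u y)] at total
  refine le_trans ?_ (total.trans (add_le_add le_rfl ?_))
  · rw [mul_sum]
    refine sum_le_sum fun w hw => ?_
    simp only [← mul_sum]
    rw [mul_comm]
    exact mul_le_mul_of_nonneg_left (hmass w hw) (tau_nonneg R h0.le h1 _ _)
  · refine (mul_le_mul_of_nonneg_left
      (master_loss_le hR h0.le h1 o W0 W P anchor child he hflat hX hnorm) zero_le_two).trans ?_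
    rw [← mul_assoc]
    refine mul_le_mul_of_nonneg_right ?_ ?_
    · have := (Real.sqrt_le_iff (x := 8) (y := 3)).2 ⟨by norm_num, by norm_num⟩
      linarith
    · have hX0 : 0 ≤ X := (sum_empty (f := fun y => Gladkov.tau E p o y)).symm.le.trans (hX o ∅)
      positivity

end Vale.Agent.P165.EX
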