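import Vale.Agent.P165.EX.Skeleton

/-!
# Small rows in one of finitely many windows

If below a parameter one of finitely many windows always has states with rows at most a quarter of
the window, then one window occurs at parameters arbitrarily close from below, its form is small
there, and by continuity at the parameter itself.
-/

namespace Vale.Agent.P165.EX

open Finset FF Filter Topology

variable {Γ O ι : Type} [Group Γ] [DecidableEq Γ] [DecidableEq O] [Fintype ι]
  {G : SimpleGraph (Γ × O)} {nb : Γ × O → ι → Γ × O}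

/-- Below the parameter one of finitely many windows has small rows for some states. -/
def WindowsBelow (nb : Γ × O → ι → Γ × O) (p : ℝ) : Prop :=
  ∃ Ns : Finset ℕ, ∀ q, p / 2 ≤ q → q < p → ∃ n ∈ Ns, 1 ≤ n ∧
    ∃ (X : Type) (_ : Nonempty X) (W : X → Γ → ℝ), Cocycle W ∧ RowBound nb W q n ((n : ℝ) / 4)

/-- Below the parameter one of finitely many windows has a small form. -/
def FormsBelow (nb : Γ × O → ι → Γ × O) (p : ℝ) : Prop :=
  ∃ Ns : Finset ℕ, ∀ q, p / 2 ≤ q → q < p → ∃ n ∈ Ns, 1 ≤ n ∧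
    FQ.FormSmall nb (fun x => QT.wball nb x n) n q (1 / 4)

theorem formsBelow_of_windows (hl : Labelling G nb) (hinv : Inv G) {p : ℝ} (hp : 0 < p)
    (hp1 : p ≤ 1) (h : WindowsBelow nb p) : FormsBelow nb p := by
  obtain ⟨Ns, hNs⟩ := h
  refine ⟨Ns, fun q hq hq' => ?_⟩
  obtain ⟨n, hn, hn1, X, hX, W, hc, hB⟩ := hNs q hq hq'
  exact ⟨n, hn, hn1, schur hl hinv hc (by linarith) (hq'.le.trans hp1) hB (by linarith)⟩

omit [Group Γ] in
/-- One window serves the parameter itself. -/
theorem exists_formSmall {p : ℝ} (hp : 0 < p) (h : FormsBelow nb p) :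
    ∃ n, 1 ≤ n ∧ FQ.FormSmall nb (fun x => QT.wball nb x n) n p (1 / 4) := by
  obtain ⟨Ns, hNs⟩ := h
  let small : ℕ → ℝ → Prop := fun n q =>
    1 ≤ n ∧ FQ.FormSmall nb (fun x => QT.wball nb x n) n q (1 / 4)
  have hev : ∀ᶠ q in 𝓝[<] p, ∃ n ∈ Ns, small n q := by
    filter_upwards [Ioo_mem_nhdsLT (show p / 2 < p by linarith)] with q hq
    exact hNs q hq.1.le hq.2
  obtain ⟨n, hfr⟩ : ∃ n, ∃ᶠ q in 𝓝[<] p, n ∈ Ns ∧ small n q := by
    by_contra hno
    push Not at hno
    have := (Finset.eventually_all Ns).2 fun n _ =>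
      (hno n).mono fun q hq (hn : n ∈ Ns) => hq hn
    obtain ⟨q, ⟨n, hn, hs⟩, hno'⟩ := (hev.and this).exists
    exact hno' n hn hn hs
  obtain ⟨-, -, hn1, -⟩ := hfr.exists
  refine ⟨n, hn1, fun F f hf => ?_⟩
  have hcont : Continuous fun q : ℝ => ∑ x ∈ F, ∑ y ∈ F,
      f x * f y * FQ.tauW nb (QT.wball nb x n) q x y n :=
    continuous_finsetSum _ fun x _ => continuous_finsetSum _ fun y _ =>
      continuous_const.mul (FQ.tauW_continuous _ x y n)
  exact le_of_tendsto_of_frequently ((hcont.tendsto p).mono_left nhdsWithin_le_nhds)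
    (hfr.mono fun q hq => hq.2.2 F f hf)

/-- A small form in one of finitely many windows gives `pc < pu`. -/
theorem pc_lt_pu_of_forms [Fintype O] [Infinite Γ] [Nonempty O] (hl : Labelling G nb)
    (hinv : Inv G) (hconn : G.Connected) (h : ∀ p, FQ.Sub nb p → FormsBelow nb p) :
    pc G < pu G := by
  refine FQ.pc_lt_pu_of_small hl hinv hconn fun p hs => ?_
  obtain ⟨n, hn, hF⟩ := exists_formSmall hs.1 (h p hs)
  exact ⟨fun x => QT.wball nb x n, n, hn, QT.covers_wball hl n,
    fun g x => QT.image_wball hl (trIso hinv g) x n, hF⟩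

/-- Small rows in one of finitely many windows give `pc < pu`. -/
theorem pc_lt_pu_of_windows [Fintype O] [Infinite Γ] [Nonempty O] (hl : Labelling G nb)
    (hinv : Inv G) (hconn : G.Connected) (h : ∀ p, FQ.Sub nb p → WindowsBelow nb p) :
    pc G < pu G :=
  pc_lt_pu_of_forms hl hinv hconn fun p hs => formsBelow_of_windows hl hinv hs.1 hs.2.1 (h p hs)

omit [DecidableEq Γ] [DecidableEq O] [Fintype ι] in
/-- A small form on every chart gives a nonuniqueness phase. -/
theorem nonuniquePhase_of_forms [DecidableEq Γ] [Infinite Γ]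
    (h : ∀ (O : Type) [Fintype O] [DecidableEq O] [Nonempty O] (d : ℕ)
      (G : SimpleGraph (Γ × O)) (nb : Γ × O → Fin d → Γ × O), Labelling G nb → Inv G →
      G.Connected → ∀ p, FQ.Sub nb p → FormsBelow nb p) :
    SG.NonuniquePhase Γ := by
  classical
  have key : ∀ (V : Type) (G : SimpleGraph V) (d : ℕ), G.Connected →
      (∀ v, (G.neighborSet v).encard = d) → ∀ (Φ : Γ →* (G ≃g G)),
      (∀ g v, Φ g v = v → g = 1) → ∀ R : Finset V, (∀ v, ∃ g, Φ g v ∈ R) → pc G < pu G := by
    intro V G d hc hd Φ free R cover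
    obtain ⟨O, hO, hO', G', hinv, ⟨φ⟩⟩ := exists_chart G Φ free R cover
    have hc' : G'.Connected := φ.connected_iff.1 hc
    have hd' : ∀ x, (G'.neighborSet x).encard = d := fun x => by
      obtain ⟨v, rfl⟩ := φ.surjective x
      rw [← hd v]
      exact (ENat.card_congr (φ.mapNeighborSet v)).symm
    obtain ⟨nb, hl⟩ := exists_labelling G' d hd'
    rw [pc_congr φ, pu_congr φ]
    have : Nonempty O := ⟨(hc'.nonempty.some).2⟩
    exact pc_lt_pu_of_forms hl hinv hc' fun p hs => h O d G' nb hl hinv hc' p hs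
  refine ⟨key, fun Δ _ s hfins hgen ψ hψ hidx => ?_⟩
  obtain ⟨hconn, d, hd⟩ := TL.connected_regular_mulCayley s hfins hgen
  obtain ⟨Φ, R, free, cover⟩ := exists_leftAction (SimpleGraph.mulCayley s)
    (fun _ _ _ => SimpleGraph.mulCayley_adj_mul_iff_right) ψ hψ hidx
  exact key _ _ d hconn hd Φ free R cover

omit [DecidableEq Γ] [DecidableEq O] [Fintype ι] in
/-- Small rows on every chart give a nonuniqueness phase. -/
theorem nonuniquePhase_of_windows [DecidableEq Γ] [Infinite Γ]
    (h : ∀ (O : Type) [Fintype O] [DecidableEq O] [Nonempty O] (d : ℕ)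
      (G : SimpleGraph (Γ × O)) (nb : Γ × O → Fin d → Γ × O), Labelling G nb → Inv G →
      G.Connected → ∀ p, FQ.Sub nb p → WindowsBelow nb p) :
    SG.NonuniquePhase Γ :=
  nonuniquePhase_of_forms fun O _ _ _ d G nb hl hinv hconn p hs =>
    formsBelow_of_windows hl hinv hs.1 hs.2.1 (h O d G nb hl hinv hconn p hs)

end Vale.Agent.P165.EX
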