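import Vale.Agent.P165.EX.Examples
import Vale.Agent.P165.EX.Windows

/-!
# From small rows to a phase for dense groups with finite boxes
-/

namespace Vale.Agent.P165.EX

open Matrix
open scoped Matrix.Norms.Elementwise MatrixGroups

/-- Boxes bound the norm. -/
theorem finite_norm_of_boxes {k : Type} [NontriviallyNormedField k] {n : ℕ} {Γ : Type} [Group Γ]
    (ρ : Γ →* SL(n, k))
    (hfin : ∀ R : ℝ, {g : Γ | ∀ i j, ‖(ρ g : Matrix (Fin n) (Fin n) k) i j‖ ≤ R}.Finite) (R : ℝ) :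
    {g : Γ | ‖(ρ g : Matrix (Fin n) (Fin n) k)‖ ≤ R}.Finite :=
  (hfin R).subset fun g (hg : ‖(ρ g : Matrix (Fin n) (Fin n) k)‖ ≤ R) i j =>
    (norm_entry_le_entrywise_sup_norm (ρ g : Matrix (Fin n) (Fin n) k) (i := i) (j := j)).trans hg

/-- Small rows on every chart of every dense group with finite boxes give the phase. -/
theorem phaseSL_of_windows {n : ℕ} (hn : 2 ≤ n)
    (h : ∀ (k : Type) [NontriviallyNormedField k] [ProperSpace k] (Γ : Type) [Group Γ]
      [DecidableEq Γ] [Infinite Γ] (ρ : Γ →* SL(n, k)),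
      SL.ZariskiDense (Set.range fun g => (ρ g : Matrix (Fin n) (Fin n) k)) →
      (∀ R : ℝ, {g : Γ | ‖(ρ g : Matrix (Fin n) (Fin n) k)‖ ≤ R}.Finite) →
      ∀ (O : Type) [Fintype O] [DecidableEq O] [Nonempty O] (d : ℕ)
        (G : SimpleGraph (Γ × O)) (nb : Γ × O → Fin d → Γ × O),
        Labelling G nb → FF.Inv G → G.Connected → ∀ p, FQ.Sub nb p → WindowsBelow nb p) :
    PhaseSL n := by
  intro k _ _ Γ _ ρ hd hfin
  classical
  have := infinite_of_dense hn ρ hd
  exact nonuniquePhase_of_windows (h k Γ ρ hd (finite_norm_of_boxes ρ hfin))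

end Vale.Agent.P165.EX
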