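import Vale.Agent.P165.EX.Pack

/-!
# Boxes hold polynomially many elements

A proper normed field covers a ball by a number of balls that is polynomial in the ratio of the
radii. Two elements of a box of radius `R` that are `R ^ (-n)` apart differ by a bounded element,
so a homomorphism to `SL(n, k)` with finite boxes puts at most `C R ^ D` elements in that box.
-/

namespace Vale.Agent.P165.EX

open Matrix Finset
open scoped Matrix.Norms.Elementwise MatrixGroups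

variable {k : Type} [NontriviallyNormedField k] [ProperSpace k] {n : ℕ} {Γ : Type} [Group Γ]

/-- A ball is covered by polynomially many small balls. -/
theorem exists_cover (X : Type) [NormedAddCommGroup X] [NormedSpace k X] [ProperSpace X]
    {c : k} (hc : 1 < ‖c‖) :
    ∃ m : ℕ, 1 ≤ m ∧ ∀ t : ℕ, ∃ T : Finset X, T.card ≤ m ^ t ∧
      ∀ x : X, ‖x‖ ≤ 1 → ∃ u ∈ T, ‖x - u‖ ≤ (‖c‖ ^ t)⁻¹ := by
  classical
  have hc0 : 0 < ‖c‖ := zero_lt_one.trans hc
  obtain ⟨T₁, hT₁⟩ : ∃ T₁ : Finset X, ∀ x : X, ‖x‖ ≤ 1 → ∃ u ∈ T₁, ‖x - u‖ ≤ ‖c‖⁻¹ := by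
    obtain ⟨s, -, hfin, hs⟩ := finite_cover_balls_of_compact (isCompact_closedBall (0 : X) 1)
      (inv_pos.2 hc0)
    refine ⟨hfin.toFinset, fun x hx => ?_⟩
    obtain ⟨u, hu, hxu⟩ := Set.mem_iUnion₂.1 (hs (mem_closedBall_zero_iff.2 hx))
    exact ⟨u, hfin.mem_toFinset.2 hu, (dist_eq_norm x u ▸ Metric.mem_ball.1 hxu).le⟩
  refine ⟨T₁.card + 1, Nat.le_add_left 1 _, fun t => ?_⟩
  induction t with
  | zero => exact ⟨{0}, by simp, fun x hx => ⟨0, mem_singleton_self _, by simpa using hx⟩⟩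
  | succ t ih =>
    obtain ⟨T, hT, hcov⟩ := ih
    refine ⟨(T ×ˢ T₁).image fun q => q.1 + (c ^ t)⁻¹ • q.2, ?_, fun x hx => ?_⟩
    · refine card_image_le.trans ?_
      rw [card_product, pow_succ]
      exact Nat.mul_le_mul hT (Nat.le_succ _)
    obtain ⟨u, hu, hxu⟩ := hcov x hx
    have hy : ‖c ^ t • (x - u)‖ ≤ 1 := by
      rw [norm_smul, norm_pow]
      exact (mul_le_mul_of_nonneg_left hxu (by positivity)).trans
        (mul_inv_cancel₀ (pow_pos hc0 t).ne').le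
    obtain ⟨v, hv, hyv⟩ := hT₁ _ hy
    refine ⟨u + (c ^ t)⁻¹ • v, mem_image.2 ⟨(u, v), mem_product.2 ⟨hu, hv⟩, rfl⟩, ?_⟩
    have e : x - (u + (c ^ t)⁻¹ • v) = (c ^ t)⁻¹ • (c ^ t • (x - u) - v) := by
      rw [smul_sub ((c ^ t)⁻¹) (c ^ t • (x - u)),
        inv_smul_smul₀ (pow_ne_zero t (norm_pos_iff.1 hc0)), sub_add_eq_sub_sub]
    rw [e, norm_smul, norm_inv, norm_pow, pow_succ, mul_inv]
    exact mul_le_mul_of_nonneg_left hyv (by positivity)

/-- A box of radius `R` holds at most `C R ^ D` elements. -/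
theorem exists_ball_count (ρ : Γ →* SL(n, k))
    (hfin : ∀ R : ℝ, {g : Γ | ‖(ρ g : Matrix (Fin n) (Fin n) k)‖ ≤ R}.Finite) :
    ∃ (C : ℝ) (D : ℕ), 0 ≤ C ∧ ∀ R : ℝ, 1 ≤ R → ∀ S : Finset Γ,
      (∀ g ∈ S, ‖(ρ g : Matrix (Fin n) (Fin n) k)‖ ≤ R) → (S.card : ℝ) ≤ C * R ^ D := by
  classical
  have : ProperSpace (Matrix (Fin n) (Fin n) k) := FiniteDimensional.proper k _
  obtain ⟨c, hc2⟩ := NormedField.exists_lt_norm k 2
  have hc : 1 < ‖c‖ := by linarith
  obtain ⟨m, hm, hcover⟩ := exists_cover (k := k) (Matrix (Fin n) (Fin n) k) hc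
  obtain ⟨d, hd⟩ := pow_unbounded_of_one_lt (m : ℝ) hc
  set B : ℝ := 1 + n * n.factorial with hB
  set N₀ := (hfin B).toFinset
  refine ⟨(N₀.card : ℝ) * m ^ (n + 2), d * (n + 1), by positivity, fun R hR S hS => ?_⟩
  obtain ⟨j, hj, hj'⟩ := exists_nat_pow_near hR hc
  set t := (n + 1) * (j + 1) + 1 with ht
  obtain ⟨T, hT, hTc⟩ := hcover t
  have hc0 : 0 < ‖c‖ := zero_lt_one.trans hc
  have hR0 : 0 ≤ R := zero_le_one.trans hR
  have near : ∀ g : Γ, ∃ u : Matrix (Fin n) (Fin n) k, g ∈ S → u ∈ T ∧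
      ‖(c ^ (j + 1))⁻¹ • (ρ g : Matrix (Fin n) (Fin n) k) - u‖ ≤ (‖c‖ ^ t)⁻¹ := fun g => by
    by_cases hg : g ∈ S
    · obtain ⟨u, hu, hgu⟩ := hTc ((c ^ (j + 1))⁻¹ • (ρ g : Matrix (Fin n) (Fin n) k)) (by
        rw [norm_smul, norm_inv, norm_pow, inv_mul_le_iff₀ (by positivity), mul_one]
        exact (hS g hg).trans hj'.le)
      exact ⟨u, fun _ => ⟨hu, hgu⟩⟩
    · exact ⟨0, fun h => absurd h hg⟩
  choose u hu using near
  have fibre : ∀ v ∈ T, (S.filter fun g => u g = v).card ≤ N₀.card := by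
    intro v _
    rcases (S.filter fun g => u g = v).eq_empty_or_nonempty with h | ⟨g₀, hg₀⟩
    · simp [h]
    refine card_le_card_of_injOn (fun g => g₀⁻¹ * g) (fun g hg => ?_)
      fun _ _ _ _ h => mul_left_cancel h
    obtain ⟨hg₀S, rfl⟩ := mem_filter.1 hg₀
    obtain ⟨hgS, he⟩ := mem_filter.1 hg
    refine (hfin B).mem_toFinset.2 ((Matrix.norm_le_iff (by positivity)).2 fun a b => ?_)
    set M := (ρ g : Matrix (Fin n) (Fin n) k)
    set M₀ := (ρ g₀ : Matrix (Fin n) (Fin n) k)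
    have hclose : ‖M - M₀‖ ≤ (R ^ n)⁻¹ := by
      have h1 : ‖(c ^ (j + 1))⁻¹ • (M - M₀)‖ ≤ 2 * (‖c‖ ^ t)⁻¹ := by
        rw [smul_sub, show ∀ P Q : Matrix (Fin n) (Fin n) k, P - Q = P - u g - (Q - u g₀) from
          fun P Q => by rw [he]; abel]
        exact (norm_sub_le _ _).trans (by linarith [(hu g hgS).2, (hu g₀ hg₀S).2])
      rw [norm_smul, norm_inv, norm_pow, inv_mul_le_iff₀ (by positivity)] at h1
      refine h1.trans ?_
      rw [le_inv_comm₀ (by positivity) (by positivity), mul_inv, mul_inv, inv_inv,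
        ← div_le_iff₀' (by positivity), div_inv_eq_mul, le_inv_mul_iff₀ two_pos]
      have h2 : R ^ n * ‖c‖ ^ (j + 1) ≤ ‖c‖ ^ ((n + 1) * (j + 1)) := by
        rw [show (n + 1) * (j + 1) = (j + 1) * n + (j + 1) by ring, pow_add (‖c‖) ((j + 1) * n),
          pow_mul]
        exact mul_le_mul_of_nonneg_right (pow_le_pow_left₀ hR0 hj'.le n) (by positivity)
      rw [ht, pow_succ]
      calc 2 * (R ^ n * ‖c‖ ^ (j + 1)) ≤ ‖c‖ * ‖c‖ ^ ((n + 1) * (j + 1)) :=
            mul_le_mul hc2.le h2 (by positivity) hc0.le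
        _ = _ := mul_comm _ _
    have e : (ρ (g₀⁻¹ * g) : Matrix (Fin n) (Fin n) k) = 1 + M₀.adjugate * (M - M₀) := by
      rw [map_mul, map_inv, Matrix.SpecialLinearGroup.coe_mul, Matrix.SpecialLinearGroup.coe_inv,
        mul_sub, adjugate_mul, Matrix.SpecialLinearGroup.det_coe, one_smul]
      abel
    rw [e, Matrix.add_apply, Matrix.mul_apply, hB]
    refine (norm_add_le _ _).trans (add_le_add ?_ ((norm_sum_le _ _).trans ?_))
    · rw [Matrix.one_apply]; split_ifs <;> simp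
    · refine (sum_le_card_nsmul _ _ (n.factorial : ℝ) fun i _ => ?_).trans (by simp)
      rw [norm_mul]
      refine (mul_le_mul (adjugate_entry_le hR M₀ (fun x y => (norm_entry_le_entrywise_sup_norm _).trans (hS g₀ hg₀S)) a i)
        ((norm_entry_le_entrywise_sup_norm _).trans hclose) (norm_nonneg _) (by positivity)).trans
        (le_of_eq ?_)
      rw [mul_assoc, mul_inv_cancel₀ (pow_ne_zero n (by linarith)), mul_one]
  have hcard : S.card ≤ N₀.card * m ^ t :=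
    calc S.card = ∑ v ∈ T, (S.filter fun g => u g = v).card :=
          card_eq_sum_card_fiberwise fun g hg => (hu g hg).1
      _ ≤ T.card * N₀.card := (sum_le_card_nsmul _ _ _ fibre).trans_eq (smul_eq_mul _ _)
      _ ≤ N₀.card * m ^ t := by rw [mul_comm]; exact Nat.mul_le_mul_left _ hT
  calc (S.card : ℝ) ≤ N₀.card * (m : ℝ) ^ t := by exact_mod_cast hcard
    _ = N₀.card * (m : ℝ) ^ (n + 2) * ((m : ℝ) ^ (n + 1)) ^ j := by
        rw [ht, ← pow_mul, mul_assoc, ← pow_add]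
        congr 2
        ring
    _ ≤ _ := by
        refine mul_le_mul_of_nonneg_left ?_ (by positivity)
        calc ((m : ℝ) ^ (n + 1)) ^ j ≤ ((‖c‖ ^ d) ^ (n + 1)) ^ j :=
              pow_le_pow_left₀ (by positivity)
                (pow_le_pow_left₀ (Nat.cast_nonneg _) hd.le _) _
          _ = (‖c‖ ^ j) ^ (d * (n + 1)) := by
              rw [← pow_mul, ← pow_mul, ← pow_mul]; congr 1; ring
          _ ≤ R ^ (d * (n + 1)) := pow_le_pow_left₀ (by positivity) hj _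

end Vale.Agent.P165.EX
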