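import Vale.Agent.P165.EX.Explore

/-!
# Intrinsic distance and the bubble

On a shortest open path from `o` to `x` the vertex at distance `j` is reached inside the ball of
radius `j` of `o`, and the rest of the path uses no edge at that ball. Exploring the ball bounds the
chance of a connection at intrinsic distance at least `n` by the bubble divided by `n`, and gives
the middle range bound with a ball count in place of one of the connection probabilities.
-/

namespace Vale.Agent.P165.EX

open Finset FF Gladkov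

variable {V : Type} [DecidableEq V]

/-- An open walk of at most `m` steps. -/
def Within (η : Finset (Sym2 V)) (x y : V) (m : ℕ) : Prop :=
  ∃ q : (SimpleGraph.fromEdgeSet (↑η : Set (Sym2 V))).Walk x y, q.length ≤ m

/-- The intrinsic distance is `j`. -/
def AtDist (η : Finset (Sym2 V)) (x y : V) (j : ℕ) : Prop :=
  Within η x y j ∧ ∀ i < j, ¬Within η x y i

omit [DecidableEq V] in
theorem Within.rch {η : Finset (Sym2 V)} {x y : V} {m : ℕ} (h : Within η x y m) : Rch η x y :=
  let ⟨q, _⟩ := h
  ⟨q⟩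

omit [DecidableEq V] in
theorem inc_within (x y : V) (m : ℕ) : Inc fun η : Finset (Sym2 V) => Within η x y m := by
  rintro η η' h ⟨q, hq⟩
  exact ⟨q.mapLe (SimpleGraph.fromEdgeSet_mono (coe_subset.2 h)),
    by rwa [SimpleGraph.Walk.length_map]⟩

omit [DecidableEq V] in
theorem Within.extend {η : Finset (Sym2 V)} {o a b : V} {m : ℕ} (h : Within η o a m)
    (he : s(a, b) ∈ η) (hne : a ≠ b) : Within η o b (m + 1) := by
  obtain ⟨q, hq⟩ := h
  exact ⟨q.concat ((SimpleGraph.fromEdgeSet_adj _).2 ⟨mem_coe.2 he, hne⟩),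
    by rw [SimpleGraph.Walk.length_concat]; omega⟩

/-- The edges of `E` at the vertices within fewer than `j` steps of `o`. -/
noncomputable def ball (E : Finset (Sym2 V)) (o : V) (j : ℕ) (η : Finset (Sym2 V)) :
    Finset (Sym2 V) :=
  @Finset.filter _ (fun e => ∃ v ∈ e, ∃ i < j, Within (η ∩ E) o v i) (Classical.decPred _) E

theorem mem_ball {E : Finset (Sym2 V)} {o : V} {j : ℕ} {η : Finset (Sym2 V)} {e : Sym2 V} :
    e ∈ ball E o j η ↔ e ∈ E ∧ ∃ v ∈ e, ∃ i < j, Within (η ∩ E) o v i := by
  simp [ball]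

theorem within_of_agree {E : Finset (Sym2 V)} {o : V} {j : ℕ} {η η' : Finset (Sym2 V)}
    (h : ∀ e ∈ ball E o j η, e ∈ η' ↔ e ∈ η) (v : V) {i : ℕ} (hi : i ≤ j) :
    Within (η' ∩ E) o v i ↔ Within (η ∩ E) o v i := by
  induction i generalizing v with
  | zero =>
    constructor <;> rintro ⟨q, hq⟩ <;>
      obtain rfl := q.eq_of_length_eq_zero (by omega) <;> exact ⟨.nil, le_rfl⟩
  | succ i ih =>
    have step : ∀ {u w : V}, Within (η ∩ E) o u i → s(u, w) ∈ E →
        (s(u, w) ∈ η' ↔ s(u, w) ∈ η) := fun {u w} hu he =>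
      h _ (mem_ball.2 ⟨he, u, Sym2.mem_mk_left u w, i, hi, hu⟩)
    constructor <;> rintro ⟨q, hq⟩
    all_goals
      rcases Nat.eq_zero_or_pos q.length with h0 | h0
      · obtain rfl := q.eq_of_length_eq_zero h0
        exact ⟨.nil, Nat.zero_le _⟩
      · obtain ⟨u, r, hadj, rfl⟩ : ∃ u, ∃ r : SimpleGraph.Walk _ o u, ∃ hadj,
            q = r.concat (hadj : SimpleGraph.Adj _ u v) := by
          cases q with
          | nil => simp at h0
          | cons hh q =>
            obtain ⟨u, r, hadj, e⟩ := SimpleGraph.Walk.exists_cons_eq_concat hh q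
            exact ⟨u, r, hadj, e⟩
        rw [SimpleGraph.Walk.length_concat] at hq
        obtain ⟨he, hne⟩ := (SimpleGraph.fromEdgeSet_adj _).1 hadj
        obtain ⟨he', heE⟩ := mem_inter.1 (mem_coe.1 he)
        first
          | (have hu := (ih u (by omega)).1 ⟨r, by omega⟩
             exact hu.extend (mem_inter.2 ⟨(step hu heE).1 he', heE⟩) hne)
          | (have hu : Within (η ∩ E) o u i := ⟨r, by omega⟩
             exact ((ih u (by omega)).2 hu).extend (mem_inter.2 ⟨(step hu heE).2 he', heE⟩) hne)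

theorem ball_of_agree {E : Finset (Sym2 V)} {o : V} {j : ℕ} {η η' : Finset (Sym2 V)}
    (h : ∀ e ∈ ball E o j η, e ∈ η' ↔ e ∈ η) : ball E o j η' = ball E o j η := by
  ext e
  simp only [mem_ball]
  exact and_congr_right fun _ => exists_congr fun v => and_congr_right fun _ =>
    exists_congr fun i => and_congr_right fun hi => within_of_agree h v hi.le

/-- Reaching `w` at distance `j` and an increasing event off the explored ball are negatively
correlated. -/
theorem avg_atDist_and_le {E : Finset (Sym2 V)} {p : ℝ} (h0 : 0 ≤ p) (h1 : p ≤ 1) (o w : V) (j : ℕ)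
    (B : Finset (Sym2 V) → Prop) (hB : Inc B) :
    avg E p (fun η => ind (AtDist η o w j ∧ B (η \ ball E o j η))) ≤
      avg E p (fun η => ind (AtDist η o w j)) * avg E p fun η => ind (B η) := by
  rw [← avg_splice E p (ball E o j) (fun _ _ h => ball_of_agree h)
    fun η => ind (AtDist η o w j ∧ B (η \ ball E o j η)), mul_comm, ← avg_mul]
  refine avg_mono E h0 h1 fun η hη => ?_
  rw [mul_comm, ← avg_mul]
  refine avg_mono E h0 h1 fun ξ hξ => ?_
  set θ := η ∩ ball E o j η ∪ ξ \ ball E o j η
  by_cases h : AtDist θ o w j ∧ B (θ \ ball E o j θ)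
  · have agree : ∀ e ∈ ball E o j η, e ∈ θ ↔ e ∈ η := fun e he => by simp [θ, he]
    have e1 : ∀ i ≤ j, (Within θ o w i ↔ Within η o w i) := fun i hi => by
      have hθ : θ ⊆ E := union_subset (inter_subset_left.trans hη) (sdiff_subset.trans hξ)
      simpa [inter_eq_left.2 hη, inter_eq_left.2 hθ] using within_of_agree agree w hi
    have ha : AtDist η o w j :=
      ⟨(e1 j le_rfl).1 h.1.1, fun i hi hw => h.1.2 i hi ((e1 i hi.le).2 hw)⟩
    have hb : B ξ := by
      refine hB _ _ ?_ h.2
      rw [ball_of_agree agree]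
      intro e he
      obtain ⟨he, hn⟩ := mem_sdiff.1 he
      simpa [θ, hn] using he
    rw [show ind (AtDist η o w j) = 1 from if_pos ha, show ind (B ξ) = 1 from if_pos hb, one_mul]
    exact ind_le_one _
  · rw [show ind (AtDist θ o w j ∧ B (θ \ ball E o j θ)) = 0 from if_neg h]
    exact mul_nonneg (ind_nonneg _) (ind_nonneg _)

/-- On a shortest path the vertex at distance `j` starts a path off the explored ball. -/
theorem exists_mid {E η : Finset (Sym2 V)} (hη : η ⊆ E) {W : Finset V}
    (hW : ∀ e ∈ E, ∀ v ∈ e, v ∈ W) {o x : V} {b N j : ℕ} (hN : Within η o x N)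
    (hb : ∀ i < b, ¬Within η o x i) (hj0 : 0 < j) (hj : j ≤ b) :
    ∃ w ∈ W, AtDist η o w j ∧ Within (η \ ball E o j η) w x (N - j) := by
  classical
  have hex : ∃ L, Within η o x L := ⟨N, hN⟩
  obtain ⟨q, hq⟩ := Nat.find_spec hex
  set L := Nat.find hex
  have hLb : b ≤ L := not_lt.1 fun h => hb L h ⟨q, hq⟩
  have hLN : L ≤ N := Nat.find_min' hex hN
  have hmin : ∀ r : (SimpleGraph.fromEdgeSet (↑η : Set (Sym2 V))).Walk o x, L ≤ r.length :=
    fun r => Nat.find_min' hex ⟨r, le_rfl⟩
  have hqL : q.length = L := le_antisymm hq (hmin q)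
  have hdrop : (q.drop j).length = L - j := by rw [SimpleGraph.Walk.drop_length, hqL]
  refine ⟨q.getVert j, ?_, ⟨⟨q.take j, by rw [SimpleGraph.Walk.take_length]; omega⟩, ?_⟩, ?_⟩
  · have hadj := q.adj_getVert_succ (i := j - 1) (by omega)
    rw [Nat.sub_add_cancel hj0] at hadj
    exact hW _ (hη (mem_coe.1 ((SimpleGraph.fromEdgeSet_adj _).1 hadj).1)) _ (Sym2.mem_mk_right _ _)
  · rintro i hi ⟨r, hr⟩
    have := hmin (r.append (q.drop j))
    rw [SimpleGraph.Walk.length_append, hdrop] at this
    omega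
  · refine ⟨(q.drop j).transfer _ fun e he => ?_,
      by rw [SimpleGraph.Walk.length_transfer, hdrop]; omega⟩
    have h1 := (q.drop j).edges_subset_edgeSet he
    rw [SimpleGraph.edgeSet_fromEdgeSet] at h1 ⊢
    refine ⟨mem_coe.2 (mem_sdiff.2 ⟨mem_coe.1 h1.1, fun hball => ?_⟩), h1.2⟩
    obtain ⟨-, v, hv, i, hi, hw⟩ := mem_ball.1 hball
    rw [inter_eq_left.2 hη] at hw
    obtain ⟨r, hr⟩ := hw
    have hs := SimpleGraph.Walk.mem_support_of_mem_edges he hv
    have := hmin (r.append ((q.drop j).dropUntil v hs))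
    rw [SimpleGraph.Walk.length_append] at this
    have := (q.drop j).length_dropUntil_le_length hs
    omega

/-- The middle range: `b - a` times the chance of an intrinsic distance in `[b, N]` is at most the
sum over `w` of the chance of a distance in `(a, b]` from `o` times a connection within `N - a`
steps. -/
theorem middle_le (E : Finset (Sym2 V)) {p : ℝ} (h0 : 0 ≤ p) (h1 : p ≤ 1) {W : Finset V}
    (hW : ∀ e ∈ E, ∀ v ∈ e, v ∈ W) (o x : V) {a b : ℕ} (hab : a ≤ b) (N : ℕ) :
    ((b : ℝ) - a) * avg E p (fun η => ind (Within η o x N ∧ ∀ i < b, ¬Within η o x i)) ≤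
      ∑ w ∈ W, avg E p (fun η => ind (Within η o w b ∧ ¬Within η o w a)) *
        avg E p fun η => ind (Within η w x (N - a)) := by
  have hcard : ((b : ℝ) - a) = (Ioc a b).card := by rw [Nat.card_Ioc, Nat.cast_sub hab]
  calc ((b : ℝ) - a) * avg E p (fun η => ind (Within η o x N ∧ ∀ i < b, ¬Within η o x i))
      = avg E p fun η => ∑ j ∈ Ioc a b, ind (Within η o x N ∧ ∀ i < b, ¬Within η o x i) := by
        rw [hcard, ← avg_mul]
        exact avg_congr E p fun η _ => by rw [sum_const, nsmul_eq_mul]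
    _ ≤ avg E p fun η => ∑ j ∈ Ioc a b, ∑ w ∈ W,
          ind (AtDist η o w j ∧ Within (η \ ball E o j η) w x (N - a)) := by
        refine avg_mono E h0 h1 fun η hη => sum_le_sum fun j hj => ?_
        rw [mem_Ioc] at hj
        by_cases h : Within η o x N ∧ ∀ i < b, ¬Within η o x i
        · obtain ⟨w, hwW, hwd, r, hr⟩ := exists_mid hη hW h.1 h.2 (by omega) hj.2
          rw [show ind (Within η o x N ∧ ∀ i < b, ¬Within η o x i) = 1 from if_pos h]
          refine le_trans (le_of_eq ?_) (single_le_sum (fun v _ => ind_nonneg _) hwW)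
          exact (if_pos ⟨hwd, r, by omega⟩).symm
        · rw [show ind (Within η o x N ∧ ∀ i < b, ¬Within η o x i) = 0 from if_neg h]
          exact sum_nonneg fun w _ => ind_nonneg _
    _ ≤ ∑ j ∈ Ioc a b, ∑ w ∈ W, avg E p (fun η => ind (AtDist η o w j)) *
          avg E p fun η => ind (Within η w x (N - a)) := by
        rw [avg_sum]
        refine sum_le_sum fun j _ => ?_
        rw [avg_sum]
        exact sum_le_sum fun w _ =>
          avg_atDist_and_le h0 h1 o w j (fun θ => Within θ w x (N - a)) (inc_within w x _)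
    _ ≤ _ := by
        rw [sum_comm]
        refine sum_le_sum fun w _ => ?_
        rw [← sum_mul, ← avg_sum]
        refine mul_le_mul_of_nonneg_right (avg_mono E h0 h1 fun η _ => ?_)
          (avg_nonneg E h0 h1 fun _ _ => ind_nonneg _)
        by_cases h : ∃ j ∈ Ioc a b, AtDist η o w j
        · obtain ⟨j, hj, hd⟩ := h
          rw [mem_Ioc] at hj
          rw [sum_eq_single_of_mem j (mem_Ioc.2 hj) fun i _ hne =>
            show ind (AtDist η o w i) = 0 from if_neg fun hi => ?_]
          · refine le_trans (ind_le_one _) (le_of_eq (if_pos ?_).symm)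
            obtain ⟨⟨r, hr⟩, hm⟩ := hd
            exact ⟨⟨r, by omega⟩, hm a hj.1⟩
          · rcases Nat.lt_or_gt_of_ne hne with hl | hl
            · exact hd.2 i hl hi.1
            · exact hi.2 j hl hd.1
        · rw [sum_eq_zero fun j hj =>
            show ind (AtDist η o w j) = 0 from if_neg fun hd => h ⟨j, hj, hd⟩]
          exact ind_nonneg _

/-- The bubble bound: `n` times the chance of a connection at intrinsic distance at least `n` is at
most the two point sum. -/
theorem far_le (E : Finset (Sym2 V)) {p : ℝ} (h0 : 0 ≤ p) (h1 : p ≤ 1) {W : Finset V}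
    (hW : ∀ e ∈ E, ∀ v ∈ e, v ∈ W) (o x : V) (n : ℕ) :
    (n : ℝ) * avg E p (fun η => ind (Rch η o x ∧ ∀ i < n, ¬Within η o x i)) ≤
      ∑ w ∈ W, Gladkov.tau E p o w * Gladkov.tau E p w x := by
  have hle : ∀ η, η ⊆ E → Rch η o x → Within η o x E.card := by
    rintro η hη ⟨q⟩
    refine ⟨q.toPath.1, ?_⟩
    rw [← SimpleGraph.Walk.length_edges,
      ← List.toFinset_card_of_nodup q.toPath.2.isTrail.edges_nodup]
    refine card_le_card fun e he => hη ?_
    have h := q.toPath.1.edges_subset_edgeSet (List.mem_toFinset.1 he)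
    rw [SimpleGraph.edgeSet_fromEdgeSet] at h
    exact mem_coe.1 h.1
  have h := middle_le E h0 h1 hW o x (Nat.zero_le n) E.card
  rw [Nat.cast_zero, sub_zero] at h
  refine le_trans (mul_le_mul_of_nonneg_left (avg_mono E h0 h1 fun η hη => ind_mono fun hr =>
    ⟨hle η hη hr.1, hr.2⟩) (Nat.cast_nonneg n)) (h.trans ?_)
  exact sum_le_sum fun w _ => mul_le_mul (avg_mono E h0 h1 fun η _ => ind_mono fun hr => hr.1.rch)
    (avg_mono E h0 h1 fun η _ => ind_mono Within.rch) (avg_nonneg E h0 h1 fun _ _ => ind_nonneg _)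
    (tau_nonneg E h0 h1 o w)

/-- Middle thirds: a bound `T` on the two point sums from `o` turns a ball count `G` at `x` into a
bound `T * G / (a * (b - a))` on the chance of an intrinsic distance in `[b, N]`. -/
theorem middle_decay (E : Finset (Sym2 V)) {p : ℝ} (h0 : 0 ≤ p) (h1 : p ≤ 1) {W : Finset V}
    (hW : ∀ e ∈ E, ∀ v ∈ e, v ∈ W) (o x : V) {a b : ℕ} (hab : a ≤ b) (N : ℕ) {T : ℝ}
    (hT : ∀ w, ∑ u ∈ W, Gladkov.tau E p o u * Gladkov.tau E p u w ≤ T) :
    (a : ℝ) * (((b : ℝ) - a) *
        avg E p fun η => ind (Within η o x N ∧ ∀ i < b, ¬Within η o x i)) ≤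
      T * ∑ w ∈ W, avg E p fun η => ind (Within η w x (N - a)) := by
  refine (mul_le_mul_of_nonneg_left (middle_le E h0 h1 hW o x hab N) (Nat.cast_nonneg a)).trans ?_
  rw [mul_sum, mul_sum]
  refine sum_le_sum fun w _ => ?_
  rw [← mul_assoc]
  refine mul_le_mul_of_nonneg_right ?_ (avg_nonneg E h0 h1 fun _ _ => ind_nonneg _)
  refine le_trans ?_ ((far_le E h0 h1 hW o w a).trans (hT w))
  refine mul_le_mul_of_nonneg_left (avg_mono E h0 h1 fun η _ => ind_mono fun hr =>
    ⟨hr.1.rch, ?_⟩) (Nat.cast_nonneg a)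
  rintro i hi ⟨r, hlen⟩
  exact hr.2 ⟨r, by omega⟩

end Vale.Agent.P165.EX
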