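import Vale.Agent.P165.EX.Flat
import Vale.Agent.P165.EX.MasterAbs
import Vale.Agent.P165.QT.Base

/-!
# The master inequality in a group

Every vertex `w` of a set in a window gets children `w σ (g h)`, with `g` in a finite set of pushes,
`h` in a set that carries half of the anchored mass and one frame `σ`. The connection mass of the
set inside the window is bounded by the mass of the children times the logarithm of the least
connection probability, up to the mass of the window times the norm of the averaged pushes.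
-/

namespace Vale.Agent.P165.EX

open Finset FF
open scoped Matrix.Norms.Elementwise MatrixGroups

variable {k : Type} [NontriviallyNormedField k] {n : ℕ} {Γ : Type} [Group Γ]
  {O ι : Type} [DecidableEq Γ] [DecidableEq O] [Fintype ι] {G : SimpleGraph (Γ × O)}
  {nb : Γ × O → ι → Γ × O}

omit [Group Γ] in
theorem tau_inE (S : Finset (Γ × O)) (p : ℝ) (x y : Γ × O) :
    Gladkov.tau (inE nb S) p x y = tauIn nb S p x y := by
  rw [tauIn_eq]; rfl

omit [Group Γ] in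
/-- Finitely many connection probabilities are nearly attained in one finite set. -/
theorem exists_window (hl : Labelling G nb) (hconn : G.Connected) {q : ℝ} (h0 : 0 < q) (h1 : q ≤ 1)
    (P : Finset ((Γ × O) × (Γ × O))) :
    ∃ S : Finset (Γ × O), ∀ a ∈ P, T nb q a.1 a.2 ≤ 2 * tauIn nb S q a.1 a.2 := by
  have h : ∀ a : (Γ × O) × (Γ × O), ∃ S, T nb q a.1 a.2 / 2 < tauIn nb S q a.1 a.2 := fun a =>
    exists_lt_of_lt_ciSup (show T nb q a.1 a.2 / 2 < ⨆ S, tauIn nb S q a.1 a.2 by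
      have := T_pos hl hconn h0 h1 a.1 a.2
      change T nb q a.1 a.2 / 2 < T nb q a.1 a.2
      linarith)
  choose S hS using h
  exact ⟨P.biUnion S, fun a ha => by
    linarith [hS a, tauIn_mono hl (subset_biUnion_of_mem S ha) h0.le h1 a.1 a.2]⟩

theorem masterConst_nonneg {p Fl : ℝ} (hp : 0 ≤ p) (hFl : 0 ≤ Fl) (m M Dg n : ℕ) :
    0 ≤ masterConst p Fl m M Dg n := by
  unfold masterConst
  positivity

theorem masterConst_anti {p q Fl : ℝ} (hp : 0 < p) (hq : p ≤ q) (hFl : 0 ≤ Fl) (m M Dg n : ℕ) :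
    masterConst q Fl m M Dg n ≤ masterConst p Fl m M Dg n := by
  have hq0 : 0 < q := hp.trans_le hq
  have h1 : p ^ m ≤ q ^ m := pow_le_pow_left₀ hp.le hq m
  have h2 : (2 / q) ^ m ≤ (2 / p) ^ m :=
    pow_le_pow_left₀ (by positivity) (div_le_div_of_nonneg_left zero_le_two hp hq) m
  unfold masterConst
  gcongr

/-- Every row is bounded by the anchored mass. -/
theorem rows_le [Fintype O] (hl : Labelling G nb) (hinv : Inv G) (hconn : G.Connected) (o₁ : O)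
    {p₀ q : ℝ} (hp : 0 < p₀) (hp1 : p₀ ≤ 1) (hq : p₀ ≤ q) (hq1 : q ≤ 1) {U : Finset Γ}
    (hU : ∀ U' : Finset Γ, ∑ h ∈ U', anc nb o₁ q h ≤ 2 * ∑ h ∈ U, anc nb o₁ q h)
    (x : Γ × O) (S' : Finset (Γ × O)) :
    ∑ y ∈ S', T nb q x y ≤ 2 * Fintype.card O *
      (1 + ∑ o : O, (T nb p₀ ((1 : Γ), o₁) ((1 : Γ), o))⁻¹) ^ 2 * ∑ h ∈ U, anc nb o₁ q h := by
  classical
  have hq0 : 0 < q := hp.trans_le hq
  set Kv : ℝ := 1 + ∑ o : O, (T nb p₀ ((1 : Γ), o₁) ((1 : Γ), o))⁻¹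
  have iv0 : ∀ o : O, 0 ≤ (T nb p₀ ((1 : Γ), o₁) ((1 : Γ), o))⁻¹ := fun o =>
    inv_nonneg.2 (T_nonneg hp.le hp1 _ _)
  have hKv : 0 ≤ Kv := add_nonneg zero_le_one (sum_nonneg fun o _ => iv0 o)
  have tn : ∀ x y, 0 ≤ T nb q x y := fun x y => T_nonneg hq0.le hq1 x y
  have hone : ∀ (γ : Γ) (o' : O), 1 ≤ Kv * T nb q (γ, o₁) (γ, o') := by
    intro γ o'
    have h := T_pos hl hconn hp hp1 ((1 : Γ), o₁) ((1 : Γ), o')
    have e := T_tr hl hinv γ hq0.le hq1 ((1 : Γ), o₁) ((1 : Γ), o')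
    simp only [tr, mul_one] at e
    rw [e, ← inv_mul_cancel₀ h.ne']
    exact mul_le_mul (le_trans (single_le_sum
      (f := fun o => (T nb p₀ ((1 : Γ), o₁) ((1 : Γ), o))⁻¹) (fun o _ => iv0 o) (mem_univ o'))
        (le_add_of_nonneg_left zero_le_one))
      (T_mono hp.le hq hq1 _ _) h.le hKv
  have one : ∀ y, T nb q x y ≤ Kv ^ 2 * anc nb o₁ q (x.1⁻¹ * y.1) := by
    intro y
    have e : T nb q (x.1, o₁) (y.1, o₁) = anc nb o₁ q (x.1⁻¹ * y.1) := by
      rw [anc, ← T_tr hl hinv x.1 hq0.le hq1 ((1 : Γ), o₁) (x.1⁻¹ * y.1, o₁)]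
      simp [tr]
    have h1 := hone x.1 x.2
    have h2 := hone y.1 y.2
    have h3 := T_trans (nb := nb) hl hq0.le hq1 (x.1, o₁) x y
    have h4 := T_trans (nb := nb) hl hq0.le hq1 (x.1, o₁) y (y.1, o₁)
    rw [show T nb q y (y.1, o₁) = T nb q (y.1, o₁) y from iSup_congr fun S₁ => by
      rw [← tau_inE, ← tau_inE, Gladkov.tau_comm]] at h4
    calc T nb q x y ≤ Kv * T nb q (x.1, o₁) x * T nb q x y :=
          le_mul_of_one_le_left (tn _ _) h1
      _ ≤ Kv * T nb q (x.1, o₁) y := by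
          rw [mul_assoc]; exact mul_le_mul_of_nonneg_left h3 hKv
      _ ≤ Kv * (T nb q (x.1, o₁) y * (Kv * T nb q (y.1, o₁) y)) :=
          mul_le_mul_of_nonneg_left (le_mul_of_one_le_right (tn _ _) h2) hKv
      _ = Kv ^ 2 * (T nb q (x.1, o₁) y * T nb q (y.1, o₁) y) := by ring
      _ ≤ _ := by rw [← e]; exact mul_le_mul_of_nonneg_left h4 (sq_nonneg _)
  calc ∑ y ∈ S', T nb q x y ≤ ∑ y ∈ S', Kv ^ 2 * anc nb o₁ q (x.1⁻¹ * y.1) :=
        sum_le_sum fun y _ => one y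
    _ ≤ ∑ y ∈ (S'.image Prod.fst) ×ˢ (univ : Finset O), Kv ^ 2 * anc nb o₁ q (x.1⁻¹ * y.1) :=
        sum_le_sum_of_subset_of_nonneg
          (fun y hy => mem_product.2 ⟨mem_image_of_mem _ hy, mem_univ _⟩)
          fun y _ _ => mul_nonneg (sq_nonneg _) (anc_nonneg o₁ hq0.le hq1 _)
    _ = Kv ^ 2 * (Fintype.card O * ∑ g ∈ (S'.image Prod.fst).image (x.1⁻¹ * ·),
          anc nb o₁ q g) := by
        simp only [sum_product, sum_const, card_univ, nsmul_eq_mul]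
        rw [sum_image fun _ _ _ _ h => mul_left_cancel h, mul_sum, mul_sum]
        exact sum_congr rfl fun _ _ => by ring
    _ ≤ Kv ^ 2 * (Fintype.card O * (2 * ∑ h ∈ U, anc nb o₁ q h)) := mul_le_mul_of_nonneg_left
        (mul_le_mul_of_nonneg_left (hU _) (Nat.cast_nonneg _)) (sq_nonneg _)
    _ = _ := by ring

/-- The square norm of the pushes averaged along every frame at one place. -/
theorem push_norm_le (hl : Labelling G nb) (hinv : Inv G) (o₁ : O) {q ε : ℝ} (h0 : 0 ≤ q)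
    (h1 : q ≤ 1) {S : Finset Γ}
    (hpush : ∀ X : Finset (Γ × O), ∑ x ∈ X, (∑ g ∈ S, T nb q (g, o₁) x) ^ 2 ≤ (ε * S.card) ^ 2)
    (F : Finset Γ) (γ : Γ) (W : Finset (Γ × O)) :
    ∑ u ∈ W, (∑ i ∈ S ×ˢ F, T nb q (γ * (i.2 * i.1), o₁) u) ^ 2 ≤
      (F.card * (ε * S.card)) ^ 2 := by
  classical
  calc ∑ u ∈ W, (∑ i ∈ S ×ˢ F, T nb q (γ * (i.2 * i.1), o₁) u) ^ 2
      ≤ ∑ u ∈ W, (F.card : ℝ) * ∑ σ ∈ F, (∑ g ∈ S, T nb q (γ * (σ * g), o₁) u) ^ 2 :=
        sum_le_sum fun u _ => by rw [sum_product_right]; exact sq_sum_le_card_mul_sum_sq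
    _ ≤ (F.card : ℝ) * ∑ _σ ∈ F, (ε * S.card) ^ 2 := by
        rw [← mul_sum, sum_comm]
        refine mul_le_mul_of_nonneg_left (sum_le_sum fun σ _ => ?_) (Nat.cast_nonneg _)
        refine le_of_eq_of_le ?_ (hpush (W.image (tr (γ * σ)⁻¹)))
        rw [sum_image fun x _ x' _ h => tr_injective _ h]
        refine sum_congr rfl fun u _ => congrArg (· ^ 2) (sum_congr rfl fun g _ => ?_)
        rw [← T_tr hl hinv (γ * σ) h0 h1 (g, o₁) (tr (γ * σ)⁻¹ u)]
        simp [tr, mul_assoc]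
    _ = _ := by rw [sum_const, nsmul_eq_mul]; ring

/-- The master inequality for any relation between children and parents with flat mass. -/
theorem master_of_flat [Fintype O] (hl : Labelling G nb) (hinv : Inv G) (hconn : G.Connected)
    (o₁ : O) {p₀ : ℝ} (hp : 0 < p₀) (hp1 : p₀ ≤ 1) (F : Finset Γ) (Cd : Γ → Γ → Prop)
    (hflat : ∃ C : ℝ, 0 ≤ C ∧ ∀ q, p₀ ≤ q → q ≤ 1 → Witness nb q →
      ∀ (y : Γ) (w : Γ × O) (o' : O) (Z : Finset Γ), (∀ z ∈ Z, Cd y z) →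
        ∑ z ∈ Z, T nb q w (z, o') ≤ C) :
    ∃ C₁ : ℝ, 0 ≤ C₁ ∧ ∀ S : Finset Γ, S.Nonempty → ∃ CS : ℝ, 0 ≤ CS ∧
      ∀ q, p₀ ≤ q → q ≤ 1 → Witness nb q → ∀ ε : ℝ, 0 ≤ ε →
      (∀ X : Finset (Γ × O), ∑ x ∈ X, (∑ g ∈ S, T nb q (g, o₁) x) ^ 2 ≤ (ε * S.card) ^ 2) →
      ∀ U : Finset Γ, (∀ U' : Finset Γ, ∑ h ∈ U', anc nb o₁ q h ≤ 2 * ∑ h ∈ U, anc nb o₁ q h) →
      ∀ (m : ℕ) (o : O) (W₀ : Finset (Γ × O)), W₀ ⊆ QT.wball nb ((1 : Γ), o) m →
      ∀ r : ℝ, 0 < r → r ≤ 1 → (∀ w ∈ W₀, r ≤ T nb q ((1 : Γ), o) w) →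
      ∀ R : Γ → Γ → Γ, (∀ z h, R z h ∈ F ∧ Cd (z * R z h * h) z) →
      ∀ Y : Finset Γ, (∀ w ∈ W₀, ∀ g ∈ S, ∀ h ∈ U, w.1 * R w.1 (g * h) * (g * h) ∈ Y) →
        (∑ w ∈ W₀, tauIn nb (QT.wball nb ((1 : Γ), o) m) q ((1 : Γ), o) w) *
            ∑ h ∈ U, anc nb o₁ q h ≤
          C₁ * ε * (∑ w ∈ QT.wball nb ((1 : Γ), o) m,
              tauIn nb (QT.wball nb ((1 : Γ), o) m) q ((1 : Γ), o) w) *
              ∑ h ∈ U, anc nb o₁ q h +
            CS * (1 + Real.log (1 / r)) * ∑ y ∈ Y, T nb q ((1 : Γ), o) (y, o₁) := by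
  classical
  obtain ⟨Cf, hCf, hflat⟩ := hflat
  set Bf : ℝ := Fintype.card O * Cf
  have hBf : 0 ≤ Bf := by positivity
  set Kv : ℝ := 1 + ∑ o : O, (T nb p₀ ((1 : Γ), o₁) ((1 : Γ), o))⁻¹
  have iv0 : ∀ o : O, 0 ≤ (T nb p₀ ((1 : Γ), o₁) ((1 : Γ), o))⁻¹ := fun o =>
    inv_nonneg.2 (T_nonneg hp.le hp1 _ _)
  have hKv : 0 ≤ Kv := add_nonneg zero_le_one (sum_nonneg fun o _ => iv0 o)
  set CX : ℝ := 2 * Fintype.card O * Kv ^ 2
  refine ⟨12 * Real.sqrt Bf * CX * F.card, by positivity, fun S hS => ?_⟩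
  -- the pushes
  set P : Finset (Γ × Γ) := S ×ˢ F
  let path := fun c : O × Γ × Γ =>
    (hconn.preconnected ((1 : Γ), c.1) (c.2.2 * c.2.1, o₁)).some
  set Pv : Finset (Γ × O) :=
    ((univ : Finset O) ×ˢ P).biUnion fun c => (path c).support.toFinset
  set L : ℕ := ∑ c ∈ (univ : Finset O) ×ˢ P, (path c).length
  set M : ℕ := Pv.card * (Fintype.card O * P.card)
  have hpL : 0 < p₀ ^ L := pow_pos hp L
  have hlogL : 0 ≤ Real.log (4 / p₀ ^ L) := Real.log_nonneg (by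
    rw [le_div_iff₀ hpL]; linarith [pow_le_one₀ (n := L) hp.le hp1])
  set K : ℝ := masterConst p₀ Bf L M (Fintype.card ι) P.card
  have hK : 0 ≤ K := masterConst_nonneg hp.le hBf _ _ _ _
  refine ⟨2 * (K * (1 + Real.log (4 / p₀ ^ L))), by positivity,
    fun q hq hq1 hw ε hε hpush U hU m o W₀ hW₀ r hr hr1 hlow R hR Y hY => ?_⟩
  have hq0 : 0 < q := hp.trans_le hq
  have tn : ∀ x y, 0 ≤ T nb q x y := fun x y => T_nonneg hq0.le hq1 x y
  set a₀ : Γ × O := ((1 : Γ), o)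
  set Wm := QT.wball nb a₀ m
  set X := ∑ h ∈ U, anc nb o₁ q h
  have hX0 : 0 ≤ X := sum_nonneg fun h _ => anc_nonneg o₁ hq0.le hq1 h
  -- anchors, pushes and children
  let anchor : Γ × O → Γ × Γ → Γ × O := fun w i => (w.1 * (i.2 * i.1), o₁)
  let push : Γ × O → Γ × Γ → Finset (Sym2 (Γ × O)) := fun w i =>
    ((path (w.2, i)).map (trIso hinv w.1).toHom).edges.toFinset
  let child : Γ × O → Γ × Γ → Finset (Γ × O) := fun w i =>
    (U.filter fun h => R w.1 (i.1 * h) = i.2).image fun h => (w.1 * i.2 * (i.1 * h), o₁)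
  have supp : ∀ w : Γ × O, ∀ i ∈ P, ∀ u ∈ ((path (w.2, i)).map (trIso hinv w.1).toHom).support,
      ∃ v ∈ Pv, u = tr w.1 v := fun w i hi u hu => by
    rw [SimpleGraph.Walk.support_map] at hu
    obtain ⟨v, hv, rfl⟩ := List.mem_map.1 hu
    exact ⟨v, mem_biUnion.2 ⟨(w.2, i), mem_product.2 ⟨mem_univ _, hi⟩, List.mem_toFinset.2 hv⟩,
      rfl⟩
  have hreach : ∀ (w : Γ × O) (i : Γ × Γ) u, u ∈ ((path (w.2, i)).map (trIso hinv w.1).toHom).support →
      Gladkov.Rch (push w i) w u := by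
    intro w i u hu
    have key : ∀ (x w' : Γ × O) {y : Γ × O} (wk : G.Walk x y), x = w' → u ∈ wk.support →
        cl wk.edges.toFinset w' u := fun x w' y wk e hu => by
      subst e
      refine ⟨(wk.takeUntil u hu).transfer _ fun e he => ?_⟩
      rw [SimpleGraph.edgeSet_fromEdgeSet]
      exact ⟨List.mem_toFinset.2 (wk.edges_takeUntil_subset_edges hu he),
        G.not_isDiag_of_mem_edgeSet ((wk.takeUntil u hu).edges_subset_edgeSet he)⟩
    exact key _ _ _ (by simp [trIso_apply, tr]) hu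
  -- a finite window
  set QQ : Finset (Γ × O) := (W₀ ×ˢ Pv).image fun u => tr u.1.1 u.2
  set YV : Finset (Γ × O) := Y.image fun y => (y, o₁)
  obtain ⟨S₀, hS₀⟩ := exists_window hl hconn hq0 hq1
    ((((W₀ ×ˢ P).image fun c => anchor c.1 c.2) ×ˢ YV) ∪ ({a₀} ×ˢ W₀))
  set Sv := S₀ ∪ Wm ∪ QQ
  set E := inE nb Sv
  have leT : ∀ x y, Gladkov.tau E q x y ≤ T nb q x y := fun x y => by
    rw [tau_inE]; exact le_T hq0.le hq1 _ _ _
  have geT : ∀ c ∈ (((W₀ ×ˢ P).image fun c => anchor c.1 c.2) ×ˢ YV) ∪ ({a₀} ×ˢ W₀),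
      T nb q c.1 c.2 ≤ 2 * Gladkov.tau E q c.1 c.2 := fun c hc => by
    rw [tau_inE]
    exact (hS₀ c hc).trans (mul_le_mul_of_nonneg_left
      (tauIn_mono hl (subset_union_left.trans subset_union_left) hq0.le hq1 _ _) zero_le_two)
  have kidY : ∀ w ∈ W₀, ∀ i ∈ P, child w i ⊆ YV := fun w hw' i hi y hy => by
    obtain ⟨h, hh, rfl⟩ := mem_image.1 hy
    obtain ⟨hhU, hσ⟩ := mem_filter.1 hh
    have := hY w hw' i.1 (mem_product.1 hi).1 h hhU
    rw [hσ] at this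
    exact mem_image_of_mem _ this
  -- flat mass
  have flat : ∀ x y : Γ × O, ∑ w ∈ W₀.filter (fun w => y ∈ P.biUnion (child w)),
      Gladkov.tau E q x w ≤ Bf := by
    intro x y
    set Zy := (W₀.filter fun w => Cd y.1 w.1).image Prod.fst
    refine (sum_le_sum fun w _ => leT x w).trans ((sum_le_sum_of_subset_of_nonneg
      (t := Zy ×ˢ (univ : Finset O)) (fun w hw' => ?_) fun _ _ _ => tn _ _).trans ?_)
    · obtain ⟨hwW, hy⟩ := mem_filter.1 hw'
      obtain ⟨i, -, hy⟩ := mem_biUnion.1 hy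
      obtain ⟨h, hh, rfl⟩ := mem_image.1 hy
      refine mem_product.2 ⟨mem_image_of_mem _ (mem_filter.2 ⟨hwW, ?_⟩), mem_univ _⟩
      have := (hR w.1 (i.1 * h)).2
      rwa [(mem_filter.1 hh).2] at this
    · rw [sum_product_right]
      refine (sum_le_card_nsmul _ _ Cf fun o' _ =>
        hflat q hq hq1 hw y.1 x o' Zy fun v hv => ?_).trans ?_
      · obtain ⟨w, hw', rfl⟩ := mem_image.1 hv
        exact (mem_filter.1 hw').2
      · rw [nsmul_eq_mul, card_univ]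
  -- all rows
  have rows : ∀ x (S' : Finset (Γ × O)), ∑ y ∈ S', Gladkov.tau E q x y ≤ CX * X := fun x S' =>
    (sum_le_sum fun y _ => leT x y).trans
      ((rows_le hl hinv hconn o₁ hp hp1 hq hq1 hU x S').trans_eq (by simp only [CX, Kv, X]))
  -- the averaged pushes
  have norm : ∀ w ∈ W₀, ∑ u ∈ Wm, (∑ i ∈ P, Gladkov.tau E q (anchor w i) u) ^ 2 ≤
      (F.card * (ε * S.card)) ^ 2 := fun w _ =>
    le_trans (sum_le_sum fun u _ => pow_le_pow_left₀
      (sum_nonneg fun i _ => tau_nonneg E hq0.le hq1 _ _) (sum_le_sum fun i _ => leT _ _) 2)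
      (push_norm_le hl hinv o₁ hq0.le hq1 hpush F w.1 Wm)
  -- the mass of the children
  have mass : ∀ w ∈ W₀, S.card * X / 2 ≤
      ∑ i ∈ P, ∑ y ∈ child w i, Gladkov.tau E q (anchor w i) y := by
    intro w hw'
    suffices h : ∀ g ∈ S, X ≤ 2 * ∑ σ ∈ F, ∑ y ∈ child w (g, σ),
        Gladkov.tau E q (anchor w (g, σ)) y by
      have h' := card_nsmul_le_sum S _ X h
      rw [nsmul_eq_mul, ← mul_sum] at h'
      rw [sum_product]
      linarith
    intro g hg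
    rw [mul_sum]
    calc X = ∑ σ ∈ F, ∑ h ∈ U.filter (fun h => R w.1 (g * h) = σ), anc nb o₁ q h :=
          (sum_fiberwise_of_maps_to (fun h _ => (hR w.1 (g * h)).1) _).symm
      _ ≤ _ := sum_le_sum fun σ hσ => by
          rw [sum_image fun _ _ _ _ h => mul_left_cancel (mul_left_cancel (congrArg Prod.fst h)),
            mul_sum]
          refine sum_le_sum fun h hh => ?_
          refine le_of_eq_of_le ?_ (geT (anchor w (g, σ), (w.1 * σ * (g * h), o₁))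
            (mem_union_left _ (mem_product.2
              ⟨mem_image_of_mem (fun c : (Γ × O) × Γ × Γ => anchor c.1 c.2) (a := (w, g, σ))
                (mem_product.2 ⟨hw', mem_product.2 ⟨hg, hσ⟩⟩),
              kidY w hw' (g, σ) (mem_product.2 ⟨hg, hσ⟩) (mem_image_of_mem _ hh)⟩)))
          rw [anc, ← T_tr hl hinv (w.1 * (σ * g)) hq0.le hq1 ((1 : Γ), o₁) (h, o₁)]
          simp [anchor, tr, mul_assoc]
  -- multiplicity
  have mult : ∀ e, ((W₀ ×ˢ P).filter fun c => e ∈ push c.1 c.2).card ≤ M := by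
    intro e
    induction e using Sym2.ind with
    | _ u u' =>
      refine (card_le_card (t := ((Pv.image fun v => u.1 * v.1⁻¹) ×ˢ (univ : Finset O)) ×ˢ P)
        fun c hc => ?_).trans ?_
      · obtain ⟨hc, he⟩ := mem_filter.1 hc
        obtain ⟨-, hi⟩ := mem_product.1 hc
        obtain ⟨v, hv, hu⟩ := supp c.1 c.2 hi u (SimpleGraph.Walk.mem_support_of_mem_edges
          (List.mem_toFinset.1 he) (Sym2.mem_mk_left _ _))
        refine mem_product.2 ⟨mem_product.2 ⟨mem_image.2 ⟨v, hv, ?_⟩, mem_univ _⟩, hi⟩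
        rw [hu]; simp [tr]
      · simp only [card_product, card_univ, M, mul_assoc]
        exact Nat.mul_le_mul_right _ card_image_le
  -- degrees
  have deg : ∀ u, (E.filter fun e => u ∈ e).card ≤ Fintype.card ι := fun u => by
    refine (card_le_card (t := (univ : Finset ι).image fun a => s(u, nb u a))
      fun e he => ?_).trans card_image_le
    obtain ⟨he, hu⟩ := mem_filter.1 he
    obtain ⟨v, rfl⟩ := hu
    obtain ⟨a, ha⟩ := (hl.adj u v).1 ((inE_iff hl).1 he).1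
    exact mem_image.2 ⟨a, mem_univ _, by rw [ha]⟩
  have main := master_abs (E := E) (R := inE nb Wm)
    (inE_mono hl (subset_union_right.trans subset_union_left)) hq0 hq1 a₀ W₀ Wm
    (fun e he v hv => inE_mem he hv) P anchor push child (m := L) (r := r / 2) (X := CX * X)
    (e := F.card * (ε * S.card)) (by positivity) hBf
    (fun w hw' i hi e he => (inE_iff hl).2
      ⟨((path (w.2, i)).map (trIso hinv w.1).toHom).edges_subset_edgeSet (List.mem_toFinset.1 he),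
        fun u hu => mem_union_right _ (by
          obtain ⟨v, hv, rfl⟩ := supp w i hi u
            (SimpleGraph.Walk.mem_support_of_mem_edges (List.mem_toFinset.1 he) hu)
          exact mem_image.2 ⟨(w, v), mem_product.2 ⟨hw', hv⟩, rfl⟩)⟩)
    (fun w _ i hi => (List.toFinset_card_le _).trans (by
      rw [SimpleGraph.Walk.length_edges, SimpleGraph.Walk.length_map]
      exact single_le_sum (f := fun c => (path c).length) (fun _ _ => Nat.zero_le _)
        (mem_product.2 ⟨mem_univ _, hi⟩)))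
    (fun w _ i _ => hreach w i _ (SimpleGraph.Walk.end_mem_support _))
    (fun w _ i _ e he v hv => hreach w i v
      (SimpleGraph.Walk.mem_support_of_mem_edges (List.mem_toFinset.1 he) hv))
    mult deg flat rows (by positivity) (by linarith)
    (fun w hw' => by
      have := geT (a₀, w) (mem_union_right _ (mem_product.2 ⟨mem_singleton_self _, hw'⟩))
      linarith [hlow w hw'])
    norm mass
  rw [show ∑ w ∈ W₀, Gladkov.tau (inE nb Wm) q a₀ w = ∑ w ∈ W₀, tauIn nb Wm q a₀ w from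
      sum_congr rfl fun w _ => tau_inE Wm q a₀ w,
    show ∑ w ∈ Wm, Gladkov.tau (inE nb Wm) q a₀ w = ∑ w ∈ Wm, tauIn nb Wm q a₀ w from
      sum_congr rfl fun w _ => tau_inE Wm q a₀ w] at main
  set VW := ∑ w ∈ W₀, tauIn nb Wm q a₀ w
  set V := ∑ w ∈ Wm, tauIn nb Wm q a₀ w
  have hVW : 0 ≤ VW := sum_nonneg fun _ _ => tauIn_nonneg _ hq0.le hq1 _ _
  have hVWV : VW ≤ V :=
    sum_le_sum_of_subset_of_nonneg hW₀ fun _ _ _ => tauIn_nonneg _ hq0.le hq1 _ _
  have hV : 0 ≤ V := hVW.trans hVWV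
  have hsqrt : Real.sqrt (VW * V) ≤ V := Real.sqrt_le_iff.2
    ⟨hV, by rw [sq]; exact mul_le_mul_of_nonneg_right hVWV hV⟩
  set TY := ∑ y ∈ Y, T nb q a₀ (y, o₁)
  have hTY : 0 ≤ TY := sum_nonneg fun _ _ => tn _ _
  have hkids : ∑ y ∈ W₀.biUnion (fun w => P.biUnion (child w)), Gladkov.tau E q a₀ y ≤ TY := by
    refine (sum_le_sum fun y _ => leT a₀ y).trans ((sum_le_sum_of_subset_of_nonneg (t := YV)
      (fun y hy => ?_) fun _ _ _ => tn _ _).trans (le_of_eq (sum_image fun _ _ _ _ h =>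
        congrArg Prod.fst h)))
    obtain ⟨w, hw', hy⟩ := mem_biUnion.1 hy
    obtain ⟨i, hi, hy⟩ := mem_biUnion.1 hy
    exact kidY w hw' i hi hy
  set L1 : ℝ := 1 + Real.log (1 / r)
  have hlr : 0 ≤ Real.log (1 / r) := Real.log_nonneg (by rw [le_div_iff₀ hr]; linarith)
  have hqL : 0 < q ^ L := pow_pos hq0 L
  have hlog : 1 + Real.log (2 / (r / 2 * q ^ L)) ≤ (1 + Real.log (4 / p₀ ^ L)) * L1 := by
    rw [show 2 / (r / 2 * q ^ L) = 4 / q ^ L * (1 / r) by field_simp; ring,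
      Real.log_mul (by positivity) (by positivity)]
    have h1 : Real.log (4 / q ^ L) ≤ Real.log (4 / p₀ ^ L) :=
      Real.log_le_log (by positivity) (by gcongr)
    have h2 := mul_nonneg hlogL hlr
    simp only [L1]
    linarith
  have hconst : masterConst q Bf L M (Fintype.card ι) P.card ≤ K :=
    masterConst_anti hp hq hBf _ _ _ _
  have hlog0 : 0 ≤ 1 + Real.log (2 / (r / 2 * q ^ L)) := by
    have : 1 ≤ 2 / (r / 2 * q ^ L) := by
      rw [le_div_iff₀ (by positivity)]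
      nlinarith [pow_le_one₀ (n := L) hq0.le hq1]
    linarith [Real.log_nonneg this]
  have hcard : (1 : ℝ) ≤ S.card := Nat.one_le_cast.2 hS.card_pos
  refine le_of_mul_le_mul_left ?_ (lt_of_lt_of_le one_pos hcard)
  calc (S.card : ℝ) * (VW * X) = 2 * (S.card * X / 2 * VW) := by ring
    _ ≤ 2 * (K * ((1 + Real.log (4 / p₀ ^ L)) * L1) * TY +
          6 * (Real.sqrt Bf * (CX * X) * (F.card * (ε * S.card)) * V)) := by
        refine mul_le_mul_of_nonneg_left (main.trans (add_le_add ?_ ?_)) zero_le_two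
        · exact mul_le_mul (mul_le_mul hconst hlog hlog0 hK) hkids
            (sum_nonneg fun _ _ => tau_nonneg E hq0.le hq1 _ _) (by positivity)
        · exact mul_le_mul_of_nonneg_left
            (mul_le_mul_of_nonneg_left hsqrt (by positivity)) (by norm_num)
    _ ≤ _ := by
        have := mul_le_mul_of_nonneg_right hcard
          (show 0 ≤ 2 * (K * (1 + Real.log (4 / p₀ ^ L))) * L1 * TY by positivity)
        linarith

/-- The master inequality. -/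
theorem master [ProperSpace k] [Fintype O] (ρ : Γ →* SL(n, k)) (hl : Labelling G nb) (hinv : Inv G)
    (hconn : G.Connected) (hn : 0 < n)
    (hdense : SL.ZariskiDense (Set.range fun g => (ρ g : Matrix (Fin n) (Fin n) k)))
    (hfin : ∀ R : ℝ, {g : Γ | ‖(ρ g : Matrix (Fin n) (Fin n) k)‖ ≤ R}.Finite) (o₁ : O)
    {p₀ : ℝ} (hp : 0 < p₀) (hp1 : p₀ ≤ 1) (F : Finset Γ) (A : ℝ) :
    ∃ C₁ : ℝ, 0 ≤ C₁ ∧ ∀ S : Finset Γ, S.Nonempty → ∃ CS : ℝ, 0 ≤ CS ∧
      ∀ q, p₀ ≤ q → q ≤ 1 → Witness nb q → ∀ ε : ℝ, 0 ≤ ε →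
      (∀ X : Finset (Γ × O), ∑ x ∈ X, (∑ g ∈ S, T nb q (g, o₁) x) ^ 2 ≤ (ε * S.card) ^ 2) →
      ∀ U : Finset Γ, (∀ U' : Finset Γ, ∑ h ∈ U', anc nb o₁ q h ≤ 2 * ∑ h ∈ U, anc nb o₁ q h) →
      ∀ (m : ℕ) (o : O) (W₀ : Finset (Γ × O)), W₀ ⊆ QT.wball nb ((1 : Γ), o) m →
      ∀ r : ℝ, 0 < r → r ≤ 1 → (∀ w ∈ W₀, r ≤ T nb q ((1 : Γ), o) w) →
      ∀ R : Γ → Γ → Γ, (∀ z h, R z h ∈ F ∧ Cand ρ F A (z * R z h * h) z) →
      ∀ Y : Finset Γ, (∀ w ∈ W₀, ∀ g ∈ S, ∀ h ∈ U, w.1 * R w.1 (g * h) * (g * h) ∈ Y) →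
        (∑ w ∈ W₀, tauIn nb (QT.wball nb ((1 : Γ), o) m) q ((1 : Γ), o) w) *
            ∑ h ∈ U, anc nb o₁ q h ≤
          C₁ * ε * (∑ w ∈ QT.wball nb ((1 : Γ), o) m,
              tauIn nb (QT.wball nb ((1 : Γ), o) m) q ((1 : Γ), o) w) *
              ∑ h ∈ U, anc nb o₁ q h +
            CS * (1 + Real.log (1 / r)) * ∑ y ∈ Y, T nb q ((1 : Γ), o) (y, o₁) :=
  master_of_flat hl hinv hconn o₁ hp hp1 F (Cand ρ F A)
    (flat_mass ρ hl hinv hconn hn hdense hfin hp hp1 F A)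

end Vale.Agent.P165.EX
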