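import Vale.Agent.P165.EX.Translate

/-!
# Push sets: many far apart elements with small averaged connection vector

If the bubble stays bounded below a parameter, the limits of the connection probabilities from the
anchor are square summable, so translates by far apart elements are almost orthogonal. The average
over sufficiently many of them has small square sum, uniformly below the parameter.
-/

namespace Vale.Agent.P165.EX

open Finset FF Filter

section Abstract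

variable {Γ O : Type} [Group Γ] [DecidableEq Γ] [DecidableEq O] {f : Γ × O → ℝ} {D : ℝ}

omit [Group Γ] in
/-- Outside one finite set a square summable function has small square sum. -/
theorem exists_tail (hD : ∀ X : Finset (Γ × O), ∑ x ∈ X, f x ^ 2 ≤ D) {δ : ℝ} (hδ : 0 < δ) :
    ∃ X₀ : Finset (Γ × O), ∀ X, Disjoint X X₀ → ∑ x ∈ X, f x ^ 2 ≤ δ := by
  set V := Set.range fun X : Finset (Γ × O) => ∑ x ∈ X, f x ^ 2 with hV
  have hb : BddAbove V := ⟨D, by rintro _ ⟨X, rfl⟩; exact hD X⟩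
  obtain ⟨_, ⟨X₀, rfl⟩, h⟩ := exists_lt_of_lt_csSup ⟨_, Set.mem_range_self (∅ : Finset (Γ × O))⟩
    (show sSup V - δ < sSup V by linarith)
  refine ⟨X₀, fun X hX => ?_⟩
  have := le_csSup hb (Set.mem_range_self (X ∪ X₀))
  simp only [sum_union hX] at this h
  linarith

/-- The square sum of a translate. -/
theorem sum_translate_le (hD : ∀ X : Finset (Γ × O), ∑ x ∈ X, f x ^ 2 ≤ D) (g : Γ)
    (X : Finset (Γ × O)) : ∑ x ∈ X, f (tr g⁻¹ x) ^ 2 ≤ D := by
  rw [← sum_image (f := fun x => f x ^ 2) fun a _ b _ h => tr_injective g⁻¹ h]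
  exact hD _

/-- A new element whose translate is almost orthogonal to finitely many given ones. -/
theorem exists_far [Infinite Γ]
    (hD : ∀ X : Finset (Γ × O), ∑ x ∈ X, f x ^ 2 ≤ D) (S : Finset Γ) {η : ℝ} (hη : 0 < η) :
    ∃ g, g ∉ S ∧ ∀ h ∈ S, ∀ X : Finset (Γ × O),
      ∑ x ∈ X, f (tr g⁻¹ x) * f (tr h⁻¹ x) ≤ η := by
  have hD0 : 0 ≤ D := (sum_nonneg fun _ _ => sq_nonneg _).trans (hD ∅)
  set t := η / (D + 1) with ht
  have ht0 : 0 < t := by positivity
  obtain ⟨X₀, hX₀⟩ := exists_tail hD (show 0 < t ^ 2 by positivity)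
  set K := X₀.image Prod.fst
  obtain ⟨g, hg⟩ :=
    (S ∪ (S ×ˢ (K ×ˢ K)).image fun q => q.1 * q.2.1 * q.2.2⁻¹).exists_notMem
  rw [mem_union, not_or] at hg
  refine ⟨g, hg.1, fun h hh X => ?_⟩
  set a : Γ × O → ℝ := fun x => f (tr g⁻¹ x)
  set b : Γ × O → ℝ := fun x => f (tr h⁻¹ x)
  -- the mass of a translate outside the translated finite set
  have tail : ∀ (u : Γ) (Z : Finset (Γ × O)), (∀ x ∈ Z, tr u⁻¹ x ∉ X₀) →
      ∑ x ∈ Z, f (tr u⁻¹ x) ^ 2 ≤ t ^ 2 := by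
    intro u Z hZ
    rw [← sum_image (f := fun x => f x ^ 2) fun a _ b _ h => tr_injective u⁻¹ h]
    refine hX₀ _ (disjoint_left.2 fun x hx => ?_)
    obtain ⟨y, hy, rfl⟩ := mem_image.1 hx
    exact hZ y hy
  have half : ∀ (u v : Γ) (Z : Finset (Γ × O)), (∀ x ∈ Z, tr u⁻¹ x ∉ X₀) →
      ∑ x ∈ Z, f (tr v⁻¹ x) * f (tr u⁻¹ x) ≤ t * (D + 1) / 2 := by
    intro u v Z hZ
    have key : ∀ x, f (tr v⁻¹ x) * f (tr u⁻¹ x) ≤
        t / 2 * f (tr v⁻¹ x) ^ 2 + 1 / (2 * t) * f (tr u⁻¹ x) ^ 2 := fun x => by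
      have e : t / 2 * f (tr v⁻¹ x) ^ 2 + 1 / (2 * t) * f (tr u⁻¹ x) ^ 2 -
          f (tr v⁻¹ x) * f (tr u⁻¹ x) =
          (t * f (tr v⁻¹ x) - f (tr u⁻¹ x)) ^ 2 / (2 * t) := by field_simp; ring
      have : 0 ≤ (t * f (tr v⁻¹ x) - f (tr u⁻¹ x)) ^ 2 / (2 * t) := by positivity
      linarith
    refine (sum_le_sum fun x _ => key x).trans ?_
    rw [sum_add_distrib, ← mul_sum, ← mul_sum]
    refine (add_le_add (mul_le_mul_of_nonneg_left (sum_translate_le hD v Z) (by positivity))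
      (mul_le_mul_of_nonneg_left (tail u Z hZ) (by positivity))).trans (le_of_eq ?_)
    field_simp
  rw [← sum_filter_add_sum_filter_not X fun x => tr h⁻¹ x ∈ X₀]
  have e : η = t * (D + 1) / 2 + t * (D + 1) / 2 := by rw [ht]; field_simp; norm_num
  rw [e]
  refine add_le_add ?_ (half h g _ fun x hx => (mem_filter.1 hx).2)
  simp only [mul_comm (f (tr g⁻¹ _))]
  refine half g h _ fun x hx hxg => hg.2 (mem_image.2 ⟨(h, (h⁻¹ * x.1, g⁻¹ * x.1)), ?_, by group⟩)
  exact mem_product.2 ⟨hh, mem_product.2 ⟨mem_image_of_mem Prod.fst (mem_filter.1 hx).2,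
    mem_image_of_mem Prod.fst hxg⟩⟩

/-- Any number of elements with almost orthogonal translates. -/
theorem exists_spread [Infinite Γ]
    (hD : ∀ X : Finset (Γ × O), ∑ x ∈ X, f x ^ 2 ≤ D) {η : ℝ} (hη : 0 < η) (m : ℕ) :
    ∃ S : Finset Γ, S.card = m ∧ ∀ g ∈ S, ∀ h ∈ S, g ≠ h → ∀ X : Finset (Γ × O),
      ∑ x ∈ X, f (tr g⁻¹ x) * f (tr h⁻¹ x) ≤ η := by
  induction m with
  | zero => exact ⟨∅, card_empty, fun g hg => absurd hg (notMem_empty g)⟩
  | succ m ih =>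
    obtain ⟨S, hS, hp⟩ := ih
    obtain ⟨g, hg, hfar⟩ := exists_far hD S hη
    refine ⟨insert g S, by rw [card_insert_of_notMem hg, hS], fun a ha b hb hab X => ?_⟩
    rcases mem_insert.1 ha with e | ha' <;> rcases mem_insert.1 hb with e' | hb'
    · exact absurd (e.trans e'.symm) hab
    · rw [e]
      exact hfar b hb' X
    · rw [e']
      simp only [mul_comm (f (tr a⁻¹ _))]
      exact hfar a ha' X
    · exact hp a ha' b hb' hab X

/-- The average over a large spread set has small square sum. -/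
theorem exists_small_average [Infinite Γ]
    (hD : ∀ X : Finset (Γ × O), ∑ x ∈ X, f x ^ 2 ≤ D) {ε : ℝ} (hε : 0 < ε) :
    ∃ S : Finset Γ, S.Nonempty ∧ ∀ X : Finset (Γ × O),
      ∑ x ∈ X, (∑ g ∈ S, f (tr g⁻¹ x)) ^ 2 ≤ (ε * S.card) ^ 2 := by
  obtain ⟨m, hm⟩ := exists_nat_ge (max 1 (2 * D / ε ^ 2))
  have hm1 : (1 : ℝ) ≤ m := (le_max_left _ _).trans hm
  have hm2 : 2 * D ≤ (m : ℝ) * ε ^ 2 :=
    (div_le_iff₀ (by positivity)).1 ((le_max_right _ _).trans hm)
  obtain ⟨S, hS, hp⟩ := exists_spread hD (show 0 < ε ^ 2 / 2 by positivity) m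
  refine ⟨S, card_pos.1 (hS ▸ Nat.cast_pos.1 (by linarith : (0 : ℝ) < m)), fun X => ?_⟩
  simp only [pow_two (∑ g ∈ S, f (tr g⁻¹ _)), sum_mul_sum]
  rw [sum_comm]
  have row : ∀ g ∈ S, ∑ x ∈ X, ∑ h ∈ S, f (tr g⁻¹ x) * f (tr h⁻¹ x) ≤
      D + (m : ℝ) * (ε ^ 2 / 2) := fun g hg => by
    rw [sum_comm, ← add_sum_erase _ _ hg]
    refine add_le_add ?_ ((sum_le_card_nsmul _ _ (ε ^ 2 / 2) fun h hh =>
      hp g hg h (mem_erase.1 hh).2 (mem_erase.1 hh).1.symm X).trans ?_)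
    · simpa only [pow_two] using sum_translate_le hD g X
    · rw [nsmul_eq_mul]
      refine mul_le_mul_of_nonneg_right ?_ (by positivity)
      exact Nat.cast_le.2 ((card_erase_le).trans hS.le)
  refine (sum_le_card_nsmul _ _ _ row).trans ?_
  rw [nsmul_eq_mul, hS, mul_pow]
  have := mul_le_mul_of_nonneg_left hm2 (show (0 : ℝ) ≤ m by positivity)
  linarith

end Abstract

variable {Γ O ι : Type} [Group Γ] [DecidableEq Γ] [DecidableEq O] [Fintype ι]
  {G : SimpleGraph (Γ × O)} {nb : Γ × O → ι → Γ × O}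

/-- A bounded bubble below a parameter gives push sets: the average of the connection vectors from
their points has small square sum, uniformly below the parameter. -/
theorem exists_push [Fintype O] [Infinite Γ] (hl : Labelling G nb) (hinv : Inv G) (o₁ : O)
    {p₀ p C : ℝ} (h0 : 0 ≤ p₀) (h1 : p ≤ 1)
    (hbub : ∀ q, p₀ ≤ q → q < p → ∀ (w : Γ × O) (o' : O) (Z : Finset Γ),
      ∑ z ∈ Z, T nb q w (z, o') ^ 2 ≤ C) {ε : ℝ} (hε : 0 < ε) :
    ∃ S : Finset Γ, S.Nonempty ∧ ∀ q, p₀ ≤ q → q < p → ∀ X : Finset (Γ × O),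
      ∑ x ∈ X, (∑ g ∈ S, T nb q (g, o₁) x) ^ 2 ≤ (ε * S.card) ^ 2 := by
  rcases le_or_gt p p₀ with hle | hlt
  · exact ⟨{1}, singleton_nonempty _, fun q hq hq' => absurd (hq'.trans_le hle) hq.not_gt⟩
  set r : ℕ → ℝ := fun m => p - (p - p₀) / (m + 1) with hr
  have hr0 : ∀ m, p₀ ≤ r m := fun m => by
    have : (p - p₀) / (m + 1) ≤ p - p₀ :=
      div_le_self (by linarith) (le_add_of_nonneg_left (Nat.cast_nonneg m))
    simp only [hr]; linarith
  have hr1 : ∀ m, r m < p := fun m => by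
    have : 0 < (p - p₀) / ((m : ℝ) + 1) := div_pos (by linarith) (by positivity)
    simp only [hr]; linarith
  have hrmono : Monotone r := fun a b hab => by
    simp only [hr]
    gcongr
  have hcof : ∀ q, q < p → ∃ m, q ≤ r m := fun q hq => by
    obtain ⟨m, hm⟩ := exists_nat_ge ((p - p₀) / (p - q))
    refine ⟨m, ?_⟩
    rw [div_le_iff₀ (by linarith)] at hm
    have : (p - p₀) / ((m : ℝ) + 1) ≤ p - q := by
      rw [div_le_iff₀ (by positivity)]; nlinarith
    simp only [hr]; linarith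
  set u : Γ × O → ℕ → ℝ := fun x m => T nb (r m) ((1 : Γ), o₁) x
  set f : Γ × O → ℝ := fun x => ⨆ m, u x m
  have hub : ∀ x, BddAbove (Set.range (u x)) := fun x =>
    ⟨1, by rintro _ ⟨m, rfl⟩; exact T_le_one (h0.trans (hr0 m)) ((hr1 m).le.trans h1) _ _⟩
  have hf : ∀ x, 0 ≤ f x := fun x =>
    (T_nonneg (h0.trans (hr0 0)) ((hr1 0).le.trans h1) _ _).trans (le_ciSup (hub x) 0)
  have hD : ∀ X : Finset (Γ × O), ∑ x ∈ X, f x ^ 2 ≤ (Fintype.card O : ℝ) * C := fun X => by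
    refine le_of_tendsto (tendsto_finsetSum X fun x _ => (tendsto_atTop_ciSup
      (fun a b hab => T_mono (h0.trans (hr0 a)) (hrmono hab) ((hr1 b).le.trans h1) _ _)
      (hub x)).pow 2) (Eventually.of_forall fun m => ?_)
    refine (sum_le_sum_of_subset_of_nonneg (t := X.image Prod.fst ×ˢ (univ : Finset O))
      (fun x hx => mem_product.2 ⟨mem_image_of_mem _ hx, mem_univ _⟩)
      fun _ _ _ => sq_nonneg _).trans ?_
    rw [sum_product, sum_comm]
    refine (sum_le_card_nsmul _ _ C fun o _ => hbub _ (hr0 m) (hr1 m) _ o _).trans ?_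
    rw [card_univ, nsmul_eq_mul]
  obtain ⟨S, hSne, hS⟩ := exists_small_average hD hε
  refine ⟨S, hSne, fun q hq hq' X => le_trans (sum_le_sum fun x _ => ?_) (hS X)⟩
  have hq0 : 0 ≤ q := h0.trans hq
  have hq1 : q ≤ 1 := hq'.le.trans h1
  refine pow_le_pow_left₀ (sum_nonneg fun g _ => T_nonneg hq0 hq1 _ _) (sum_le_sum fun g _ => ?_) 2
  obtain ⟨m, hm⟩ := hcof q hq'
  have e : T nb q (g, o₁) x = T nb q ((1 : Γ), o₁) (tr g⁻¹ x) := by
    rw [← T_tr hl hinv g⁻¹ hq0 hq1 (g, o₁) x]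
    simp [tr]
  rw [e]
  exact (T_mono hq0 hm ((hr1 m).le.trans h1) _ _).trans (le_ciSup (hub _) m)

end Vale.Agent.P165.EX
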