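import Vale.Agent.P165.EX.RowsSL
import Vale.Agent.P165.EX.Master
import Vale.Agent.P165.EX.Push
import Vale.Agent.P165.EX.Phase

/-!
# A nonuniqueness phase for dense groups with finite boxes in every rank
-/

namespace Vale.Agent.P165.EX

open Matrix FF
open scoped Matrix.Norms.Elementwise MatrixGroups

/-- Zariski dense subgroups of `SL(n, k)` with finite boxes have a nonuniqueness phase. -/
theorem phaseSL {n : ℕ} (hn : 2 ≤ n) : PhaseSL n :=
  phaseSL_of_windows hn fun k _ _ Γ _ _ _ ρ hd hfin O _ _ _ d G nb hl hinv hconn p hs => by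
    classical
    obtain ⟨hp, hp1, hwit⟩ := hs
    set o₁ : O := Classical.arbitrary O
    obtain ⟨C, hC⟩ := bubble_mass ρ hl hinv hconn (by omega) hd hfin
      (show 0 < p / 2 by linarith) (by linarith)
    refine windowsBelow_of_master ρ (by omega) hd hfin hl hinv hconn o₁ ⟨hp, hp1, hwit⟩
      (fun ε hε => exists_push hl hinv o₁ (by linarith) hp1
        (fun q hq hqp => hC q hq (hqp.le.trans hp1) (hwit q (le_trans (by linarith) hq) hqp)) hε)
      fun F A => master ρ hl hinv hconn (by omega) hd hfin o₁ (by linarith) (by linarith) F A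

end Vale.Agent.P165.EX
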