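import Vale.Agent.P165.EX.Flat

/-!
# Children with frozen tests of order one

The first-order form of the geometry used by the recursion: along one finite frame set the child
`w σ h` is a candidate over `w` in all orders and keeps, up to a constant, the defects of finitely
many test matrices, for instance of two covectors. The defect of any test is linear in the size.
-/

namespace Vale.Agent.P165.EX

open Finset Matrix
open scoped Matrix.Norms.Elementwise MatrixGroups

variable {k : Type} [NontriviallyNormedField k] {n : ℕ}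

theorem norm_cmp_one (X : Matrix (Fin n) (Fin n) k) : ‖cmp 1 X‖ = ‖X‖ := by
  have e : ∀ s t, cmp 1 X s t = X (emb s 0) (emb t 0) := fun s t => by
    rw [cmp, Matrix.of_apply, det_unique]
    rfl
  refine le_antisymm ((Matrix.norm_le_iff (norm_nonneg _)).2 fun s t => ?_)
    ((Matrix.norm_le_iff (norm_nonneg _)).2 fun a b => ?_)
  · rw [e]
    exact norm_entry_le_entrywise_sup_norm X
  · obtain ⟨s, hs⟩ := exists_coord a
    obtain ⟨t, ht⟩ := exists_coord b
    refine le_trans (le_of_eq ?_) (norm_entry_le_entrywise_sup_norm _ (i := s) (j := t))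
    rw [e, hs, ht]

/-- The matrix all of whose rows are one covector. -/
def rowsOf (φ : Fin n → k) : Matrix (Fin n) (Fin n) k := Matrix.of fun _ => φ

theorem norm_rowsOf_mul (hn : 0 < n) (φ : Fin n → k) (X : Matrix (Fin n) (Fin n) k) :
    ‖rowsOf φ * X‖ = ‖φ ᵥ* X‖ := by
  have e : ∀ a b, (rowsOf φ * X) a b = (φ ᵥ* X) b := fun a b => rfl
  refine le_antisymm ((Matrix.norm_le_iff (norm_nonneg _)).2 fun a b => ?_)
    ((pi_norm_le_iff_of_nonneg (norm_nonneg _)).2 fun b => ?_)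
  · rw [e]; exact norm_le_pi_norm _ b
  · exact (e ⟨0, hn⟩ b).symm ▸ norm_entry_le_entrywise_sup_norm (rowsOf φ * X)

theorem norm_rowsOf (hn : 0 < n) (φ : Fin n → k) : ‖rowsOf φ‖ = ‖φ‖ := by
  have h := norm_rowsOf_mul hn φ 1
  rwa [mul_one, vecMul_one] at h

theorem rowsOf_ne_zero (hn : 0 < n) {φ : Fin n → k} (hφ : φ ≠ 0) : rowsOf φ ≠ 0 := fun h =>
  hφ (norm_eq_zero.1 (by rw [← norm_rowsOf hn φ, h, norm_zero]))

variable {Γ : Type} [Group Γ] (ρ : Γ →* SL(n, k))

/-- The logarithmic size. -/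
noncomputable def lsize (g : Γ) : ℝ := Real.log ‖(ρ g : Matrix (Fin n) (Fin n) k)‖

/-- The defect of a test matrix of order one. -/
noncomputable def defect (Q : Matrix (Fin n) (Fin n) k) (g : Γ) : ℝ :=
  lsize ρ g - Real.log ‖Q * (ρ g : Matrix (Fin n) (Fin n) k)‖

theorem size_one (g : Γ) : size ρ 1 g = lsize ρ g := by
  rw [size, cm, norm_cmp_one, lsize]

theorem lev_one (Q : Matrix (Fin n) (Fin n) k) (g : Γ) :
    lev ρ (cmp 1 Q) g = Real.log ‖Q * (ρ g : Matrix (Fin n) (Fin n) k)‖ := by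
  rw [lev, cm, ← cmp_mul, norm_cmp_one]

/-- Children along one frame set: candidates in all orders which keep the defects of `q` tests. -/
theorem exists_child [ProperSpace k] (hn : 0 < n)
    (hdense : SL.ZariskiDense (Set.range fun g => (ρ g : Matrix (Fin n) (Fin n) k))) (q : ℕ) :
    ∃ (F : Finset Γ) (A : ℝ), 0 ≤ A ∧
      ∀ (Q : Fin q → Matrix (Fin n) (Fin n) k) (w h : Γ), ∃ σ ∈ F,
        Cand ρ F A (w * σ * h) w ∧ |lsize ρ (w * σ * h) - lsize ρ w - lsize ρ h| ≤ A ∧
          ∀ i, Q i ≠ 0 → |defect ρ (Q i) (w * σ * h) - defect ρ (Q i) w| ≤ A := by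
  obtain ⟨F, A, hA, hest⟩ := exists_est ρ hdense q
  refine ⟨F, 2 * A, by positivity, fun Q w h => ?_⟩
  obtain ⟨σ, hσ, hs⟩ := hest (fun j i => cmp j (Q i)) w h
  refine ⟨σ, hσ, ⟨h, ⟨σ, hσ, rfl⟩, fun j => (hs j).1.trans (by linarith)⟩, ?_, fun i hi => ?_⟩
  · have h1 : |size ρ 1 (w * σ * h) - size ρ 1 w - size ρ 1 h| ≤ A := (hs ⟨1, by omega⟩).1
    rw [size_one, size_one, size_one] at h1
    linarith
  · have hne : cmp 1 (Q i) ≠ 0 := fun e =>
      hi (norm_eq_zero.1 (by rw [← norm_cmp_one, e, norm_zero]))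
    have h1 : |size ρ 1 (w * σ * h) - size ρ 1 w - size ρ 1 h| ≤ A := (hs ⟨1, by omega⟩).1
    have h2 : |lev ρ (cmp 1 (Q i)) (w * σ * h) - lev ρ (cmp 1 (Q i)) w - size ρ 1 h| ≤ A :=
      (hs ⟨1, by omega⟩).2 i hne
    rw [size_one, size_one, size_one] at h1
    rw [lev_one, lev_one, size_one] at h2
    simp only [defect]
    rw [abs_le] at h1 h2 ⊢
    constructor <;> linarith

/-- The size of an inverse is linear in the size. -/
theorem lsize_inv_le (hn : 0 < n) (g : Γ) :
    lsize ρ g⁻¹ ≤ Real.log n.factorial + n * |lsize ρ g| := by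
  set X : Matrix (Fin n) (Fin n) k := (ρ g : Matrix (Fin n) (Fin n) k)
  set Y : Matrix (Fin n) (Fin n) k := (ρ g⁻¹ : Matrix (Fin n) (Fin n) k)
  have hXY : X * Y = 1 := by rw [← coe_mul, mul_inv_cancel, coe_one]
  have hY : Y = X.adjugate := by
    calc Y = X.adjugate * X * Y := by rw [adjugate_mul, (ρ g).2, one_smul, one_mul]
      _ = _ := by rw [Matrix.mul_assoc, hXY, mul_one]
  have hpos : ∀ h : Γ, 0 < ‖(ρ h : Matrix (Fin n) (Fin n) k)‖ := fun h => by
    rw [← norm_cmp_one]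
    exact norm_cm_pos ρ hn h
  set B := max ‖X‖ 1
  have hB : ‖Y‖ ≤ n.factorial * B ^ n := (Matrix.norm_le_iff (by positivity)).2 fun a b => by
    rw [hY]
    exact adjugate_entry_le (le_max_right _ _) X
      (fun i l => (norm_entry_le_entrywise_sup_norm X).trans (le_max_left _ _)) a b
  have h1 := Real.log_le_log (hpos g⁻¹) hB
  rw [Real.log_mul (Nat.cast_ne_zero.2 n.factorial_ne_zero) (by positivity), Real.log_pow] at h1
  refine h1.trans (add_le_add le_rfl (mul_le_mul_of_nonneg_left ?_ (Nat.cast_nonneg _)))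
  rcases le_total ‖X‖ 1 with h | h
  · rw [show B = 1 from max_eq_right h, Real.log_one]
    exact abs_nonneg _
  · rw [show B = ‖X‖ from max_eq_left h]
    exact le_abs_self _

/-- Every defect is bounded linearly in the size, and below by a constant. -/
theorem defect_bounds (hn : 0 < n) {Q : Matrix (Fin n) (Fin n) k} (hQ : Q ≠ 0) (g : Γ) :
    -(Real.log n + Real.log ‖Q‖) ≤ defect ρ Q g ∧
      defect ρ Q g ≤ (n + 1) * |lsize ρ g| + Real.log n + Real.log n.factorial - Real.log ‖Q‖ := by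
  set X : Matrix (Fin n) (Fin n) k := (ρ g : Matrix (Fin n) (Fin n) k)
  set Y : Matrix (Fin n) (Fin n) k := (ρ g⁻¹ : Matrix (Fin n) (Fin n) k)
  have hXY : X * Y = 1 := by rw [← coe_mul, mul_inv_cancel, coe_one]
  have hn0 : (0 : ℝ) < n := Nat.cast_pos.2 hn
  have hX : 0 < ‖X‖ := by rw [← norm_cmp_one]; exact norm_cm_pos ρ hn g
  have hY : 0 < ‖Y‖ := by rw [← norm_cmp_one]; exact norm_cm_pos ρ hn g⁻¹
  have hq : 0 < ‖Q‖ := norm_pos_iff.2 hQ
  have hQX : 0 < ‖Q * X‖ := norm_pos_iff.2 fun h => hQ (by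
    calc Q = Q * (X * Y) := by rw [hXY, mul_one]
      _ = 0 := by rw [← Matrix.mul_assoc, h, zero_mul])
  have up : ‖Q * X‖ ≤ n * (‖Q‖ * ‖X‖) := by
    have := norm_mul_le_card Q X
    rwa [Fintype.card_fin] at this
  have low : ‖Q‖ ≤ n * (‖Q * X‖ * ‖Y‖) := by
    have := norm_mul_le_card (Q * X) Y
    rwa [Fintype.card_fin, Matrix.mul_assoc, hXY, mul_one] at this
  have l1 := Real.log_le_log hQX up
  have l2 := Real.log_le_log hq low
  rw [Real.log_mul hn0.ne' (mul_pos hq hX).ne', Real.log_mul hq.ne' hX.ne'] at l1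
  rw [Real.log_mul hn0.ne' (mul_pos hQX hY).ne', Real.log_mul hQX.ne' hY.ne'] at l2
  have h3 := lsize_inv_le ρ hn g
  have h4 := le_abs_self (lsize ρ g)
  simp only [defect, lsize] at h3 h4 ⊢
  constructor <;> linarith

/-- The defect of a unit covector. -/
theorem defect_rowsOf (hn : 0 < n) (φ : Fin n → k) (g : Γ) :
    defect ρ (rowsOf φ) g =
      lsize ρ g - Real.log ‖φ ᵥ* (ρ g : Matrix (Fin n) (Fin n) k)‖ := by
  rw [defect, norm_rowsOf_mul hn]

end Vale.Agent.P165.EX
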