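import Mathlib

/-!
# Compound matrices: the matrix of minors of one order

`cmp j A` is the matrix of the `j`-th exterior power of `A` in the standard basis.
-/

namespace Vale.Agent.P165.EX

open Matrix Finset Set.powersetCard

variable {k : Type} [Field k] {n : ℕ}

/-- The `j`-element sets of coordinates. -/
abbrev Sub (n j : ℕ) : Type := ↥(Set.powersetCard (Fin n) j)

noncomputable instance (n j : ℕ) : Fintype (Sub n j) := Fintype.ofFinite _

/-- The increasing enumeration of a set of coordinates. -/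
def emb {n j : ℕ} (s : Sub n j) : Fin j ↪o Fin n := ofFinEmbEquiv.symm s

/-- The matrix of the minors of order `j`. -/
def cmp (j : ℕ) (A : Matrix (Fin n) (Fin n) k) : Matrix (Sub n j) (Sub n j) k :=
  Matrix.of fun s t => (A.submatrix (emb s) (emb t)).det

theorem cmp_eq_toMatrix (j : ℕ) (A : Matrix (Fin n) (Fin n) k) :
    cmp j A = LinearMap.toMatrix ((Pi.basisFun k (Fin n)).exteriorPower j)
      ((Pi.basisFun k (Fin n)).exteriorPower j) (exteriorPower.map j (Matrix.toLin' A)) := by
  ext s t
  rw [LinearMap.toMatrix_apply, exteriorPower.basis_repr_apply, exteriorPower.basis_apply,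
    exteriorPower.ιMulti_family, exteriorPower.map_apply_ιMulti,
    exteriorPower.ιMultiDual_apply_ιMulti, cmp, Matrix.of_apply, ← det_transpose]
  congr 1
  ext a b
  simp [emb, toLin'_apply, mulVec_single]

theorem cmp_mul (j : ℕ) (A B : Matrix (Fin n) (Fin n) k) :
    cmp j (A * B) = cmp j A * cmp j B := by
  rw [cmp_eq_toMatrix, cmp_eq_toMatrix, cmp_eq_toMatrix, toLin'_mul, exteriorPower.map_comp,
    LinearMap.toMatrix_comp _ ((Pi.basisFun k (Fin n)).exteriorPower j)]

theorem cmp_one (j : ℕ) : cmp j (1 : Matrix (Fin n) (Fin n) k) = 1 := by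
  rw [cmp_eq_toMatrix, toLin'_one, exteriorPower.map_id, LinearMap.toMatrix_id]

theorem cmp_diagonal (j : ℕ) (d : Fin n → k) :
    cmp j (diagonal d) = diagonal fun s => ∏ i, d (emb s i) := by
  ext s t
  by_cases h : s = t
  · subst h
    rw [diagonal_apply_eq, cmp, Matrix.of_apply, submatrix_diagonal d _ (emb s).injective,
      det_diagonal]
    rfl
  · rw [diagonal_apply_ne _ h, cmp, Matrix.of_apply]
    obtain ⟨i, his, hit⟩ := (exists_mem_notMem_iff_ne s t).mp h
    obtain ⟨l, rfl⟩ := (mem_range_ofFinEmbEquiv_symm_iff_mem s i).mpr his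
    refine det_eq_zero_of_row_eq_zero l fun m => ?_
    rw [submatrix_apply, diagonal_apply_ne]
    intro he
    exact hit ((mem_range_ofFinEmbEquiv_symm_iff_mem t _).mp ⟨m, he.symm⟩)

theorem mem_iff {j : ℕ} (s : Sub n j) (i : Fin n) :
    i ∈ (s : Finset (Fin n)) ↔ ∃ l, emb s l = i :=
  (mem_range_ofFinEmbEquiv_symm_iff_mem s i).symm.trans Set.mem_range

theorem prod_emb {M : Type} [CommMonoid M] {j : ℕ} (s : Sub n j) (f : Fin n → M) :
    ∏ i, f (emb s i) = ∏ i ∈ (s : Finset (Fin n)), f i := by
  have h : (s : Finset (Fin n)) = Finset.univ.map (emb s).toEmbedding := by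
    ext i
    rw [mem_iff]
    simp
  rw [h, Finset.prod_map]
  rfl

end Vale.Agent.P165.EX
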