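import Vale.Agent.P165.EX.Instance
import Vale.Agent.P165.SG.Classes

/-!
# Integer and Gaussian integer points in every degree

A phase for every dense group with finite boxes gives it for the integer points, the Gaussian integer
points and the Cayley graph of the group generated by the elementary matrices.
-/

namespace Vale.Agent.P165.EX

open Matrix
open scoped Matrix.Norms.Elementwise MatrixGroups

variable {n : ℕ}

theorem gauss_balls (C : ℝ) : {r : GaussianInt | ‖GaussianInt.toComplex r‖ ≤ C}.Finite := by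
  refine ((Set.finite_Icc (-⌈C⌉) ⌈C⌉).prod (Set.finite_Icc (-⌈C⌉) ⌈C⌉)).preimage
    (f := fun r : GaussianInt => (r.re, r.im)) (fun _ _ _ _ h => ?_) |>.subset fun r hr => ?_
  · simp only [Prod.mk.injEq] at h
    exact Zsqrtd.ext h.1 h.2
  · have hre : |(r.re : ℝ)| ≤ (⌈C⌉ : ℝ) := by
      rw [GaussianInt.intCast_re]
      exact ((Complex.abs_re_le_norm _).trans hr).trans (Int.le_ceil C)
    have him : |(r.im : ℝ)| ≤ (⌈C⌉ : ℝ) := by
      rw [GaussianInt.intCast_im]
      exact ((Complex.abs_im_le_norm _).trans hr).trans (Int.le_ceil C)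
    rw [← Int.cast_abs] at hre him
    exact ⟨abs_le.1 (by exact_mod_cast hre), abs_le.1 (by exact_mod_cast him)⟩

/-- The statement that every dense group with finite boxes in degree `n` has a phase. -/
def PhaseSL (n : ℕ) : Prop :=
  ∀ (k : Type) [NontriviallyNormedField k] [ProperSpace k] (Γ : Type) [Group Γ]
    (ρ : Γ →* SL(n, k)),
    SL.ZariskiDense (Set.range fun g => (ρ g : Matrix (Fin n) (Fin n) k)) →
    (∀ R : ℝ, {g : Γ | ∀ i j, ‖(ρ g : Matrix (Fin n) (Fin n) k) i j‖ ≤ R}.Finite) →
    SG.NonuniquePhase Γ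

theorem nonuniquePhase_int (h : PhaseSL n) (hn : 2 ≤ n) : SG.NonuniquePhase SL(n, ℤ) :=
  h ℝ _ _ (ringHom_dense hn (Int.castRingHom ℝ) Int.cast_injective)
    (ringHom_discrete _ int_balls)

theorem nonuniquePhase_gauss (h : PhaseSL n) (hn : 2 ≤ n) :
    SG.NonuniquePhase SL(n, GaussianInt) := by
  have : Infinite GaussianInt :=
    Infinite.of_injective (fun m : ℤ => (m : GaussianInt)) Int.cast_injective
  exact h ℂ _ _ (ringHom_dense hn GaussianInt.toComplex fun _ _ h => GaussianInt.toComplex_inj.1 h)
    (ringHom_discrete _ gauss_balls)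

/-- The Cayley graph of the group generated by the elementary matrices. -/
theorem pc_lt_pu_elementary (h : PhaseSL n) (hn : 2 ≤ n) :
    let S : Set SL(n, ℤ) := {g | ∃ i j : Fin n, i ≠ j ∧ (g : Matrix (Fin n) (Fin n) ℤ) =
      transvection i j 1}
    pc (SimpleGraph.mulCayley ((Subgroup.closure S).subtype ⁻¹' S)) <
      pu (SimpleGraph.mulCayley ((Subgroup.closure S).subtype ⁻¹' S)) := by
  intro S
  have hS : S.Finite := by
    refine (Set.finite_range fun e : {e : Fin n × Fin n // e.1 ≠ e.2} => elem e.2 1).subset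
      fun g hg => ?_
    obtain ⟨i, j, hij, hg⟩ := hg
    exact ⟨⟨(i, j), hij⟩, Subtype.ext hg.symm⟩
  refine (h ℝ _ _ (subgroup_dense hn (Subgroup.closure S)
      fun i j hij => Subgroup.subset_closure ⟨i, j, hij, rfl⟩)
    (subgroup_discrete _)).2 _ _ ?_ ?_ (MonoidHom.id _) Function.injective_id ?_
  · exact hS.preimage (Subgroup.subtype_injective _).injOn
  · exact Subgroup.closure_closure_coe_preimage
  · rw [MonoidHom.range_eq_top_of_surjective _ Function.surjective_id]; infer_instance

end Vale.Agent.P165.EX
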