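import Vale.Agent.P165.Gladkov.Main

/-!
# Exclusive gates

Edges split into two disjoint sets `R` and `C`. A gate `i` is crossed when `o` reaches `u i` in `R`
and `v i` reaches `y` in `C`. By the three point inequality on each side the second moment of the
number of crossed gates is at most `8 B` times its mean when both families of gate points have
connection mass at most `B` from each of their points. So the mean is at most `8 B` times the
probability that some gate is crossed; for `u = v` this is at most the connection probability.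
-/

namespace Vale.Agent.P165.EX

open Finset FF Gladkov

variable {α : Type} [DecidableEq α]

/-- Functions of two disjoint parts are independent. -/
theorem avg_parts {E R C : Finset α} (hR : R ⊆ E) (hC : C ⊆ E) (hd : Disjoint R C) (p : ℝ)
    (f g : Finset α → ℝ) :
    avg E p (fun η => f (η ∩ R) * g (η ∩ C)) = avg R p f * avg C p g := by
  have hC' : C ⊆ E \ R := fun x hx => mem_sdiff.2 ⟨hC hx, fun h => disjoint_left.1 hd h hx⟩
  have h2 : avg (E \ R) p (fun θ => g (θ ∩ C)) = avg C p g := by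
    have h := avg_split hC' p g fun _ => (1 : ℝ)
    simpa [avg_one] using h
  rw [← h2, ← avg_split hR p f fun θ => g (θ ∩ C)]
  refine avg_congr E p fun η _ => ?_
  have e : η \ R ∩ C = η ∩ C := by
    ext x
    simp only [mem_inter, mem_sdiff]
    exact ⟨fun h => ⟨h.1.1, h.2⟩, fun h => ⟨⟨h.1, fun hr => disjoint_left.1 hd hr h.2⟩, h.2⟩⟩
  rw [e]

omit [DecidableEq α] in
/-- Cauchy–Schwarz: a squared mean is at most the mass of the support times the second moment. -/
theorem sq_avg_le {E : Finset α} {p : ℝ} (h0 : 0 ≤ p) (h1 : p ≤ 1) (N : Finset α → ℝ)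
    (P : Finset α → Prop) (hN : ∀ η, η ⊆ E → ¬P η → N η = 0) :
    avg E p N ^ 2 ≤ avg E p (fun η => ind (P η)) * avg E p fun η => N η ^ 2 := by
  refine sum_sq_le_sum_mul_sum_of_sq_le_mul E.powerset
    (fun η _ => mul_nonneg (wt_nonneg E h0 h1 η) (ind_nonneg _))
    (fun η _ => mul_nonneg (wt_nonneg E h0 h1 η) (sq_nonneg _)) fun η hη => ?_
  by_cases h : P η
  · simp only [show ind (P η) = 1 from if_pos h]
    exact le_of_eq (by ring)
  · simp [hN η (mem_powerset.1 hη) h, show ind (P η) = 0 from if_neg h]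

variable {V : Type} [DecidableEq V] {κ : Type}

/-- The number of crossed gates. -/
noncomputable def crossed (R C : Finset (Sym2 V)) (o y : V) (u v : κ → V) (Z : Finset κ)
    (η : Finset (Sym2 V)) : ℝ :=
  ∑ i ∈ Z, ind (Rch (η ∩ R) o (u i)) * ind (Rch (η ∩ C) (v i) y)

omit [DecidableEq V] in
theorem tau_nonneg (E : Finset (Sym2 V)) {p : ℝ} (h0 : 0 ≤ p) (h1 : p ≤ 1) (x y : V) :
    0 ≤ Gladkov.tau E p x y :=
  avg_nonneg _ h0 h1 fun _ _ => ind_nonneg _

theorem tau_mono {A E : Finset (Sym2 V)} (hA : A ⊆ E) {p : ℝ} (h0 : 0 ≤ p) (h1 : p ≤ 1) (x y : V) :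
    Gladkov.tau A p x y ≤ Gladkov.tau E p x y :=
  avg_mono_set hA h0 h1 fun _ _ h => ind_mono (rch_mono h)

/-- The product of the two sides for a pair of gates, from the three point inequality. -/
theorem pair_le {E R C : Finset (Sym2 V)} (hR : R ⊆ E) (hC : C ⊆ E) {p : ℝ} (h0 : 0 ≤ p)
    (h1 : p ≤ 1) (o y u u' v v' : V) :
    (avg R p fun η => ind (Rch η o u) * ind (Rch η o u')) *
        (avg C p fun η => ind (Rch η v y) * ind (Rch η v' y)) ≤
      8 * √((Gladkov.tau R p o u * Gladkov.tau C p v y) *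
          (Gladkov.tau R p o u' * Gladkov.tau C p v' y)) *
        √(Gladkov.tau E p u u' * Gladkov.tau E p v v') := by
  have eR : (avg R p fun η => ind (Rch η o u) * ind (Rch η o u')) =
      avg R p fun η => ind (Rch η o u ∧ Rch η o u') := avg_congr R p fun η _ => by
    by_cases a : Rch η o u <;> by_cases b : Rch η o u' <;> simp [ind, a, b]
  have eC : (avg C p fun η => ind (Rch η v y) * ind (Rch η v' y)) =
      avg C p fun η => ind (Rch η y v ∧ Rch η y v') := avg_congr C p fun η _ => by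
    have s : ∀ x, Rch η x y ↔ Rch η y x := fun x => SimpleGraph.reachable_comm
    by_cases a : Rch η v y <;> by_cases b : Rch η v' y <;> simp [ind, a, b, ← s]
  have tn := fun (A : Finset (Sym2 V)) (x z : V) => tau_nonneg A h0 h1 x z
  have gR := three_point R h0 h1 o u u'
  have gC := three_point C h0 h1 y v v'
  rw [Gladkov.tau_comm C p y v, Gladkov.tau_comm C p y v'] at gC
  have a0 := avg_nonneg R h0 h1 (f := fun η => ind (Rch η o u ∧ Rch η o u')) fun _ _ => ind_nonneg _
  have c0 := avg_nonneg C h0 h1 (f := fun η => ind (Rch η y v ∧ Rch η y v')) fun _ _ => ind_nonneg _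
  rw [eR, eC]
  set W := (Gladkov.tau R p o u * Gladkov.tau C p v y) *
    (Gladkov.tau R p o u' * Gladkov.tau C p v' y)
  have e8 : (8 : ℝ) * √W * √(Gladkov.tau E p u u' * Gladkov.tau E p v v') =
      √(8 * 8 * W * (Gladkov.tau E p u u' * Gladkov.tau E p v v')) := by
    rw [Real.sqrt_mul' (8 * 8 * W) (mul_nonneg (tn _ _ _) (tn _ _ _)),
      Real.sqrt_mul (by norm_num) W, Real.sqrt_mul_self (by norm_num)]
  rw [e8]
  refine Real.le_sqrt_of_sq_le ?_
  rw [mul_pow]
  refine (mul_le_mul gR gC (sq_nonneg _) ((sq_nonneg _).trans gR)).trans ?_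
  have m := mul_le_mul (tau_mono hR h0 h1 u u') (tau_mono hC h0 h1 v v') (tn _ _ _) (tn _ _ _)
  have := mul_le_mul_of_nonneg_left m (mul_nonneg (by norm_num : (0 : ℝ) ≤ 8 * 8)
    (mul_nonneg (mul_nonneg (tn R o u) (tn C v y)) (mul_nonneg (tn R o u') (tn C v' y))))
  linarith

/-- Exclusivity: the mean number of crossed gates is at most `8 B` times the probability that one
is crossed. -/
theorem sum_gates_le {E R C : Finset (Sym2 V)} (hR : R ⊆ E) (hC : C ⊆ E) (hd : Disjoint R C)
    {p : ℝ} (h0 : 0 ≤ p) (h1 : p ≤ 1) (o y : V) (u v : κ → V) (Z : Finset κ) {B : ℝ} (hB : 0 ≤ B)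
    (hu : ∀ i ∈ Z, ∑ j ∈ Z, Gladkov.tau E p (u i) (u j) ≤ B)
    (hv : ∀ i ∈ Z, ∑ j ∈ Z, Gladkov.tau E p (v i) (v j) ≤ B) :
    ∑ i ∈ Z, Gladkov.tau R p o (u i) * Gladkov.tau C p (v i) y ≤
      8 * B * avg E p fun η => ind (∃ i ∈ Z, Rch (η ∩ R) o (u i) ∧ Rch (η ∩ C) (v i) y) := by
  set a : κ → ℝ := fun i => Gladkov.tau R p o (u i) * Gladkov.tau C p (v i) y
  set S := avg E p fun η => ind (∃ i ∈ Z, Rch (η ∩ R) o (u i) ∧ Rch (η ∩ C) (v i) y)
  show ∑ i ∈ Z, a i ≤ 8 * B * S
  have tn := fun (A : Finset (Sym2 V)) (x z : V) => tau_nonneg A h0 h1 x z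
  have ha : ∀ i, 0 ≤ a i := fun i => mul_nonneg (tn _ _ _) (tn _ _ _)
  have hA : 0 ≤ ∑ i ∈ Z, a i := sum_nonneg fun i _ => ha i
  have mean : avg E p (crossed R C o y u v Z) = ∑ i ∈ Z, a i := by
    refine (avg_sum E p Z fun i η => ind (Rch (η ∩ R) o (u i)) * ind (Rch (η ∩ C) (v i) y)).trans ?_
    exact sum_congr rfl fun i _ => avg_parts hR hC hd p (fun η => ind (Rch η o (u i)))
      fun η => ind (Rch η (v i) y)
  have second : avg E p (fun η => crossed R C o y u v Z η ^ 2) ≤ 8 * B * ∑ i ∈ Z, a i := by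
    have e : ∀ η, crossed R C o y u v Z η ^ 2 = ∑ i ∈ Z, ∑ j ∈ Z,
        (fun θ => ind (Rch θ o (u i)) * ind (Rch θ o (u j))) (η ∩ R) *
          (fun θ => ind (Rch θ (v i) y) * ind (Rch θ (v j) y)) (η ∩ C) := fun η => by
      rw [crossed, sq, sum_mul_sum]
      exact sum_congr rfl fun i _ => sum_congr rfl fun j _ => by ring
    simp only [e]
    rw [avg_sum]
    calc ∑ i ∈ Z, avg E p (fun η => ∑ j ∈ Z,
          (fun θ => ind (Rch θ o (u i)) * ind (Rch θ o (u j))) (η ∩ R) *
            (fun θ => ind (Rch θ (v i) y) * ind (Rch θ (v j) y)) (η ∩ C))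
        = ∑ i ∈ Z, ∑ j ∈ Z, (avg R p fun θ => ind (Rch θ o (u i)) * ind (Rch θ o (u j))) *
            (avg C p fun θ => ind (Rch θ (v i) y) * ind (Rch θ (v j) y)) := by
          refine sum_congr rfl fun i _ => ?_
          rw [avg_sum]
          exact sum_congr rfl fun j _ => avg_parts hR hC hd p
            (fun θ => ind (Rch θ o (u i)) * ind (Rch θ o (u j)))
            fun θ => ind (Rch θ (v i) y) * ind (Rch θ (v j) y)
      _ ≤ ∑ i ∈ Z, ∑ j ∈ Z, 2 * (a i + a j) *
            (Gladkov.tau E p (u i) (u j) + Gladkov.tau E p (v i) (v j)) := by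
          refine sum_le_sum fun i _ => sum_le_sum fun j _ => ?_
          refine (pair_le hR hC h0 h1 o y (u i) (u j) (v i) (v j)).trans ?_
          have am : ∀ {s t : ℝ}, 0 ≤ s → 0 ≤ t → √(s * t) ≤ (s + t) / 2 := fun {s t} hs ht =>
            (Real.sqrt_le_left (by linarith)).2 (by nlinarith [sq_nonneg (s - t)])
          have := mul_le_mul (am (ha i) (ha j)) (am (tn E (u i) (u j)) (tn E (v i) (v j)))
            (Real.sqrt_nonneg _) (by linarith [ha i, ha j])
          linarith
      _ ≤ 8 * B * ∑ i ∈ Z, a i := by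
          simp only [mul_add, add_mul, sum_add_distrib]
          have hrow : ∀ w : κ → V, (∀ i ∈ Z, ∑ j ∈ Z, Gladkov.tau E p (w i) (w j) ≤ B) →
              ∑ i ∈ Z, ∑ j ∈ Z, 2 * a i * Gladkov.tau E p (w i) (w j) ≤ 2 * B * ∑ i ∈ Z, a i ∧
              ∑ i ∈ Z, ∑ j ∈ Z, 2 * a j * Gladkov.tau E p (w i) (w j) ≤
                2 * B * ∑ i ∈ Z, a i := by
            intro w hw
            have h : ∑ i ∈ Z, ∑ j ∈ Z, 2 * a i * Gladkov.tau E p (w i) (w j) ≤
                2 * B * ∑ i ∈ Z, a i := by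
              rw [mul_sum]
              refine sum_le_sum fun i hi => ?_
              rw [← mul_sum]
              exact (mul_le_mul_of_nonneg_left (hw i hi) (by linarith [ha i])).trans_eq (by ring)
            refine ⟨h, le_trans (le_of_eq ?_) h⟩
            rw [sum_comm]
            exact sum_congr rfl fun i _ => sum_congr rfl fun j _ => by rw [Gladkov.tau_comm]
          obtain ⟨u1, u2⟩ := hrow u hu
          obtain ⟨v1, v2⟩ := hrow v hv
          linarith
  have hcs : (∑ i ∈ Z, a i) ^ 2 ≤ S * (8 * B * ∑ i ∈ Z, a i) := by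
    rw [← mean]
    refine (sq_avg_le h0 h1 _ (fun η => ∃ i ∈ Z, Rch (η ∩ R) o (u i) ∧ Rch (η ∩ C) (v i) y)
      fun η _ hn => sum_eq_zero fun i hi => ?_).trans ?_
    · by_cases hr : Rch (η ∩ R) o (u i)
      · rw [show ind (Rch (η ∩ C) (v i) y) = 0 from if_neg fun hc => hn ⟨i, hi, hr, hc⟩, mul_zero]
      · rw [show ind (Rch (η ∩ R) o (u i)) = 0 from if_neg hr, zero_mul]
    · rw [mean]
      exact mul_le_mul_of_nonneg_left second (avg_nonneg _ h0 h1 fun _ _ => ind_nonneg _)
  rcases eq_or_lt_of_le hA with h | h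
  · rw [← h]
    exact mul_nonneg (mul_nonneg (by norm_num) hB) (avg_nonneg _ h0 h1 fun _ _ => ind_nonneg _)
  · refine le_of_mul_le_mul_left ?_ h
    linarith [sq (∑ i ∈ Z, a i)]

/-- Gates with flat mass at most `B` carry at most `8 B` times the connection probability. -/
theorem exclusive {E R C : Finset (Sym2 V)} (hR : R ⊆ E) (hC : C ⊆ E) (hd : Disjoint R C)
    {p : ℝ} (h0 : 0 ≤ p) (h1 : p ≤ 1) (o y : V) (z : κ → V) (Z : Finset κ) {B : ℝ} (hB : 0 ≤ B)
    (flat : ∀ i ∈ Z, ∑ j ∈ Z, Gladkov.tau E p (z i) (z j) ≤ B) :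
    ∑ i ∈ Z, Gladkov.tau R p o (z i) * Gladkov.tau C p (z i) y ≤ 8 * B * Gladkov.tau E p o y := by
  refine (sum_gates_le hR hC hd h0 h1 o y z z Z hB flat flat).trans
    (mul_le_mul_of_nonneg_left ?_ (by linarith))
  refine avg_mono E h0 h1 fun η _ => ind_mono fun ⟨i, _, hr, hc⟩ => ?_
  exact (rch_mono inter_subset_left hr).trans (rch_mono inter_subset_left hc)

end Vale.Agent.P165.EX
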