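import Vale.Agent.P165.EX.Exclusive

/-!
# Exclusive gates with children off the explored cluster

Explore the cluster `D` of `o` inside `R`; the edges of `R` at `D` are revealed, all others are
fresh. A gate `i` is crossed when `z i` lies in `D`, the bridge `F i` from `z i` to `a i` is open
and `a i` reaches `y` by fresh edges. A lost connection from `a i` to `y` passes through a point of
`D`, so by van den Berg and Kesten the loss is a sum over the three point events of `o`, `z i`, `w`.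
-/

namespace Vale.Agent.P165.EX

open Finset FF Gladkov

variable {V : Type} [DecidableEq V]

/-- The edges of `R` at the cluster of `o` inside `R`. -/
noncomputable def rev (R : Finset (Sym2 V)) (o : V) (η : Finset (Sym2 V)) : Finset (Sym2 V) :=
  @Finset.filter _ (fun e => ∃ v ∈ e, Rch (η ∩ R) o v) (Classical.decPred _) R

theorem mem_rev {R : Finset (Sym2 V)} {o : V} {η : Finset (Sym2 V)} {e : Sym2 V} :
    e ∈ rev R o η ↔ e ∈ R ∧ ∃ v ∈ e, Rch (η ∩ R) o v := by
  simp [rev]

/-- The configuration explored in `η` and fresh from `ξ`. -/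
noncomputable def mix (R : Finset (Sym2 V)) (o : V) (η ξ : Finset (Sym2 V)) : Finset (Sym2 V) :=
  (η ∩ rev R o η) ∪ (ξ \ rev R o η)

theorem rch_of_agree {R : Finset (Sym2 V)} {o : V} {η η' : Finset (Sym2 V)}
    (h : ∀ e ∈ rev R o η, e ∈ η' ↔ e ∈ η) (v : V) : Rch (η' ∩ R) o v ↔ Rch (η ∩ R) o v := by
  have mem : ∀ {u w : V}, Rch (η ∩ R) o u → s(u, w) ∈ R → s(u, w) ∈ rev R o η :=
    fun {u w} hu he => by
      rw [mem_rev]
      exact ⟨he, u, Sym2.mem_mk_left u w, hu⟩
  constructor
  · rintro ⟨q⟩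
    suffices key : ∀ {u x : V} (_ : (SimpleGraph.fromEdgeSet (↑(η' ∩ R) : Set (Sym2 V))).Walk u x),
        Rch (η ∩ R) o u → Rch (η ∩ R) o x from key q .rfl
    intro u x q
    induction q with
    | nil => exact id
    | @cons a b _ hadj q ih =>
      intro ha
      obtain ⟨he, hne⟩ := (SimpleGraph.fromEdgeSet_adj _).1 hadj
      obtain ⟨he', heR⟩ := mem_inter.1 (mem_coe.1 he)
      exact ih (ha.trans (rch_edge (mem_inter.2 ⟨(h _ (mem ha heR)).1 he', heR⟩)))
  · rintro ⟨q⟩
    suffices key : ∀ {u x : V} (_ : (SimpleGraph.fromEdgeSet (↑(η ∩ R) : Set (Sym2 V))).Walk u x),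
        Rch (η ∩ R) o u → Rch (η' ∩ R) o u → Rch (η' ∩ R) o x from key q .rfl .rfl
    intro u x q
    induction q with
    | nil => exact fun _ => id
    | @cons a b _ hadj q ih =>
      intro ha ha'
      obtain ⟨he, hne⟩ := (SimpleGraph.fromEdgeSet_adj _).1 hadj
      obtain ⟨he', heR⟩ := mem_inter.1 (mem_coe.1 he)
      exact ih (ha.trans (rch_edge (mem_inter.2 ⟨he', heR⟩)))
        (ha'.trans (rch_edge (mem_inter.2 ⟨(h _ (mem ha heR)).2 he', heR⟩)))

theorem rev_of_agree {R : Finset (Sym2 V)} {o : V} {η η' : Finset (Sym2 V)}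
    (h : ∀ e ∈ rev R o η, e ∈ η' ↔ e ∈ η) : rev R o η' = rev R o η := by
  ext e
  simp only [mem_rev, rch_of_agree h]

theorem mix_agree {R : Finset (Sym2 V)} {o : V} {η ξ : Finset (Sym2 V)} :
    ∀ e ∈ rev R o η, e ∈ mix R o η ξ ↔ e ∈ η := fun e he => by
  simp [mix, he]

theorem rch_mix (R : Finset (Sym2 V)) (o : V) (η ξ : Finset (Sym2 V)) (v : V) :
    Rch (mix R o η ξ ∩ R) o v ↔ Rch (η ∩ R) o v :=
  rch_of_agree mix_agree v

theorem mix_sdiff (R : Finset (Sym2 V)) (o : V) (η ξ : Finset (Sym2 V)) :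
    mix R o η ξ \ rev R o (mix R o η ξ) = ξ \ rev R o η := by
  rw [rev_of_agree mix_agree]
  ext e
  by_cases he : e ∈ rev R o η <;> simp [mix, he]

/-- Exploring one configuration and completing it by a fresh one gives the same law, whenever the
revealed part is determined by itself. -/
theorem avg_splice {α : Type} [DecidableEq α] (E : Finset α) (p : ℝ) (rv : Finset α → Finset α)
    (hrv : ∀ η η', (∀ e ∈ rv η, e ∈ η' ↔ e ∈ η) → rv η' = rv η) (f : Finset α → ℝ) :
    avg E p (fun η => avg E p fun ξ => f (η ∩ rv η ∪ ξ \ rv η)) = avg E p f := by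
  set swap : Finset α × Finset α → Finset α × Finset α := fun q =>
    (q.1 ∩ rv q.1 ∪ q.2 \ rv q.1, (q.2 ∩ rv q.1) ∪ (q.1 \ rv q.1))
  have hinv : ∀ q, swap (swap q) = q := by
    rintro ⟨η, ξ⟩
    have hr : rv (η ∩ rv η ∪ ξ \ rv η) = rv η :=
      hrv η _ fun e he => by simp [he]
    simp only [swap]
    refine Prod.ext ?_ ?_
    · ext e
      by_cases he : e ∈ rv η <;> simp [he] <;>
        (rw [show rv ((η ∩ rv η) ∪ (ξ \ rv η)) = rv η from hr]; simp [he])
    · ext e
      by_cases he : e ∈ rv η <;> simp [he] <;>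
        (rw [show rv ((η ∩ rv η) ∪ (ξ \ rv η)) = rv η from hr]; simp [he])
  have hsum : ∑ q ∈ E.powerset ×ˢ E.powerset, wt E p q.1 * wt E p q.2 * f (swap q).1 =
      ∑ q ∈ E.powerset ×ˢ E.powerset, wt E p q.1 * wt E p q.2 * f q.1 := by
    have hmem : ∀ q ∈ E.powerset ×ˢ E.powerset, swap q ∈ E.powerset ×ˢ E.powerset := by
      rintro ⟨η, ξ⟩ hq
      simp only [mem_product, mem_powerset, swap] at hq ⊢
      exact ⟨union_subset (inter_subset_left.trans hq.1) (sdiff_subset.trans hq.2),
        union_subset (inter_subset_left.trans hq.2) (sdiff_subset.trans hq.1)⟩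
    refine sum_nbij' swap swap hmem hmem (fun q _ => hinv q) (fun q _ => hinv q) ?_
    rintro ⟨η, ξ⟩ hq
    simp only [mem_product, mem_powerset] at hq
    have hcard : (swap (η, ξ)).1.card + (swap (η, ξ)).2.card = η.card + ξ.card := by
      simp only [swap]
      rw [card_union_of_disjoint, card_union_of_disjoint]
      · have a := card_inter_add_card_sdiff η (rv η)
        have b := card_inter_add_card_sdiff ξ (rv η)
        omega
      · exact disjoint_left.2 fun x hx hy => (mem_sdiff.1 hy).2 (mem_inter.1 hx).2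
      · exact disjoint_left.2 fun x hx hy => (mem_sdiff.1 hy).2 (mem_inter.1 hx).2
    have hm := hmem (η, ξ) (by simp [mem_product, mem_powerset, hq.1, hq.2])
    simp only [mem_product, mem_powerset] at hm
    have hw : wt E p (swap (η, ξ)).1 * wt E p (swap (η, ξ)).2 = wt E p η * wt E p ξ := by
      have c1 := card_le_card hm.1
      have c2 := card_le_card hm.2
      have c3 := card_le_card hq.1
      have c4 := card_le_card hq.2
      simp only [wt]
      rw [mul_mul_mul_comm, mul_mul_mul_comm (p ^ η.card), ← pow_add, ← pow_add, ← pow_add,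
        ← pow_add, hcard]
      congr 2
      omega
    rw [hw]
  simp only [sum_product] at hsum
  calc avg E p (fun η => avg E p fun ξ => f (η ∩ rv η ∪ ξ \ rv η))
      = ∑ η ∈ E.powerset, ∑ ξ ∈ E.powerset, wt E p η * wt E p ξ * f (η ∩ rv η ∪ ξ \ rv η) := by
        simp only [avg, mul_sum, mul_assoc]
    _ = ∑ η ∈ E.powerset, ∑ ξ ∈ E.powerset, wt E p η * wt E p ξ * f η := hsum
    _ = avg E p f := by
        refine sum_congr rfl fun η _ => ?_
        have h := avg_one E p
        simp only [avg, mul_one] at h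
        calc ∑ ξ ∈ E.powerset, wt E p η * wt E p ξ * f η
            = wt E p η * f η * ∑ ξ ∈ E.powerset, wt E p ξ := by
              rw [mul_sum]
              exact sum_congr rfl fun ξ _ => by ring
          _ = _ := by rw [h, mul_one]

/-- Exploring the cluster of `o` and completing by fresh edges gives the same law. -/
theorem avg_mix (E : Finset (Sym2 V)) (R : Finset (Sym2 V)) (o : V) (p : ℝ)
    (f : Finset (Sym2 V) → ℝ) :
    avg E p (fun η => avg E p fun ξ => f (mix R o η ξ)) = avg E p f :=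
  avg_splice E p (rev R o) (fun _ _ h => rev_of_agree h) f

/-- A connection lost by removing the revealed edges passes through the explored cluster. -/
theorem rch_lost {R : Finset (Sym2 V)} {o : V} {η ξ : Finset (Sym2 V)} {W : Finset V}
    (hW : ∀ e ∈ R, ∀ v ∈ e, v ∈ W) {a y : V} (h : Rch ξ a y) (hn : ¬Rch (ξ \ rev R o η) a y) :
    ∃ w ∈ W, Rch (η ∩ R) o w ∧ box (fun θ => Rch θ a w) (fun θ => Rch θ w y) ξ := by
  obtain ⟨q⟩ := h
  set P := q.toPath
  obtain ⟨e, heP, her⟩ : ∃ e ∈ (P : (SimpleGraph.fromEdgeSet (↑ξ : Set (Sym2 V))).Walk a y).edges,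
      e ∈ rev R o η := by
    by_contra hc
    push Not at hc
    refine hn ⟨P.1.transfer _ fun e he => ?_⟩
    have h1 := P.1.edges_subset_edgeSet he
    rw [SimpleGraph.edgeSet_fromEdgeSet] at h1 ⊢
    exact ⟨mem_coe.2 (mem_sdiff.2 ⟨mem_coe.1 h1.1, hc e he⟩), h1.2⟩
  classical
  rw [mem_rev] at her
  obtain ⟨heR, w, hwe, hw⟩ := her
  have hsupp : w ∈ P.1.support := SimpleGraph.Walk.mem_support_of_mem_edges heP hwe
  refine ⟨w, hW e heR w hwe, hw, ?_⟩
  set q₁ := P.1.takeUntil w hsupp
  set q₂ := P.1.dropUntil w hsupp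
  have hnd : (q₁.edges ++ q₂.edges).Nodup := by
    rw [← SimpleGraph.Walk.edges_append, SimpleGraph.Walk.take_spec]
    exact P.2.isTrail.edges_nodup
  have hsub : ∀ {u v : V} (w : (SimpleGraph.fromEdgeSet (↑ξ : Set (Sym2 V))).Walk u v),
      w.edges.toFinset ⊆ ξ ∧ Rch w.edges.toFinset u v := fun w => by
    refine ⟨fun e he => ?_, ⟨w.transfer _ fun e he => ?_⟩⟩
    · have h1 := w.edges_subset_edgeSet (List.mem_toFinset.1 he)
      rw [SimpleGraph.edgeSet_fromEdgeSet] at h1
      exact mem_coe.1 h1.1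
    · have h1 := w.edges_subset_edgeSet he
      rw [SimpleGraph.edgeSet_fromEdgeSet] at h1 ⊢
      exact ⟨mem_coe.2 (List.mem_toFinset.2 he), h1.2⟩
  exact ⟨_, _, (hsub q₁).1, (hsub q₂).1,
    List.disjoint_toFinset_iff_disjoint.2 (List.nodup_append'.1 hnd).2.2, (hsub q₁).2, (hsub q₂).2⟩

omit [DecidableEq V] in
theorem inc_rch (x y : V) : Inc fun η : Finset (Sym2 V) => Rch η x y := fun _ _ h => rch_mono h

/-- The probability that `o` reaches both points inside `R`. -/
noncomputable def both (R : Finset (Sym2 V)) (p : ℝ) (o z w : V) : ℝ :=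
  avg R p fun θ => ind (Rch θ o z) * ind (Rch θ o w)

theorem avg_inter {E R : Finset (Sym2 V)} (hR : R ⊆ E) (p : ℝ) (f : Finset (Sym2 V) → ℝ) :
    avg E p (fun η => f (η ∩ R)) = avg R p f := by
  have h := avg_split hR p f fun _ => (1 : ℝ)
  simpa [avg_one] using h

variable {κ : Type}

/-- The event that gate `i` is crossed. -/
def Crossed (R : Finset (Sym2 V)) (o y : V) (z a : κ → V) (F : κ → Finset (Sym2 V)) (i : κ)
    (ω : Finset (Sym2 V)) : Prop :=
  Rch (ω ∩ R) o (z i) ∧ F i ⊆ ω \ rev R o ω ∧ Rch (ω \ rev R o ω) (a i) y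

/-- One gate is crossed with at least the plain chance less the loss through the cluster. -/
theorem crossed_ge {E R : Finset (Sym2 V)} (hR : R ⊆ E) {p : ℝ} (h0 : 0 ≤ p) (h1 : p ≤ 1)
    (o y : V) (z a : κ → V) (F : κ → Finset (Sym2 V)) (i : κ) {W : Finset V}
    (hW : ∀ e ∈ R, ∀ v ∈ e, v ∈ W) (hF : F i ⊆ E \ R) :
    p ^ (F i).card * (Gladkov.tau R p o (z i) * Gladkov.tau E p (a i) y -
        ∑ w ∈ W, both R p o (z i) w * (Gladkov.tau E p (a i) w * Gladkov.tau E p w y)) ≤
      avg E p fun ω => ind (Crossed R o y z a F i ω) := by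
  rw [← avg_mix E R o p fun ω => ind (Crossed R o y z a F i ω)]
  have hFE : F i ⊆ E := hF.trans sdiff_subset
  have hpF : p ^ (F i).card = avg E p fun ξ => if F i ⊆ ξ then (1 : ℝ) else 0 := by
    have h := avg_forced hFE p fun _ => (1 : ℝ)
    rw [avg_one, mul_one] at h
    exact h.symm
  set g : Finset (Sym2 V) → ℝ := fun η => avg E p fun ξ => ind (Rch (ξ \ rev R o η) (a i) y)
  have inner : ∀ η, ind (Rch (η ∩ R) o (z i)) * (p ^ (F i).card * g η) ≤
      avg E p fun ξ => ind (Crossed R o y z a F i (mix R o η ξ)) := by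
    intro η
    by_cases hz : Rch (η ∩ R) o (z i)
    · rw [show ind (Rch (η ∩ R) o (z i)) = 1 from if_pos hz, one_mul, hpF]
      refine (harris E h0 h1 _ _ (fun s t hst => ?_) (monotone_ind fun s t hst hs => ?_)).trans
        (avg_mono E h0 h1 fun ξ _ => ?_)
      · show (if F i ⊆ s then (1 : ℝ) else 0) ≤ if F i ⊆ t then 1 else 0
        by_cases hs : F i ⊆ s
        · rw [if_pos hs, if_pos (hs.trans hst)]
        · rw [if_neg hs]; split_ifs <;> norm_num
      · exact rch_mono (sdiff_subset_sdiff hst le_rfl) hs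
      · by_cases hc : F i ⊆ ξ ∧ Rch (ξ \ rev R o η) (a i) y
        · have hcr : Crossed R o y z a F i (mix R o η ξ) := by
            refine ⟨(rch_mix R o η ξ _).2 hz, ?_, ?_⟩ <;> rw [mix_sdiff]
            · exact fun e he => mem_sdiff.2 ⟨hc.1 he, fun hr => (mem_sdiff.1 (hF he)).2
                (mem_rev.1 hr).1⟩
            · exact hc.2
          rw [if_pos hc.1, show ind (Rch (ξ \ rev R o η) (a i) y) = 1 from if_pos hc.2,
            show ind (Crossed R o y z a F i (mix R o η ξ)) = 1 from if_pos hcr, mul_one]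
        · refine le_trans (le_of_eq ?_) (ind_nonneg _)
          rcases not_and_or.1 hc with h | h
          · rw [if_neg h, zero_mul]
          · rw [show ind (Rch (ξ \ rev R o η) (a i) y) = 0 from if_neg h, mul_zero]
    · rw [show ind (Rch (η ∩ R) o (z i)) = 0 from if_neg hz, zero_mul]
      exact avg_nonneg E h0 h1 fun _ _ => ind_nonneg _
  have lost : ∀ η, Gladkov.tau E p (a i) y ≤ g η + ∑ w ∈ W,
      ind (Rch (η ∩ R) o w) * (Gladkov.tau E p (a i) w * Gladkov.tau E p w y) := by
    intro η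
    calc Gladkov.tau E p (a i) y
        ≤ avg E p fun ξ => ind (Rch (ξ \ rev R o η) (a i) y) + ∑ w ∈ W,
            ind (Rch (η ∩ R) o w) *
              ind (box (fun θ => Rch θ (a i) w) (fun θ => Rch θ w y) ξ) := by
          refine avg_mono E h0 h1 fun ξ _ => ?_
          have hs0 : ∀ w, 0 ≤ ind (Rch (η ∩ R) o w) *
              ind (box (fun θ => Rch θ (a i) w) (fun θ => Rch θ w y) ξ) :=
            fun w => mul_nonneg (ind_nonneg _) (ind_nonneg _)
          by_cases hξ : Rch ξ (a i) y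
          · rw [show ind (Rch ξ (a i) y) = 1 from if_pos hξ]
            by_cases hn : Rch (ξ \ rev R o η) (a i) y
            · rw [show ind (Rch (ξ \ rev R o η) (a i) y) = 1 from if_pos hn]
              linarith [sum_nonneg fun w (_ : w ∈ W) => hs0 w]
            · obtain ⟨w, hwW, hw, hb⟩ := rch_lost hW hξ hn
              refine le_trans ?_ (le_add_of_nonneg_left (ind_nonneg _))
              refine le_trans (le_of_eq ?_) (single_le_sum (fun w _ => hs0 w) hwW)
              rw [show ind (Rch (η ∩ R) o w) = 1 from if_pos hw,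
                show ind (box (fun θ => Rch θ (a i) w) (fun θ => Rch θ w y) ξ) = 1 from if_pos hb,
                one_mul]
          · rw [show ind (Rch ξ (a i) y) = 0 from if_neg hξ]
            exact add_nonneg (ind_nonneg _) (sum_nonneg fun w _ => hs0 w)
      _ ≤ _ := by
          rw [avg_add, avg_sum]
          refine add_le_add le_rfl (sum_le_sum fun w _ => ?_)
          rw [avg_mul]
          exact mul_le_mul_of_nonneg_left (bk E h0 h1 _ _ (inc_rch _ _) (inc_rch _ _))
            (ind_nonneg _)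
  refine le_trans ?_ (avg_mono E h0 h1 fun η _ => inner η)
  have hpn : 0 ≤ p ^ (F i).card := pow_nonneg h0 _
  calc p ^ (F i).card * (Gladkov.tau R p o (z i) * Gladkov.tau E p (a i) y -
        ∑ w ∈ W, both R p o (z i) w * (Gladkov.tau E p (a i) w * Gladkov.tau E p w y))
      ≤ p ^ (F i).card * avg E p (fun η => ind (Rch (η ∩ R) o (z i)) * g η) := by
        refine mul_le_mul_of_nonneg_left ?_ hpn
        rw [sub_le_iff_le_add]
        have e1 : Gladkov.tau R p o (z i) * Gladkov.tau E p (a i) y =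
            avg E p fun η => Gladkov.tau E p (a i) y * ind (Rch (η ∩ R) o (z i)) := by
          rw [avg_mul, avg_inter hR p fun θ => ind (Rch θ o (z i))]
          exact mul_comm _ _
        have e2 : ∑ w ∈ W, both R p o (z i) w * (Gladkov.tau E p (a i) w * Gladkov.tau E p w y) =
            avg E p fun η => ∑ w ∈ W, (Gladkov.tau E p (a i) w * Gladkov.tau E p w y) *
              (ind (Rch (η ∩ R) o (z i)) * ind (Rch (η ∩ R) o w)) := by
          rw [avg_sum]
          refine sum_congr rfl fun w _ => ?_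
          rw [avg_mul, avg_inter hR p fun θ => ind (Rch θ o (z i)) * ind (Rch θ o w)]
          exact mul_comm _ _
        rw [e1, e2, ← avg_add]
        refine avg_mono E h0 h1 fun η _ => ?_
        refine (mul_comm _ _).trans_le ((mul_le_mul_of_nonneg_left (lost η) (ind_nonneg _)).trans_eq ?_)
        rw [mul_add, mul_sum]
        congr 1
        exact sum_congr rfl fun w _ => by ring
    _ = avg E p (fun η => ind (Rch (η ∩ R) o (z i)) * (p ^ (F i).card * g η)) := by
        rw [← avg_mul]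
        exact avg_congr E p fun η _ => by ring

/-- Two gates are crossed together with at most the product of the two three point events. -/
theorem crossed_pair_le {E R : Finset (Sym2 V)} (hR : R ⊆ E) {p : ℝ} (h0 : 0 ≤ p) (h1 : p ≤ 1)
    (o y : V) (z a : κ → V) (F : κ → Finset (Sym2 V)) (i j : κ) :
    avg E p (fun ω => ind (Crossed R o y z a F i ω) * ind (Crossed R o y z a F j ω)) ≤
      (avg R p fun θ => ind (Rch θ o (z i)) * ind (Rch θ o (z j))) *
        avg E p fun θ => ind (Rch θ (a i) y) * ind (Rch θ (a j) y) := by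
  rw [← avg_mix E R o p fun ω => ind (Crossed R o y z a F i ω) * ind (Crossed R o y z a F j ω),
    ← avg_inter hR p fun θ => ind (Rch θ o (z i)) * ind (Rch θ o (z j)), mul_comm, ← avg_mul]
  refine avg_mono E h0 h1 fun η _ => ?_
  show avg E p _ ≤ avg E p (fun θ => ind (Rch θ (a i) y) * ind (Rch θ (a j) y)) *
    (ind (Rch (η ∩ R) o (z i)) * ind (Rch (η ∩ R) o (z j)))
  rw [mul_comm, ← avg_mul]
  refine avg_mono E h0 h1 fun ξ _ => ?_
  have one : ∀ k, ind (Crossed R o y z a F k (mix R o η ξ)) ≤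
      ind (Rch (η ∩ R) o (z k)) * ind (Rch ξ (a k) y) := fun k => by
    by_cases h : Crossed R o y z a F k (mix R o η ξ)
    · obtain ⟨ha, -, hb⟩ := h
      rw [rch_mix] at ha
      rw [mix_sdiff] at hb
      rw [show ind (Rch (η ∩ R) o (z k)) = 1 from if_pos ha,
        show ind (Rch ξ (a k) y) = 1 from if_pos (rch_mono sdiff_subset hb), one_mul]
      exact ind_le_one _
    · rw [show ind (Crossed R o y z a F k (mix R o η ξ)) = 0 from if_neg h]
      exact mul_nonneg (ind_nonneg _) (ind_nonneg _)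
  refine (mul_le_mul (one i) (one j) (ind_nonneg _)
    (mul_nonneg (ind_nonneg _) (ind_nonneg _))).trans_eq ?_
  ring

/-- The second moment: some gate is crossed with chance at least `p ^ (2 k) / (32 B)` times the plain
mass, up to twice the loss through the cluster. -/
theorem explore_exists_le {E R : Finset (Sym2 V)} (hR : R ⊆ E) {p : ℝ} (h0 : 0 ≤ p) (h1 : p ≤ 1)
    (o y : V) (z a : κ → V) (F : κ → Finset (Sym2 V)) (Z : Finset κ) {k : ℕ} {B : ℝ} (hB : 0 ≤ B)
    {W : Finset V} (hW : ∀ e ∈ R, ∀ v ∈ e, v ∈ W) (hF : ∀ i ∈ Z, F i ⊆ E \ R)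
    (hk : ∀ i ∈ Z, (F i).card ≤ k)
    (hz : ∀ i ∈ Z, ∑ j ∈ Z, Gladkov.tau E p (z i) (z j) ≤ B)
    (ha : ∀ i ∈ Z, ∑ j ∈ Z, Gladkov.tau E p (a i) (a j) ≤ B) :
    p ^ (2 * k) * ∑ i ∈ Z, Gladkov.tau R p o (z i) * Gladkov.tau E p (a i) y ≤
      32 * B * avg E p (fun ω => ind (∃ i ∈ Z, Crossed R o y z a F i ω)) +
      2 * p ^ (2 * k) * ∑ i ∈ Z, ∑ w ∈ W,
        both R p o (z i) w * (Gladkov.tau E p (a i) w * Gladkov.tau E p w y) := by
  have tn := fun (A : Finset (Sym2 V)) (x u : V) => tau_nonneg A h0 h1 x u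
  set c : κ → ℝ := fun i => Gladkov.tau R p o (z i) * Gladkov.tau E p (a i) y
  set d : κ → ℝ := fun i => ∑ w ∈ W,
    both R p o (z i) w * (Gladkov.tau E p (a i) w * Gladkov.tau E p w y)
  show p ^ (2 * k) * ∑ i ∈ Z, c i ≤
    32 * B * avg E p (fun ω => ind (∃ i ∈ Z, Crossed R o y z a F i ω)) +
      2 * p ^ (2 * k) * ∑ i ∈ Z, d i
  have hc : ∀ i, 0 ≤ c i := fun i => mul_nonneg (tn _ _ _) (tn _ _ _)
  have hd : ∀ i, 0 ≤ d i := fun i => sum_nonneg fun w _ => mul_nonneg
    (avg_nonneg R h0 h1 fun _ _ => mul_nonneg (ind_nonneg _) (ind_nonneg _))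
    (mul_nonneg (tn _ _ _) (tn _ _ _))
  set A := ∑ i ∈ Z, c i
  set D := ∑ i ∈ Z, d i
  have hA : 0 ≤ A := sum_nonneg fun i _ => hc i
  have hD : 0 ≤ D := sum_nonneg fun i _ => hd i
  have hp : 0 ≤ p ^ k := pow_nonneg h0 k
  set Q := avg E p fun ω => ind (∃ i ∈ Z, Crossed R o y z a F i ω)
  have hτ : 0 ≤ Q := avg_nonneg E h0 h1 fun _ _ => ind_nonneg _
  by_cases hsmall : A ≤ 2 * D
  · have := mul_le_mul_of_nonneg_left hsmall (pow_nonneg h0 (2 * k))
    have : 0 ≤ 32 * B * Q := by positivity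
    linarith
  push Not at hsmall
  set N : Finset (Sym2 V) → ℝ := fun ω => ∑ i ∈ Z, ind (Crossed R o y z a F i ω)
  have mean : p ^ k * (A / 2) ≤ avg E p N := by
    calc p ^ k * (A / 2) ≤ p ^ k * (A - D) := mul_le_mul_of_nonneg_left (by linarith) hp
      _ = ∑ i ∈ Z, p ^ k * (c i - d i) := by rw [← mul_sum, sum_sub_distrib]
      _ ≤ ∑ i ∈ Z, avg E p fun ω => ind (Crossed R o y z a F i ω) := sum_le_sum fun i hi => by
          have h := crossed_ge hR h0 h1 o y z a F i hW (hF i hi)
          rcases le_or_gt 0 (c i - d i) with hpos | hneg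
          · exact (mul_le_mul_of_nonneg_right
              (pow_le_pow_of_le_one h0 h1 (hk i hi)) hpos).trans h
          · exact (mul_nonpos_of_nonneg_of_nonpos hp hneg.le).trans
              (avg_nonneg E h0 h1 fun _ _ => ind_nonneg _)
      _ = avg E p N := (avg_sum E p Z fun i ω => ind (Crossed R o y z a F i ω)).symm
  have second : avg E p (fun ω => N ω ^ 2) ≤ 8 * B * A := by
    have e : ∀ ω, N ω ^ 2 = ∑ i ∈ Z, ∑ j ∈ Z,
        ind (Crossed R o y z a F i ω) * ind (Crossed R o y z a F j ω) := fun ω => by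
      rw [sq, sum_mul_sum]
    simp only [e, avg_sum]
    calc ∑ i ∈ Z, ∑ j ∈ Z,
          avg E p (fun ω => ind (Crossed R o y z a F i ω) * ind (Crossed R o y z a F j ω))
        ≤ ∑ i ∈ Z, ∑ j ∈ Z, 2 * (c i + c j) *
            (Gladkov.tau E p (z i) (z j) + Gladkov.tau E p (a i) (a j)) := by
          refine sum_le_sum fun i _ => sum_le_sum fun j _ => ?_
          refine (crossed_pair_le hR h0 h1 o y z a F i j).trans
            ((pair_le hR subset_rfl h0 h1 o y (z i) (z j) (a i) (a j)).trans ?_)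
          have am : ∀ {s t : ℝ}, 0 ≤ s → 0 ≤ t → √(s * t) ≤ (s + t) / 2 := fun {s t} hs ht =>
            (Real.sqrt_le_left (by linarith)).2 (by nlinarith [sq_nonneg (s - t)])
          have := mul_le_mul (am (hc i) (hc j)) (am (tn E (z i) (z j)) (tn E (a i) (a j)))
            (Real.sqrt_nonneg _) (by linarith [hc i, hc j])
          linarith
      _ ≤ 8 * B * A := by
          simp only [mul_add, add_mul, sum_add_distrib]
          have hrow : ∀ w : κ → V, (∀ i ∈ Z, ∑ j ∈ Z, Gladkov.tau E p (w i) (w j) ≤ B) →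
              ∑ i ∈ Z, ∑ j ∈ Z, 2 * c i * Gladkov.tau E p (w i) (w j) ≤ 2 * B * A ∧
              ∑ i ∈ Z, ∑ j ∈ Z, 2 * c j * Gladkov.tau E p (w i) (w j) ≤ 2 * B * A := by
            intro w hw
            have h : ∑ i ∈ Z, ∑ j ∈ Z, 2 * c i * Gladkov.tau E p (w i) (w j) ≤ 2 * B * A := by
              rw [mul_sum]
              refine sum_le_sum fun i hi => ?_
              rw [← mul_sum]
              exact (mul_le_mul_of_nonneg_left (hw i hi) (by linarith [hc i])).trans_eq (by ring)
            refine ⟨h, le_trans (le_of_eq ?_) h⟩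
            rw [sum_comm]
            exact sum_congr rfl fun i _ => sum_congr rfl fun j _ => by rw [Gladkov.tau_comm]
          obtain ⟨u1, u2⟩ := hrow z hz
          obtain ⟨v1, v2⟩ := hrow a ha
          linarith
  have cs : avg E p N ^ 2 ≤ Q * (8 * B * A) :=
    (sq_avg_le h0 h1 N (fun ω => ∃ i ∈ Z, Crossed R o y z a F i ω) fun ω _ hn =>
      sum_eq_zero fun i hi => if_neg fun h => hn ⟨i, hi, h⟩).trans
        (mul_le_mul le_rfl second (avg_nonneg E h0 h1 fun _ _ => sq_nonneg _) hτ)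
  have h2 := (pow_le_pow_left₀ (mul_nonneg hp (by linarith)) mean 2).trans cs
  have hApos : 0 < A := by linarith
  rw [show (2 * k) = k * 2 by ring, pow_mul]
  have : (p ^ k) ^ 2 * A ≤ 32 * B * Q :=
    le_of_mul_le_mul_left (by linarith [show (p ^ k * (A / 2)) ^ 2 = (p ^ k) ^ 2 * A * A / 4 by ring])
      hApos
  nlinarith [mul_nonneg (sq_nonneg (p ^ k)) hD]

/-- Exclusivity off the explored cluster: gates with bridges of at most `k` edges outside `R` carry
at most `32 B / p ^ (2 k)` times the connection probability, plus twice the loss through the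
cluster. -/
theorem explore_le {E R : Finset (Sym2 V)} (hR : R ⊆ E) {p : ℝ} (h0 : 0 ≤ p) (h1 : p ≤ 1)
    (o y : V) (z a : κ → V) (F : κ → Finset (Sym2 V)) (Z : Finset κ) {k : ℕ} {B : ℝ} (hB : 0 ≤ B)
    {W : Finset V} (hW : ∀ e ∈ R, ∀ v ∈ e, v ∈ W) (hF : ∀ i ∈ Z, F i ⊆ E \ R)
    (hk : ∀ i ∈ Z, (F i).card ≤ k) (hjoin : ∀ i ∈ Z, Rch (F i) (z i) (a i))
    (hz : ∀ i ∈ Z, ∑ j ∈ Z, Gladkov.tau E p (z i) (z j) ≤ B)
    (ha : ∀ i ∈ Z, ∑ j ∈ Z, Gladkov.tau E p (a i) (a j) ≤ B) :
    p ^ (2 * k) * ∑ i ∈ Z, Gladkov.tau R p o (z i) * Gladkov.tau E p (a i) y ≤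
      32 * B * Gladkov.tau E p o y + 2 * p ^ (2 * k) * ∑ i ∈ Z, ∑ w ∈ W,
        both R p o (z i) w * (Gladkov.tau E p (a i) w * Gladkov.tau E p w y) := by
  refine (explore_exists_le hR h0 h1 o y z a F Z hB hW hF hk hz ha).trans
    (add_le_add (mul_le_mul_of_nonneg_left ?_ (by linarith)) le_rfl)
  exact avg_mono E h0 h1 fun ω _ => ind_mono fun ⟨i, hi, hr, hf, hc⟩ =>
    ((rch_mono inter_subset_left hr).trans
      (rch_mono (hf.trans sdiff_subset) (hjoin i hi))).trans (rch_mono sdiff_subset hc)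

omit [DecidableEq V] in
/-- The loss summed over the children is at most the susceptibility times the three point sums. -/
theorem sum_loss_le (E R : Finset (Sym2 V)) {p : ℝ} (h0 : 0 ≤ p) (h1 : p ≤ 1) (o : V) (W : Finset V)
    (z a : κ → V) (Z : Finset κ) (Y : Finset V) {X : ℝ}
    (hX : ∀ w ∈ W, ∑ y ∈ Y, Gladkov.tau E p w y ≤ X) :
    ∑ y ∈ Y, ∑ i ∈ Z, ∑ w ∈ W,
        both R p o (z i) w * (Gladkov.tau E p (a i) w * Gladkov.tau E p w y) ≤
      X * ∑ i ∈ Z, ∑ w ∈ W, both R p o (z i) w * Gladkov.tau E p (a i) w := by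
  rw [sum_comm, mul_sum]
  refine sum_le_sum fun i _ => ?_
  rw [sum_comm, mul_sum]
  refine sum_le_sum fun w hw => ?_
  calc ∑ y ∈ Y, both R p o (z i) w * (Gladkov.tau E p (a i) w * Gladkov.tau E p w y)
      = both R p o (z i) w * Gladkov.tau E p (a i) w * ∑ y ∈ Y, Gladkov.tau E p w y := by
        rw [mul_sum]
        exact sum_congr rfl fun y _ => by ring
    _ ≤ both R p o (z i) w * Gladkov.tau E p (a i) w * X :=
        mul_le_mul_of_nonneg_left (hX w hw) (mul_nonneg
          (avg_nonneg R h0 h1 fun _ _ => mul_nonneg (ind_nonneg _) (ind_nonneg _))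
          (tau_nonneg E h0 h1 _ _))
    _ = _ := by ring

end Vale.Agent.P165.EX
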