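import Vale.Agent.P165.EX.Geo
import Mathlib.NumberTheory.Zsqrtd.GaussianInt

/-!
# Zariski dense discrete examples in every degree

The points over an infinite subring with finite balls, and every subgroup of the integer points
that contains the elementary matrices, are Zariski dense with finitely many elements in each box.
-/

namespace Vale.Agent.P165.EX

open Matrix
open scoped Matrix.Norms.Elementwise MatrixGroups

variable {k : Type} [NontriviallyNormedField k] {n : ℕ} {Γ : Type} [Group Γ]

/-- Density in the special linear group, in the form used by the frames. -/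
theorem zariskiDense_range (ρ : Γ →* SL(n, k))
    (hd : ∀ f : MvPolynomial (Fin n × Fin n) k,
      (∀ g, MvPolynomial.eval (fun e => (ρ g : Matrix (Fin n) (Fin n) k) e.1 e.2) f = 0) →
        ∀ a : SL(n, k),
          MvPolynomial.eval (fun e => (a : Matrix (Fin n) (Fin n) k) e.1 e.2) f = 0) :
    SL.ZariskiDense (Set.range fun g => (ρ g : Matrix (Fin n) (Fin n) k)) := fun f hf a ha =>
  hd f (fun g => hf _ ⟨g, rfl⟩) ⟨a, ha⟩

/-- A group with a Zariski dense representation of degree at least two is infinite. -/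
theorem infinite_of_dense (hn : 2 ≤ n) (ρ : Γ →* SL(n, k))
    (hd : SL.ZariskiDense (Set.range fun g => (ρ g : Matrix (Fin n) (Fin n) k))) :
    Infinite Γ := by
  classical
  by_contra h
  rw [not_infinite_iff_finite] at h
  have := Fintype.ofFinite Γ
  have hij : (⟨0, by omega⟩ : Fin n) ≠ ⟨1, by omega⟩ := by simp [Fin.ext_iff]
  set i : Fin n := ⟨0, by omega⟩
  set j : Fin n := ⟨1, by omega⟩
  obtain ⟨t, ht⟩ :=
    (Finset.univ.image fun g : Γ => (ρ g : Matrix (Fin n) (Fin n) k) i j).exists_notMem
  have hdet : (transvection i j t).det = 1 := det_transvection_of_ne _ _ hij t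
  have hz := hd (∏ g : Γ, (MvPolynomial.X (i, j) -
      MvPolynomial.C ((ρ g : Matrix (Fin n) (Fin n) k) i j))) (by
    rintro _ ⟨g, rfl⟩
    rw [map_prod]
    exact Finset.prod_eq_zero (Finset.mem_univ g) (by simp)) _ hdet
  rw [map_prod] at hz
  obtain ⟨g, -, hg⟩ := Finset.prod_eq_zero_iff.1 hz
  refine ht (Finset.mem_image.2 ⟨g, Finset.mem_univ g, ?_⟩)
  simp [transvection, hij] at hg
  exact (sub_eq_zero.1 hg).symm

/-! ### Points over a subring -/

/-- The inclusion of the points over a ring. -/
def ringHom (n : ℕ) {R : Type} [CommRing R] (φ : R →+* k) : SL(n, R) →* SL(n, k) :=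
  SpecialLinearGroup.map φ

/-- The points over an infinite subring are Zariski dense. -/
theorem ringHom_dense (hn : 2 ≤ n) {R : Type} [CommRing R] [Infinite R] (φ : R →+* k)
    (hφ : Function.Injective φ) :
    SL.ZariskiDense (Set.range fun g => (ringHom n φ g : Matrix (Fin n) (Fin n) k)) := by
  have : Nontrivial (Fin n) := Fin.nontrivial_iff_two_le.2 hn
  intro f hf a ha
  exact SL.ringSL_zariskiDense φ hφ f
    (by rintro _ ⟨A, hA, rfl⟩; exact hf _ ⟨⟨A, hA⟩, rfl⟩) a ha

/-- The points over a subring with finite balls are discrete. -/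
theorem ringHom_discrete {R : Type} [CommRing R] (φ : R →+* k)
    (hfin : ∀ C : ℝ, {r : R | ‖φ r‖ ≤ C}.Finite) (C : ℝ) :
    {g : SL(n, R) | ∀ i j, ‖(ringHom n φ g : Matrix (Fin n) (Fin n) k) i j‖ ≤ C}.Finite := by
  classical
  have hbox : {A : Matrix (Fin n) (Fin n) R | ∀ a b, ‖φ (A a b)‖ ≤ C}.Finite := by
    refine (Fintype.piFinset fun _ : Fin n => Fintype.piFinset fun _ : Fin n =>
      (hfin C).toFinset).finite_toSet.subset fun A hA => ?_
    simp only [Finset.mem_coe, Fintype.mem_piFinset]
    exact fun a b => (hfin C).mem_toFinset.2 (hA a b)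
  exact (hbox.preimage Subtype.val_injective.injOn).subset fun g hg a b => hg a b

theorem int_balls (C : ℝ) : {r : ℤ | ‖(Int.castRingHom ℝ) r‖ ≤ C}.Finite :=
  (Set.finite_Icc (-⌈C⌉) ⌈C⌉).subset fun r (hr : ‖(r : ℝ)‖ ≤ C) => by
    have h : |(r : ℝ)| ≤ (⌈C⌉ : ℝ) := hr.trans (Int.le_ceil C)
    rw [← Int.cast_abs] at h
    exact abs_le.1 (by exact_mod_cast h)

/-! ### The elementary matrices -/

/-- The elementary matrix with one off-diagonal entry `t`. -/
def elem {i j : Fin n} (h : i ≠ j) (t : ℤ) : SL(n, ℤ) :=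
  ⟨transvection i j t, det_transvection_of_ne i j h t⟩

theorem elem_mem {H : Subgroup SL(n, ℤ)} {i j : Fin n} (h : i ≠ j) (h1 : elem h 1 ∈ H) (t : ℤ) :
    elem h t ∈ H := by
  have e : ∀ a b : ℤ, elem h a * elem h b = elem h (a + b) := fun a b =>
    Subtype.ext (transvection_mul_transvection_same i j h a b)
  have e0 : elem h 0 = 1 := Subtype.ext (transvection_zero i j)
  induction t using Int.induction_on with
  | zero => rw [e0]; exact one_mem _
  | succ m ih => rw [← e]; exact mul_mem ih h1
  | pred m ih =>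
    have h2 : elem h (-1) = (elem h 1)⁻¹ :=
      eq_inv_of_mul_eq_one_left (by rw [e, neg_add_cancel, e0])
    rw [sub_eq_add_neg, ← e, h2]
    exact mul_mem ih (inv_mem h1)

theorem ringHom_elem {i j : Fin n} (h : i ≠ j) (t : ℤ) :
    (ringHom n (Int.castRingHom ℝ) (elem h t) : Matrix (Fin n) (Fin n) ℝ) =
      transvection i j (t : ℝ) := by
  ext a b
  show ((Int.castRingHom ℝ) (transvection i j t a b)) = _
  by_cases h1 : a = b <;> by_cases h2 : i = a <;> by_cases h3 : j = b <;>
    simp [transvection, Matrix.single_apply, h1, h2, h3]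

/-- A subgroup of the integer points containing the elementary matrices is Zariski dense. -/
theorem subgroup_dense (hn : 2 ≤ n) (H : Subgroup SL(n, ℤ))
    (h : ∀ (i j : Fin n) (hij : i ≠ j), elem hij 1 ∈ H) :
    SL.ZariskiDense (Set.range fun g : H =>
      (((ringHom n (Int.castRingHom ℝ)).comp H.subtype) g : Matrix (Fin n) (Fin n) ℝ)) := by
  have : Nontrivial (Fin n) := Fin.nontrivial_iff_two_le.2 hn
  refine SL.zariskiDense_of_transvections (Int.castRingHom ℝ) Int.cast_injective _ ⟨1, by simp⟩ ?_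
  rintro g ⟨g, rfl⟩ p q hpq t
  refine ⟨⟨elem hpq t, elem_mem hpq (h p q hpq) t⟩ * g, ?_⟩
  simp [ringHom_elem]

/-- The boxes of a subgroup of the integer points are finite. -/
theorem subgroup_discrete (H : Subgroup SL(n, ℤ)) (R : ℝ) :
    {g : H | ∀ i j, ‖(((ringHom n (Int.castRingHom ℝ)).comp H.subtype) g :
      Matrix (Fin n) (Fin n) ℝ) i j‖ ≤ R}.Finite :=
  ((ringHom_discrete (Int.castRingHom ℝ) int_balls R).preimage
    (Subgroup.subtype_injective _).injOn).subset fun _ hg => hg

end Vale.Agent.P165.EX
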