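import Vale.Agent.P165.EX.Pivot
import Vale.Agent.P165.SL.Density

/-!
# Frames generic for a finite family in `SL(n, k)`

Finitely many conditions `r (∧ʲ g) u ≠ 0`, of any degrees, are met inside every Zariski dense set;
over a proper field a finite part of the set meets them uniformly.
-/

namespace Vale.Agent.P165.EX

open Matrix Finset

section Field

variable {k : Type} [Field k] {n : ℕ}

/-- Every minor of every order is a nonzero function on the special linear group. -/
theorem pairing_ne [Infinite k] {j : ℕ} (r u : Sub n j → k) (hr : r ≠ 0) (hu : u ≠ 0) :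
    ∃ g : Matrix (Fin n) (Fin n) k, g.det = 1 ∧ r ⬝ᵥ (cmp j g *ᵥ u) ≠ 0 := by
  classical
  obtain ⟨S, hS⟩ := Function.ne_iff.1 hr
  obtain ⟨T, hT⟩ := Function.ne_iff.1 hu
  set e : {a // a ∈ Set.range (emb T)} ≃ {a // a ∈ Set.range (emb S)} :=
    (Equiv.ofInjective _ (emb T).injective).symm.trans (Equiv.ofInjective _ (emb S).injective)
  obtain ⟨σ, hσ⟩ : ∃ σ : Equiv.Perm (Fin n), ∀ l, σ (emb T l) = emb S l := by
    refine ⟨e.extendSubtype, fun l => ?_⟩
    rw [Equiv.extendSubtype_apply_of_mem _ _ (Set.mem_range_self l)]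
    simp [e, Equiv.ofInjective_apply, Equiv.ofInjective_symm_apply]
  set P : Matrix (Fin n) (Fin n) k := Matrix.of fun a b => if σ b = a then 1 else 0 with hP
  have hdetP : P.det ≠ 0 := by
    have e : P = ((1 : Matrix (Fin n) (Fin n) k).submatrix id σ.symm)ᵀ.submatrix id id := by
      ext a b
      simp only [hP, submatrix_apply, transpose_apply, Matrix.of_apply, id, Matrix.one_apply]
      exact if_congr (Equiv.eq_symm_apply σ).symm rfl rfl
    rw [e, submatrix_id_id, det_transpose, det_permute', det_one, mul_one]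
    rcases Int.units_eq_one_or (Equiv.Perm.sign σ.symm) with h | h <;> simp [h]
  set ε : Fin n → k := fun i => if i.1 = 0 then P.det⁻¹ else 1 with hε
  have hεne : ∀ i, ε i ≠ 0 := fun i => by
    rw [hε]; dsimp only; split_ifs
    · exact inv_ne_zero hdetP
    · exact one_ne_zero
  set S0 : ℕ := ∑ i : Fin n, 2 ^ i.1 with hS0
  set c : Sub n j → k := fun t => (r ᵥ* cmp j P) t * u t * ∏ i, ε (emb t i) with hc
  set w : Sub n j → ℕ := fun t => n * ∑ i ∈ (t : Finset (Fin n)), 2 ^ i.1 with hw
  have hwinj : Function.Injective w := by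
    intro s t h
    rcases Nat.eq_zero_or_pos n with hn | hn
    · subst hn; exact Subtype.ext (Finset.ext fun i => i.elim0)
    have h' := Nat.eq_of_mul_eq_mul_left hn h
    have h2 : ∀ t : Finset (Fin n), ∑ i ∈ t, 2 ^ i.1 = ∑ i ∈ t.map Fin.valEmbedding, 2 ^ i :=
      fun t => by rw [sum_map]; rfl
    rw [h2, h2] at h'
    exact Subtype.ext (Finset.map_injective _ (Finset.geomSum_injective le_rfl h'))
  have hcT : c T ≠ 0 := by
    have h1 : (r ᵥ* cmp j P) T = r S := by
      rw [vecMul, dotProduct, Finset.sum_eq_single S]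
      · rw [cmp, Matrix.of_apply]
        have : P.submatrix (emb S) (emb T) = 1 := by
          ext a b
          simp [hP, hσ, Matrix.one_apply, eq_comm]
        rw [this, det_one, mul_one]
      · intro s _ hs
        obtain ⟨i, hiS, his⟩ := (Set.powersetCard.exists_mem_notMem_iff_ne S s).mp hs.symm
        obtain ⟨b, rfl⟩ := (mem_iff S i).1 hiS
        rw [cmp, Matrix.of_apply, det_eq_zero_of_column_eq_zero b, mul_zero]
        intro a
        rw [submatrix_apply, hP, Matrix.of_apply, hσ, if_neg]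
        exact fun he => his ((mem_iff s _).2 ⟨a, he.symm⟩)
      · simp
    rw [hc]
    exact mul_ne_zero (mul_ne_zero (by rw [h1]; exact hS) hT) (prod_ne_zero_iff.2 fun i _ => hεne _)
  set Q : Polynomial k := ∑ t, Polynomial.C (c t) * Polynomial.X ^ w t with hQ
  have hQ0 : Q ≠ 0 := by
    intro h0
    have h1 : Q.coeff (w T) = c T := by
      simp [hQ, Polynomial.coeff_C_mul, Polynomial.coeff_X_pow,
        hwinj.eq_iff]
    rw [h0, Polynomial.coeff_zero] at h1
    exact hcT h1.symm
  obtain ⟨t, ht⟩ : ∃ t : k, (Q * Polynomial.X).eval t ≠ 0 := by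
    by_contra! h
    exact mul_ne_zero hQ0 Polynomial.X_ne_zero (Polynomial.eq_zero_of_infinite_isRoot _
      (Set.infinite_univ.mono fun x _ => h x))
  rw [Polynomial.eval_mul, Polynomial.eval_X] at ht
  obtain ⟨hQt, ht0⟩ := mul_ne_zero_iff.1 ht
  set d : Fin n → k := fun i => ε i * (t ^ (n * 2 ^ i.1) / t ^ S0) with hd
  refine ⟨P * diagonal d, ?_, ?_⟩
  · rw [det_mul, det_diagonal, hd, prod_mul_distrib, prod_div_distrib, prod_pow_eq_pow_sum,
      ← mul_sum, ← hS0, prod_const, card_univ, Fintype.card_fin, ← pow_mul, mul_comm n,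
      div_self (pow_ne_zero _ ht0), mul_one]
    rcases Nat.eq_zero_or_pos n with hn | hn
    · subst hn; simp
    rw [hε, Fintype.prod_eq_single ⟨0, hn⟩ fun i hi => if_neg fun h => hi (Fin.ext h)]
    simp [hdetP]
  · rw [cmp_mul, cmp_diagonal, ← mulVec_mulVec, dotProduct_mulVec]
    have h : (r ᵥ* cmp j P) ⬝ᵥ (diagonal (fun s => ∏ i, d (emb s i)) *ᵥ u) =
        Q.eval t / t ^ (S0 * j) := by
      rw [dotProduct, hQ, Polynomial.eval_finsetSum, sum_div]
      refine sum_congr rfl fun s _ => ?_
      rw [mulVec_diagonal, hd, prod_mul_distrib, prod_div_distrib, prod_pow_eq_pow_sum,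
        prod_const, card_univ, Fintype.card_fin, ← pow_mul, Polynomial.eval_mul, Polynomial.eval_C,
        Polynomial.eval_pow, Polynomial.eval_X, hc, hw]
      simp only [← mul_sum]
      have he : ∑ i, 2 ^ (emb s i).1 = ∑ i ∈ (s : Finset (Fin n)), 2 ^ i.1 := by
        have hm : (s : Finset (Fin n)) = univ.map (emb s).toEmbedding := by
          ext i; rw [mem_iff]; simp
        rw [hm, sum_map]; rfl
      rw [he]
      ring
    rw [h]
    exact div_ne_zero hQt (pow_ne_zero _ ht0)

/-- The special linear group is irreducible. -/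
theorem exists_common [Infinite k] {κ : Type} (s : Finset κ)
    (f : κ → MvPolynomial (Fin n × Fin n) k)
    (hf : ∀ i ∈ s, ∃ g : Matrix (Fin n) (Fin n) k, g.det = 1 ∧
      MvPolynomial.eval (fun e => g e.1 e.2) (f i) ≠ 0) :
    ∃ g : Matrix (Fin n) (Fin n) k, g.det = 1 ∧
      ∀ i ∈ s, MvPolynomial.eval (fun e => g e.1 e.2) (f i) ≠ 0 := by
  classical
  induction s using Finset.induction_on with
  | empty => exact ⟨1, det_one, by simp⟩
  | insert a s ha ih =>
    obtain ⟨g, hg, hgood⟩ := ih fun i hi => hf i (mem_insert_of_mem hi)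
    obtain ⟨g', hg', hga⟩ := hf a (mem_insert_self a s)
    obtain ⟨L, hL⟩ : ∃ L : List (TransvectionStruct (Fin n) k),
        g' = (L.map TransvectionStruct.toMatrix).prod * g := by
      rcases subsingleton_or_nontrivial (Fin n) with h | h
      · refine ⟨[], ?_⟩
        ext u v
        rcases Nat.eq_zero_or_pos n with hn | hn
        · subst hn; exact u.elim0
        have : Unique (Fin n) := uniqueOfSubsingleton u
        rw [det_unique] at hg hg'
        simp [Subsingleton.elim u default, Subsingleton.elim v default, hg, hg']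
      · obtain ⟨L, hL⟩ := SL.exists_list_transvec_prod (g := g' * adjugate g)
          (by rw [det_mul, det_adjugate, hg, hg', one_pow, one_mul])
        refine ⟨L, ?_⟩
        rw [← hL, Matrix.mul_assoc, adjugate_mul, hg, one_smul, Matrix.mul_one]
    set Gp : Matrix (Fin n) (Fin n) (Polynomial k) :=
      (L.map fun x => transvection x.i x.j (Polynomial.X * Polynomial.C x.c)).prod *
        g.map Polynomial.C with hGp
    set G : k → Matrix (Fin n) (Fin n) k := fun t =>
      (L.map fun x => transvection x.i x.j (t * x.c)).prod * g with hG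
    have hGe : ∀ t, Gp.map (Polynomial.evalRingHom t) = G t := by
      intro t
      rw [hGp, hG, Matrix.map_mul]
      congr 1
      · rw [← RingHom.mapMatrix_apply, map_list_prod, List.map_map]
        refine congrArg List.prod (List.map_congr_left fun x _ => ?_)
        rw [Function.comp_apply, transvection, transvection, map_add, map_one]
        congr 1
        ext u v
        rw [RingHom.mapMatrix_apply, Matrix.map_apply, Matrix.single_apply, Matrix.single_apply]
        split_ifs
        · rw [map_mul, Polynomial.coe_evalRingHom, Polynomial.eval_X, Polynomial.eval_C]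
        · exact map_zero _
      · ext u v; simp
    set p : κ → Polynomial k := fun i => MvPolynomial.aeval (fun e => Gp e.1 e.2) (f i) with hp
    have hpe : ∀ i t, (p i).eval t = MvPolynomial.eval (fun e => G t e.1 e.2) (f i) := by
      intro i t
      rw [← hGe t, show (p i).eval t = Polynomial.aeval t (p i) by simp, hp,
        ← AlgHom.comp_apply, MvPolynomial.comp_aeval, ← MvPolynomial.aeval_eq_eval]
      congr 2
    have hdet : ∀ t, (G t).det = 1 := by
      intro t
      rw [hG, det_mul, hg, mul_one]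
      clear * - L
      induction L with
      | nil => simp
      | cons x L ih => rw [List.map_cons, List.prod_cons, det_mul, det_transvection_of_ne _ _ x.hij,
          ih, one_mul]
    have h0 : G 0 = g := by
      rw [hG]; dsimp only
      clear * - L
      induction L with
      | nil => simp
      | cons x L ih =>
        simp only [List.map_cons, List.prod_cons, zero_mul, transvection_zero, one_mul] at ih ⊢
        exact ih
    have h1 : G 1 = g' := by
      rw [hG, hL]; dsimp only
      congr 2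
      exact List.map_congr_left fun x _ => by rw [one_mul]; rfl
    have hne : ∀ i ∈ insert a s, p i ≠ 0 := by
      intro i hi h
      rcases mem_insert.1 hi with rfl | hi
      · exact hga (by rw [← h1, ← hpe, h, Polynomial.eval_zero])
      · exact hgood i hi (by rw [← h0, ← hpe, h, Polynomial.eval_zero])
    obtain ⟨t, ht⟩ : ∃ t : k, (∏ i ∈ insert a s, p i).eval t ≠ 0 := by
      by_contra! h
      exact prod_ne_zero_iff.2 hne (Polynomial.eq_zero_of_infinite_isRoot _
        (Set.infinite_univ.mono fun x _ => h x))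
    rw [Polynomial.eval_prod] at ht
    exact ⟨G t, hdet t, fun i hi => by rw [← hpe]; exact prod_ne_zero_iff.1 ht i hi⟩

/-- A Zariski dense set meets finitely many conditions of any degrees. -/
theorem dense_generic [Infinite k] {S : Set (Matrix (Fin n) (Fin n) k)} (hS : SL.ZariskiDense S)
    {κ : Type} [Fintype κ] (deg : κ → ℕ) (r u : ∀ i, Sub n (deg i) → k) (hr : ∀ i, r i ≠ 0)
    (hu : ∀ i, u i ≠ 0) : ∃ g ∈ S, ∀ i, r i ⬝ᵥ (cmp (deg i) g *ᵥ u i) ≠ 0 := by
  classical
  set P : Matrix (Fin n) (Fin n) (MvPolynomial (Fin n × Fin n) k) :=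
    Matrix.of fun a b => MvPolynomial.X (a, b) with hP
  set f : κ → MvPolynomial (Fin n × Fin n) k := fun i =>
    ∑ a, ∑ b, MvPolynomial.C (r i a * u i b) * (P.submatrix (emb a) (emb b)).det with hf
  have hev : ∀ i (g : Matrix (Fin n) (Fin n) k),
      MvPolynomial.eval (fun e => g e.1 e.2) (f i) = r i ⬝ᵥ (cmp (deg i) g *ᵥ u i) := by
    intro i g
    simp only [hf, map_sum, map_mul, MvPolynomial.eval_C, RingHom.map_det, dotProduct, mulVec,
      mul_sum]
    refine sum_congr rfl fun a _ => sum_congr rfl fun b _ => ?_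
    rw [show ((MvPolynomial.eval fun e => g e.1 e.2).mapMatrix (P.submatrix (emb a) (emb b))) =
      g.submatrix (emb a) (emb b) by ext x y; simp [hP], cmp, Matrix.of_apply]
    ring
  by_contra hno
  push Not at hno
  obtain ⟨g, hg, hgood⟩ := exists_common univ f fun i _ => by
    obtain ⟨g, hg, hne⟩ := pairing_ne (r i) (u i) (hr i) (hu i)
    exact ⟨g, hg, by rw [hev]; exact hne⟩
  have hz := hS (∏ i, f i) (fun x hx => by
    obtain ⟨i, hi⟩ := hno x hx
    rw [map_prod]
    exact prod_eq_zero (mem_univ i) (by rw [hev]; exact hi)) g hg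
  rw [map_prod] at hz
  exact prod_ne_zero_iff.2 hgood hz

end Field

section Frames

open scoped Matrix.Norms.Elementwise

variable {k : Type} [NontriviallyNormedField k] [ProperSpace k]

/-- A family of matrices meeting every list of conditions has a finite part meeting all of them
with a uniform constant. -/
theorem uniform_frames {Γ κ : Type} [Fintype κ] {ν : κ → Type} [∀ i, Fintype (ν i)]
    [∀ i, Nonempty (ν i)] (φ : ∀ i, Γ → Matrix (ν i) (ν i) k)
    (hS : ∀ r u : ∀ i, ν i → k, (∀ i, r i ≠ 0) → (∀ i, u i ≠ 0) →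
      ∃ g, ∀ i, r i ⬝ᵥ (φ i g *ᵥ u i) ≠ 0) :
    ∃ (F : Finset Γ) (c : ℝ), 0 < c ∧
      ∀ r u : ∀ i, ν i → k, ∃ g ∈ F, ∀ i, c * (‖r i‖ * ‖u i‖) ≤ ‖r i ⬝ᵥ (φ i g *ᵥ u i)‖ := by
  classical
  let K : Set ((∀ i, ν i → k) × (∀ i, ν i → k)) :=
    (Set.univ.pi fun _ => Metric.sphere 0 1) ×ˢ (Set.univ.pi fun _ => Metric.sphere 0 1)
  have hK : IsCompact K :=
    (isCompact_univ_pi fun _ => isCompact_sphere 0 1).prod
      (isCompact_univ_pi fun _ => isCompact_sphere 0 1)
  let f : Γ → (∀ i, ν i → k) × (∀ i, ν i → k) → κ → ℝ :=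
    fun g x i => ‖x.1 i ⬝ᵥ (φ i g *ᵥ x.2 i)‖
  have hfc : ∀ g i, Continuous fun x => f g x i := fun g i => by
    simp only [f, dotProduct, mulVec]
    fun_prop
  let U : Γ × ℕ → Set ((∀ i, ν i → k) × (∀ i, ν i → k)) :=
    fun gn => {x | ∀ i, 1 / ((gn.2 : ℝ) + 1) < f gn.1 x i}
  have hUo : ∀ gn, IsOpen (U gn) := fun gn => by
    simp only [U, Set.ofPred_forall]
    exact isOpen_iInter_of_finite fun i => isOpen_lt continuous_const (hfc _ i)
  have hcov : K ⊆ ⋃ gn, U gn := by
    rintro ⟨r, u⟩ ⟨hr, hu⟩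
    simp only [Set.mem_univ_pi, mem_sphere_zero_iff_norm] at hr hu
    obtain ⟨g, hne⟩ := hS r u (fun i h => by simpa [h] using hr i)
      (fun i h => by simpa [h] using hu i)
    choose m hm using fun i => exists_nat_one_div_lt (norm_pos_iff.2 (hne i))
    refine Set.mem_iUnion.2 ⟨(g, univ.sup m), fun i => lt_of_le_of_lt ?_ (hm i)⟩
    gcongr
    exact Finset.le_sup (f := m) (mem_univ i)
  obtain ⟨T, hT⟩ := hK.elim_finite_subcover U hUo hcov
  refine ⟨T.image Prod.fst, 1 / (((T.image Prod.snd).sup id : ℕ) + 1), by positivity,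
    fun r u => ?_⟩
  have hun' : ∀ i, ∀ v : ν i → k, ∃ (a : k) (u : ν i → k), ‖u‖ = 1 ∧ v = a • u := by
    intro i v
    by_cases h : v = 0
    · exact ⟨0, fun _ => 1, by simp, by simp [h]⟩
    obtain ⟨l, hl⟩ := Finite.exists_max fun l => ‖v l‖
    have hl' : ‖v‖ = ‖v l‖ :=
      le_antisymm ((pi_norm_le_iff_of_nonneg (norm_nonneg _)).2 hl) (norm_le_pi_norm v l)
    have hvl : v l ≠ 0 := fun h0 => h (norm_eq_zero.1 (by rw [hl', h0, norm_zero]))
    exact ⟨v l, (v l)⁻¹ • v,
      by rw [norm_smul, norm_inv, hl', inv_mul_cancel₀ (norm_ne_zero_iff.2 hvl)],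
      by rw [smul_smul, mul_inv_cancel₀ hvl, one_smul]⟩
  choose sc un hun using hun'
  have hx : ((fun i => un i (r i)), fun i => un i (u i)) ∈ K := by simp [K, (hun _ _).1]
  obtain ⟨gn, hgn, hbd⟩ := Set.mem_iUnion₂.1 (hT hx)
  refine ⟨gn.1, mem_image_of_mem _ hgn, fun i => ?_⟩
  have hle : 1 / ((((T.image Prod.snd).sup id : ℕ) : ℝ) + 1) ≤ 1 / ((gn.2 : ℝ) + 1) := by
    gcongr
    exact Finset.le_sup (f := id) (mem_image_of_mem Prod.snd hgn)
  calc 1 / ((((T.image Prod.snd).sup id : ℕ) : ℝ) + 1) * (‖r i‖ * ‖u i‖)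
      ≤ f gn.1 ((fun i => un i (r i)), fun i => un i (u i)) i * (‖r i‖ * ‖u i‖) :=
        mul_le_mul_of_nonneg_right (hle.trans (hbd i).le) (by positivity)
    _ = ‖r i ⬝ᵥ (φ i gn.1 *ᵥ u i)‖ := by
        conv_lhs => rw [(hun i (r i)).2, (hun i (u i)).2]
        conv_rhs => rw [(hun i (r i)).2, (hun i (u i)).2]
        simp only [f, mulVec_smul, smul_dotProduct, dotProduct_smul, smul_eq_mul, norm_mul,
          norm_smul, (hun i _).1]
        ring

end Frames

end Vale.Agent.P165.EX
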