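import Vale.Agent.P165.FF.Sub
import Vale.Agent.P165.TL.Main

/-!
# Left translations of sets

The connection probability of the anchor is supermultiplicative, so the mass of a family of
translates of sets is bounded by the mass of the set containing them, times the multiplicity.
-/

namespace Vale.Agent.P165.EX

open Finset FF

variable {Γ O ι : Type} [Group Γ] [DecidableEq Γ] [DecidableEq O] [Fintype ι]
  {G : SimpleGraph (Γ × O)} {nb : Γ × O → ι → Γ × O}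

/-- The connection probability of the anchor with its translate. -/
noncomputable def anc (nb : Γ × O → ι → Γ × O) (o₁ : O) (p : ℝ) (g : Γ) : ℝ :=
  T nb p ((1 : Γ), o₁) (g, o₁)

theorem anc_nonneg (o₁ : O) {p : ℝ} (h0 : 0 ≤ p) (h1 : p ≤ 1) (g : Γ) : 0 ≤ anc nb o₁ p g :=
  T_nonneg h0 h1 _ _

/-- Translating by a connected element costs only its connection probability. -/
theorem anc_mul_le (hl : Labelling G nb) (hinv : Inv G) (o₁ : O) {p : ℝ} (h0 : 0 ≤ p)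
    (h1 : p ≤ 1) (s y : Γ) : anc nb o₁ p s * anc nb o₁ p y ≤ anc nb o₁ p (s * y) := by
  have e : T nb p (s, o₁) (s * y, o₁) = anc nb o₁ p y := by
    rw [anc, ← T_tr hl hinv s h0 h1 ((1 : Γ), o₁) (y, o₁)]
    simp [tr]
  rw [← e]
  exact T_trans hl h0 h1 _ _ _

/-- Weighted translates `s * Y s` inside `B` that cover each point with weight at most `m`. -/
theorem translate_le (hl : Labelling G nb) (hinv : Inv G) (o₁ : O) {p : ℝ} (h0 : 0 ≤ p)
    (h1 : p ≤ 1) (Z B : Finset Γ) (Y : Γ → Finset Γ) (w : Γ → ℝ) (hw : ∀ s ∈ Z, 0 ≤ w s) {m : ℝ}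
    (hsub : ∀ s ∈ Z, ∀ y ∈ Y s, s * y ∈ B)
    (hmult : ∀ b ∈ B, ∑ s ∈ Z.filter (fun s => s⁻¹ * b ∈ Y s), w s ≤ m) :
    ∑ s ∈ Z, w s * anc nb o₁ p s * ∑ y ∈ Y s, anc nb o₁ p y ≤ m * ∑ b ∈ B, anc nb o₁ p b := by
  calc ∑ s ∈ Z, w s * anc nb o₁ p s * ∑ y ∈ Y s, anc nb o₁ p y
      ≤ ∑ s ∈ Z, ∑ y ∈ Y s, w s * anc nb o₁ p (s * y) := sum_le_sum fun s hs => by
        rw [mul_sum]
        refine sum_le_sum fun y _ => ?_
        rw [mul_assoc]
        exact mul_le_mul_of_nonneg_left (anc_mul_le hl hinv o₁ h0 h1 s y) (hw s hs)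
    _ = ∑ s ∈ Z, ∑ b ∈ B.filter (fun b => s⁻¹ * b ∈ Y s), w s * anc nb o₁ p b :=
        sum_congr rfl fun s hs => by
          refine sum_bij (fun y _ => s * y) (fun y hy => ?_) (fun a _ b _ h => mul_left_cancel h)
            (fun b hb => ?_) fun y _ => rfl
          · exact mem_filter.2 ⟨hsub s hs y hy, by simpa using hy⟩
          · exact ⟨s⁻¹ * b, (mem_filter.1 hb).2, mul_inv_cancel_left s b⟩
    _ = ∑ b ∈ B, (∑ s ∈ Z.filter (fun s => s⁻¹ * b ∈ Y s), w s) * anc nb o₁ p b := by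
        simp only [sum_filter, sum_mul, ite_mul, zero_mul]
        exact sum_comm
    _ ≤ _ := by
        rw [mul_sum]
        exact sum_le_sum fun b hb =>
          mul_le_mul_of_nonneg_right (hmult b hb) (anc_nonneg o₁ h0 h1 b)

/-- Translates of one set with multiplicity at most `m`. -/
theorem translate_card_le (hl : Labelling G nb) (hinv : Inv G) (o₁ : O) {p : ℝ} (h0 : 0 ≤ p)
    (h1 : p ≤ 1) (Z B Y : Finset Γ) {m : ℝ} (hsub : ∀ s ∈ Z, ∀ y ∈ Y, s * y ∈ B)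
    (hmult : ∀ b ∈ B, ((Z.filter fun s => s⁻¹ * b ∈ Y).card : ℝ) ≤ m) :
    (∑ s ∈ Z, anc nb o₁ p s) * ∑ y ∈ Y, anc nb o₁ p y ≤ m * ∑ b ∈ B, anc nb o₁ p b := by
  have h := translate_le hl hinv o₁ h0 h1 Z B (fun _ => Y) (fun _ => 1)
    (fun _ _ => zero_le_one) hsub fun b hb => by simpa using hmult b hb
  simpa [sum_mul] using h

/-- Translates sent to disjoint sets: multiplicity is the mass of one class. -/
theorem translate_classes_le (hl : Labelling G nb) (hinv : Inv G) (o₁ : O) {p : ℝ} (h0 : 0 ≤ p)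
    (h1 : p ≤ 1) {κ : Type} [DecidableEq κ] (cls : Γ → κ) (Z B : Finset Γ) (Y : Γ → Finset Γ)
    (w : Γ → ℝ) (hw : ∀ s ∈ Z, 0 ≤ w s) {m : ℝ} (hm : 0 ≤ m)
    (hsub : ∀ s ∈ Z, ∀ y ∈ Y s, s * y ∈ B)
    (hsep : ∀ s ∈ Z, ∀ t ∈ Z, ∀ y ∈ Y s, ∀ u ∈ Y t, s * y = t * u → cls s = cls t)
    (hclass : ∀ a, ∑ s ∈ Z.filter (fun s => cls s = a), w s ≤ m) :
    ∑ s ∈ Z, w s * anc nb o₁ p s * ∑ y ∈ Y s, anc nb o₁ p y ≤ m * ∑ b ∈ B, anc nb o₁ p b := by
  refine translate_le hl hinv o₁ h0 h1 Z B Y w hw hsub fun b _ => ?_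
  rcases (Z.filter fun s => s⁻¹ * b ∈ Y s).eq_empty_or_nonempty with he | ⟨t, ht⟩
  · rw [he, sum_empty]; exact hm
  obtain ⟨htZ, htY⟩ := mem_filter.1 ht
  refine le_trans (sum_le_sum_of_subset_of_nonneg (fun s hs => ?_)
    fun s hs _ => hw s (mem_filter.1 hs).1) (hclass (cls t))
  obtain ⟨hsZ, hsY⟩ := mem_filter.1 hs
  exact mem_filter.2 ⟨hsZ, hsep s hsZ t htZ _ hsY _ htY (by group)⟩

end Vale.Agent.P165.EX
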