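import Vale.Agent.P165.EX.Pack
import Vale.Agent.P165.EX.Generic
import Vale.Agent.P165.EX.Translate

/-!
# Discrete Zariski dense images in `SL(n, k)`: frames, packing and the level bound

Sizes are the logarithms of the largest minors of each order. Given finitely many test matrices of
each order, a finite set of frames makes sizes and test values add along `z σ h`. Given the product
and the sizes of the first factor there are boundedly many first factors, and so, by the inequality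
for increasing events, every level set of a vector of test values carries bounded connection mass.
For test matrices one this is the shell bound; for the rows of a flag it is the bound on the
horospherical levels.
-/

namespace Vale.Agent.P165.EX

open Finset Matrix FF
open scoped Matrix.Norms.Elementwise MatrixGroups

variable {k : Type} [NontriviallyNormedField k] {n : ℕ} {Γ : Type} [Group Γ]

/-- The minors of order `j` of an element. -/
def cm (ρ : Γ →* SL(n, k)) (j : ℕ) (g : Γ) : Matrix (Sub n j) (Sub n j) k :=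
  cmp j (ρ g : Matrix (Fin n) (Fin n) k)

/-- The logarithmic size of order `j`. -/
noncomputable def size (ρ : Γ →* SL(n, k)) (j : ℕ) (g : Γ) : ℝ := Real.log ‖cm ρ j g‖

/-- The logarithmic value of a test matrix. -/
noncomputable def lev (ρ : Γ →* SL(n, k)) {j : ℕ} (Q : Matrix (Sub n j) (Sub n j) k) (g : Γ) :
    ℝ :=
  Real.log ‖Q * cm ρ j g‖

/-- Elements at which all sizes of a product along a frame add up. -/
def Cand (ρ : Γ →* SL(n, k)) (F : Finset Γ) (A : ℝ) (y z : Γ) : Prop :=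
  ∃ h : Γ, (∃ σ ∈ F, z * σ * h = y) ∧
    ∀ j : Fin (n + 1), |size ρ j y - size ρ j z - size ρ j h| ≤ A

variable (ρ : Γ →* SL(n, k))

theorem coe_mul (g h : Γ) : (ρ (g * h) : Matrix (Fin n) (Fin n) k) =
    (ρ g : Matrix (Fin n) (Fin n) k) * (ρ h : Matrix (Fin n) (Fin n) k) := by
  rw [map_mul]
  rfl

theorem coe_one : (ρ 1 : Matrix (Fin n) (Fin n) k) = 1 := by
  rw [map_one]
  rfl

theorem cm_mul (j : ℕ) (g h : Γ) : cm ρ j (g * h) = cm ρ j g * cm ρ j h := by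
  rw [cm, cm, cm, coe_mul, cmp_mul]

theorem cm_one (j : ℕ) : cm ρ j 1 = 1 := by
  rw [cm, coe_one, cmp_one]

theorem test_ne {j : ℕ} {Q : Matrix (Sub n j) (Sub n j) k} (hQ : Q ≠ 0) (g : Γ) :
    Q * cm ρ j g ≠ 0 := by
  intro h
  apply hQ
  have := congrArg (· * cm ρ j g⁻¹) h
  simpa [mul_assoc, ← cm_mul, cm_one] using this

theorem sub_nonempty {j : ℕ} (hj : j ≤ n) : Nonempty (Sub n j) := by
  obtain ⟨s, -⟩ := exists_sub (Fin.castLE hj) (Fin.castLE_injective hj)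
  exact ⟨s⟩

theorem norm_cm_pos {j : ℕ} (hj : j ≤ n) (g : Γ) : 0 < ‖cm ρ j g‖ := by
  have : Nonempty (Sub n j) := sub_nonempty hj
  have h := test_ne ρ (one_ne_zero (α := Matrix (Sub n j) (Sub n j) k)) g
  rw [one_mul] at h
  exact norm_pos_iff.2 h

theorem exp_size {j : ℕ} (hj : j ≤ n) (g : Γ) : Real.exp (size ρ j g) = ‖cm ρ j g‖ :=
  Real.exp_log (norm_cm_pos ρ hj g)

/-- Frames for `q` test matrices of every order from Zariski density. -/
theorem exists_frames_sl [ProperSpace k]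
    (hdense : SL.ZariskiDense (Set.range fun g => (ρ g : Matrix (Fin n) (Fin n) k))) (q : ℕ) :
    ∃ (F : Finset Γ) (c : ℝ), 0 < c ∧
      ∀ (Q : ∀ j : Fin (n + 1), Fin q → Matrix (Sub n j) (Sub n j) k) (z h : Γ), ∃ σ ∈ F, ∀ (j : Fin (n + 1)) (i : Fin q),
        c * (‖Q j i * cm ρ j z‖ * ‖cm ρ j h‖) ≤ ‖Q j i * cm ρ j (z * σ * h)‖ := by
  have hne : ∀ i : Fin (n + 1) × Fin q, Nonempty (Sub n i.1) := fun i =>
    sub_nonempty (Nat.le_of_lt_succ i.1.2)
  obtain ⟨F, c, hc, hF⟩ := uniform_frames (k := k) (Γ := Γ)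
    (ν := fun i : Fin (n + 1) × Fin q => Sub n i.1) (fun i g => cm ρ i.1 g) (fun r u hr hu => by
      obtain ⟨_, ⟨g, rfl⟩, hg⟩ := dense_generic hdense
        (fun i : Fin (n + 1) × Fin q => (i.1 : ℕ)) r u hr hu
      exact ⟨g, hg⟩)
  refine ⟨F, c, hc, fun Q z h => ?_⟩
  choose e₁ hab using fun i : Fin (n + 1) × Fin q =>
    Finite.exists_max fun e : Sub n i.1 × Sub n i.1 => ‖(Q i.1 i.2 * cm ρ i.1 z) e.1 e.2‖
  choose e₂ hab' using fun i : Fin (n + 1) × Fin q =>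
    Finite.exists_max fun e : Sub n i.1 × Sub n i.1 => ‖cm ρ i.1 h e.1 e.2‖
  set a := fun i => (e₁ i).1
  set b := fun i => (e₁ i).2
  set a' := fun i => (e₂ i).1
  set b' := fun i => (e₂ i).2
  obtain ⟨σ, hσ, hs⟩ := hF (fun i => (Q i.1 i.2 * cm ρ i.1 z) (a i))
    (fun i => (cm ρ i.1 h).col (b' i))
  refine ⟨σ, hσ, fun j i => ?_⟩
  have h1 : ‖Q j i * cm ρ j z‖ ≤ ‖(Q j i * cm ρ j z) (a (j, i))‖ :=
    ((Matrix.norm_le_iff (norm_nonneg _)).2 fun x y =>
      (hab (j, i) (x, y)).trans (norm_le_pi_norm _ (b (j, i))))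
  have h2 : ‖cm ρ j h‖ ≤ ‖(cm ρ j h).col (b' (j, i))‖ :=
    ((Matrix.norm_le_iff (norm_nonneg _)).2 fun x y =>
      (hab' (j, i) (x, y)).trans (norm_le_pi_norm ((cm ρ j h).col (b' (j, i))) (a' (j, i))))
  refine (mul_le_mul_of_nonneg_left (mul_le_mul h1 h2 (norm_nonneg _) (norm_nonneg _)) hc.le).trans
    ((hs (j, i)).trans (le_of_eq_of_le (congrArg norm ?_)
      (norm_entry_le_entrywise_sup_norm (Q j i * cm ρ j (z * σ * h))
        (i := a (j, i)) (j := b' (j, i)))))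
  rw [cm_mul, cm_mul, ← mul_assoc, ← mul_assoc, dotProduct_mulVec, Matrix.mul_apply' (M := _ * _),
    mul_apply_eq_vecMul (Q j i * cm ρ j z) (cm ρ j σ)]
  rfl

/-- Along a frame the sizes and the values of the test matrices add, up to a constant. -/
theorem exists_est [ProperSpace k]
    (hdense : SL.ZariskiDense (Set.range fun g => (ρ g : Matrix (Fin n) (Fin n) k))) (q : ℕ) :
    ∃ (F : Finset Γ) (A : ℝ), 0 ≤ A ∧
      ∀ (Q : ∀ j : Fin (n + 1), Fin q → Matrix (Sub n j) (Sub n j) k) (z h : Γ), ∃ σ ∈ F, ∀ j : Fin (n + 1),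
        |size ρ j (z * σ * h) - size ρ j z - size ρ j h| ≤ A ∧ ∀ i, Q j i ≠ 0 →
          |lev ρ (Q j i) (z * σ * h) - lev ρ (Q j i) z - size ρ j h| ≤ A := by
  obtain ⟨F, c, hc, hF⟩ := exists_frames_sl ρ hdense (q + 1)
  set M : ℝ := 1 + ∑ σ ∈ F, ∑ j : Fin (n + 1),
    (Fintype.card (Sub n j) : ℝ) * ((Fintype.card (Sub n j) : ℝ) * ‖cm ρ j σ‖) with hM
  have hM1 : 1 ≤ M := le_add_of_nonneg_right (sum_nonneg fun _ _ => sum_nonneg fun _ _ =>
    by positivity)
  have hlM : 0 ≤ Real.log M := Real.log_nonneg hM1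
  refine ⟨F, |Real.log c| + Real.log M, add_nonneg (abs_nonneg _) hlM, fun Q z h => ?_⟩
  obtain ⟨σ, hσ, hs⟩ := hF (fun j => Fin.cons 1 (Q j)) z h
  refine ⟨σ, hσ, fun j => ?_⟩
  have : Nonempty (Sub n j) := sub_nonempty (Nat.le_of_lt_succ j.2)
  have slot : ∀ P : Matrix (Sub n j) (Sub n j) k, P ≠ 0 →
      c * (‖P * cm ρ j z‖ * ‖cm ρ j h‖) ≤ ‖P * cm ρ j (z * σ * h)‖ →
      |lev ρ P (z * σ * h) - lev ρ P z - size ρ j h| ≤ |Real.log c| + Real.log M := by
    intro P hP hlow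
    have hU : 0 < ‖P * cm ρ j z‖ := norm_pos_iff.2 (test_ne ρ hP z)
    have hW : 0 < ‖cm ρ j h‖ := norm_cm_pos ρ (Nat.le_of_lt_succ j.2) h
    have hup : ‖P * cm ρ j (z * σ * h)‖ ≤ M * (‖P * cm ρ j z‖ * ‖cm ρ j h‖) := by
      rw [cm_mul, cm_mul, ← mul_assoc, ← mul_assoc]
      set d : ℝ := (Fintype.card (Sub n j) : ℝ) with hd
      have h2 : d * (d * ‖cm ρ j σ‖) ≤ M :=
        ((single_le_sum (f := fun j : Fin (n + 1) =>
          (Fintype.card (Sub n j) : ℝ) * ((Fintype.card (Sub n j) : ℝ) * ‖cm ρ j σ‖))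
            (fun _ _ => by positivity) (mem_univ j)).trans
          (single_le_sum (f := fun σ => ∑ j : Fin (n + 1),
            (Fintype.card (Sub n j) : ℝ) * ((Fintype.card (Sub n j) : ℝ) * ‖cm ρ j σ‖))
            (fun _ _ => sum_nonneg fun _ _ => by positivity) hσ)).trans
          (le_add_of_nonneg_left zero_le_one)
      have h3 := mul_le_mul_of_nonneg_right h2 (mul_nonneg hU.le hW.le)
      have h4 := mul_le_mul_of_nonneg_left
        (mul_le_mul_of_nonneg_right (norm_mul_le_card (P * cm ρ j z) (cm ρ j σ)) hW.le)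
        (show 0 ≤ d from Nat.cast_nonneg _)
      have h5 := norm_mul_le_card (P * cm ρ j z * cm ρ j σ) (cm ρ j h)
      rw [← hd] at h4 h5
      linarith
    have hy : 0 < ‖P * cm ρ j (z * σ * h)‖ := (mul_pos hc (mul_pos hU hW)).trans_le hlow
    have l1 := Real.log_le_log (mul_pos hc (mul_pos hU hW)) hlow
    have l2 := Real.log_le_log hy hup
    rw [Real.log_mul hc.ne' (mul_pos hU hW).ne', Real.log_mul hU.ne' hW.ne'] at l1
    rw [Real.log_mul (by linarith) (mul_pos hU hW).ne', Real.log_mul hU.ne' hW.ne'] at l2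
    simp only [lev, size]
    rw [abs_le]
    constructor <;> linarith [neg_abs_le (Real.log c), abs_nonneg (Real.log c)]
  refine ⟨?_, fun i hi => slot _ hi (by simpa using hs j i.succ)⟩
  simpa [lev, size] using slot 1 one_ne_zero (by simpa using hs j 0)

/-- Boundedly many candidates of one element have given sizes. -/
theorem pack_ok (hfin : ∀ R : ℝ, {g : Γ | ‖(ρ g : Matrix (Fin n) (Fin n) k)‖ ≤ R}.Finite)
    (F : Finset Γ) (A : ℝ) :
    ∃ N : ℕ, ∀ (y : Γ) (M : Fin (n + 1) → ℝ) (Z : Finset Γ),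
      (∀ z ∈ Z, Cand ρ F A y z ∧ ∀ j : Fin (n + 1), |size ρ j z - M j| ≤ A) → Z.card ≤ N := by
  classical
  set S := ∑ σ ∈ F, ∑ j : Fin (n + 1), (Fintype.card (Sub n j) : ℝ) * ‖cm ρ j σ‖ with hS
  have hS0 : 0 ≤ S := sum_nonneg fun _ _ => sum_nonneg fun _ _ => by positivity
  set C := Real.exp (2 * |A|) * (1 + S) with hC
  obtain ⟨B, hB⟩ := norm_div_le (k := k) n C
  refine ⟨(hfin B).toFinset.card, fun y M Z hZ => ?_⟩
  rcases Z.eq_empty_or_nonempty with rfl | ⟨z₀, h₀⟩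
  · exact Nat.zero_le _
  have hA := le_abs_self A
  have hone : ∀ z ∈ Z, ∀ j : Fin (n + 1),
      ‖cm ρ j z‖ * ‖cm ρ j (z⁻¹ * y)‖ ≤ C * ‖cm ρ j y‖ := fun z hz j => by
    obtain ⟨⟨h, ⟨σ, hσ, rfl⟩, hm⟩, -⟩ := hZ z hz
    rw [show z⁻¹ * (z * σ * h) = σ * h by group, cm_mul ρ j σ h]
    refine (mul_le_mul_of_nonneg_left (norm_mul_le_card _ _) (norm_nonneg _)).trans ?_
    have e : ‖cm ρ j z‖ * ‖cm ρ j h‖ ≤ Real.exp (2 * |A|) * ‖cm ρ j (z * σ * h)‖ := by
      have hj := Nat.le_of_lt_succ j.2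
      rw [← exp_size ρ hj, ← exp_size ρ hj, ← exp_size ρ hj, ← Real.exp_add, ← Real.exp_add]
      exact Real.exp_le_exp.2 (by linarith [(abs_le.1 (hm j)).1, abs_nonneg A])
    have hs : (Fintype.card (Sub n j) : ℝ) * ‖cm ρ j σ‖ ≤ 1 + S :=
      ((single_le_sum (f := fun j : Fin (n + 1) =>
          (Fintype.card (Sub n j) : ℝ) * ‖cm ρ j σ‖) (fun _ _ => by positivity)
            (mem_univ j)).trans
        (single_le_sum (f := fun σ => ∑ j : Fin (n + 1),
          (Fintype.card (Sub n j) : ℝ) * ‖cm ρ j σ‖)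
          (fun _ _ => sum_nonneg fun _ _ => by positivity) hσ)).trans
        (le_add_of_nonneg_left zero_le_one)
    have h2 := mul_le_mul_of_nonneg_left e
      (show 0 ≤ (Fintype.card (Sub n j) : ℝ) * ‖cm ρ j σ‖ by positivity)
    have h3 := mul_le_mul_of_nonneg_right hs
      (show 0 ≤ Real.exp (2 * |A|) * ‖cm ρ j (z * σ * h)‖ by positivity)
    rw [hC]
    linarith
  have comp : ∀ z ∈ Z, ∀ z' ∈ Z, ∀ j : Fin (n + 1), ‖cm ρ j z'‖ ≤ C * ‖cm ρ j z‖ := by
    intro z hz z' hz' j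
    have hj := Nat.le_of_lt_succ j.2
    rw [hC, ← exp_size ρ hj, ← exp_size ρ hj]
    refine le_trans ?_ (mul_le_mul_of_nonneg_right
      (le_mul_of_one_le_right (Real.exp_pos _).le (le_add_of_nonneg_right hS0)) (Real.exp_pos _).le)
    rw [← Real.exp_add]
    exact Real.exp_le_exp.2 (by
      linarith [(abs_le.1 ((hZ z hz).2 j)).1, (abs_le.1 ((hZ z' hz').2 j)).2])
  refine card_le_card_of_injOn (fun z => z₀⁻¹ * z) (fun z hz => ?_)
    fun a _ b _ h => mul_left_cancel h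
  rw [mem_coe, Set.Finite.mem_toFinset]
  have hinv : ∀ w : Γ, (ρ w : Matrix (Fin n) (Fin n) k) * (ρ w⁻¹ : Matrix (Fin n) (Fin n) k) = 1 :=
    fun w => by rw [← coe_mul, mul_inv_cancel, coe_one]
  have h := hB (ρ z₀) (ρ z₀⁻¹) (ρ z) (ρ z⁻¹) (ρ y) (hinv z₀) (hinv z) (ρ z₀).2 (ρ z).2 (ρ y).2
    fun j hj => by
      have a := hone z₀ h₀ ⟨j, Nat.lt_succ_of_le hj⟩
      have b := hone z hz ⟨j, Nat.lt_succ_of_le hj⟩
      rw [cm_mul] at a b
      simp only [cm, ← cmp_mul] at a b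
      exact ⟨a, b, comp z₀ h₀ z hz ⟨j, Nat.lt_succ_of_le hj⟩,
        comp z hz z₀ h₀ ⟨j, Nat.lt_succ_of_le hj⟩⟩
  show ‖(ρ (z₀⁻¹ * z) : Matrix (Fin n) (Fin n) k)‖ ≤ B
  rwa [coe_mul]

/-! ### Connection mass of a level -/

variable {O ι : Type} [DecidableEq Γ] [DecidableEq O] [Fintype ι] {G : SimpleGraph (Γ × O)}
  {nb : Γ × O → ι → Γ × O}

/-- Weighted first factors along frames: if the weights of the first factors of every product are
at most `N`, their weighted mass is at most `K * N` from every vertex, uniformly above any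
positive parameter with finite susceptibility. -/
theorem mass_of_fibres [Fintype O] (hl : Labelling G nb) (hinv : Inv G) (hconn : G.Connected)
    {p₀ : ℝ} (hp : 0 < p₀) (hp1 : p₀ ≤ 1) (F : Finset Γ) :
    ∃ K : ℝ, 0 ≤ K ∧ ∀ q, p₀ ≤ q → q ≤ 1 → Witness nb q →
      ∀ (w : Γ × O) (o' : O) (Z : Finset Γ) (wt : Γ → ℝ) (R : Γ → Γ → Γ) (N : ℝ), 0 ≤ N →
        (∀ z, 0 ≤ wt z) → (∀ z h, R z h ∈ F) →
        (∀ y, ∀ Z' ⊆ Z, (∀ z ∈ Z', ∃ h, z * R z h * h = y) → ∑ z ∈ Z', wt z ≤ N) →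
        ∑ z ∈ Z, wt z * T nb q w (z, o') ≤ K * N := by
  classical
  obtain ⟨o₁⟩ : Nonempty O := ⟨(hconn.nonempty.some).2⟩
  set b : Γ × O → Γ × O → ℝ := fun x y => (T nb p₀ x y)⁻¹
  have hb0 : ∀ x y, 0 ≤ b x y := fun x y => inv_nonneg.2 (T_nonneg hp.le hp1 x y)
  set Ca : ℝ := ∑ σ ∈ F, b ((1 : Γ), o₁) (σ, o₁)
  set C₁ : ℝ := ∑ o : O, b ((1 : Γ), o₁) ((1 : Γ), o)
  set C₂ : ℝ := ∑ o : O, b ((1 : Γ), o) ((1 : Γ), o₁)
  have hCa : 0 ≤ Ca := sum_nonneg fun _ _ => hb0 _ _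
  have hC₁ : 0 ≤ C₁ := sum_nonneg fun _ _ => hb0 _ _
  have hC₂ : 0 ≤ C₂ := sum_nonneg fun _ _ => hb0 _ _
  refine ⟨C₁ * C₂ * (2 * (Ca * F.card)), by positivity,
    fun q hq hq1 hw w o' Z wt R N hN hwt hR hcand => ?_⟩
  have hq0 : 0 ≤ q := hp.le.trans hq
  have hone : ∀ x y, 1 ≤ b x y * T nb q x y := fun x y => by
    have h := T_pos hl hconn hp hp1 x y
    rw [← inv_mul_cancel₀ h.ne']
    exact mul_le_mul_of_nonneg_left (T_mono hp.le hq hq1 x y) (hb0 x y)
  have hTn : ∀ x y, 0 ≤ T nb q x y := fun x y => T_nonneg hq0 hq1 x y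
  have hn : ∀ g, 0 ≤ anc nb o₁ q g := fun g => hTn _ _
  obtain ⟨X, hX⟩ := susceptibility hl hinv hq0 hq1 hw
  set V := Set.range fun U : Finset Γ => ∑ g ∈ U, anc nb o₁ q g with hV
  have hVb : BddAbove V := ⟨X, by
    rintro _ ⟨U, rfl⟩
    have h := sum_T_le hl hq0 hq1 ((1 : Γ), o₁) (U.image fun g => (g, o₁)) fun S => hX S _ _
    rw [sum_image fun a _ b _ h => congrArg Prod.fst h] at h
    exact h⟩
  have hsup : 1 ≤ sSup V := le_csSup_of_le hVb ⟨{1}, rfl⟩
    (by simp [anc, T_self hq0 hq1])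
  obtain ⟨_, ⟨U, rfl⟩, hU⟩ := exists_lt_of_lt_csSup ⟨_, Set.mem_range_self (∅ : Finset Γ)⟩
    (show sSup V / 2 < sSup V by linarith)
  simp only at hU
  -- the products
  set f : Γ × Γ → Γ := fun u => u.1 * R u.1 u.2 * u.2
  set sh : Γ → Γ := fun z => w.1⁻¹ * z
  have hfkg : ∀ u : Γ × Γ,
      anc nb o₁ q (sh u.1) * anc nb o₁ q u.2 ≤ Ca * anc nb o₁ q (sh (f u)) := by
    intro u
    set σ := R u.1 u.2
    have e : sh (f u) = sh u.1 * σ * u.2 := by simp only [sh, f, σ, mul_assoc]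
    have h3 : anc nb o₁ q (sh u.1) * anc nb o₁ q σ * anc nb o₁ q u.2 ≤ anc nb o₁ q (sh (f u)) := by
      rw [e]
      exact (mul_le_mul_of_nonneg_right (anc_mul_le hl hinv o₁ hq0 hq1 _ _) (hn _)).trans
        (anc_mul_le hl hinv o₁ hq0 hq1 _ _)
    have h4 : 1 ≤ Ca * anc nb o₁ q σ := (hone _ _).trans (mul_le_mul_of_nonneg_right
      (single_le_sum (f := fun σ => b ((1 : Γ), o₁) (σ, o₁)) (fun _ _ => hb0 _ _) (hR _ _))
      (hTn _ _))
    calc anc nb o₁ q (sh u.1) * anc nb o₁ q u.2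
        ≤ anc nb o₁ q (sh u.1) * anc nb o₁ q u.2 * (Ca * anc nb o₁ q σ) :=
          le_mul_of_one_le_right (mul_nonneg (hn _) (hn _)) h4
      _ = Ca * (anc nb o₁ q (sh u.1) * anc nb o₁ q σ * anc nb o₁ q u.2) := by ring
      _ ≤ _ := mul_le_mul_of_nonneg_left h3 hCa
  set P := Z ×ˢ U with hP
  have hfib : ∀ y, ∑ u ∈ P.filter (fun u => f u = y), wt u.1 ≤ F.card * N := by
    intro y
    set Z' := (P.filter fun u => f u = y).image Prod.fst
    have hcard : ∀ z, ((P.filter fun u => f u = y).filter fun u => u.1 = z).card ≤ F.card := by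
      intro z
      refine card_le_card_of_injOn (fun u => R u.1 u.2) (fun u _ => hR _ _) ?_
      intro u hu v hv huv
      simp only [coe_filter, mem_filter, Set.mem_ofPred_eq] at hu hv
      have h1 : u.1 * R u.1 u.2 * u.2 = v.1 * R v.1 v.2 * v.2 := hu.1.2.trans hv.1.2.symm
      have h2 : R u.1 u.2 = R v.1 v.2 := huv
      rw [h2, hu.2.trans hv.2.symm] at h1
      exact Prod.ext (hu.2.trans hv.2.symm) (mul_left_cancel h1)
    have hZ' : ∑ z ∈ Z', wt z ≤ N := by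
      refine hcand y Z' (fun z hz => ?_) fun z hz => ?_
      · obtain ⟨u, hu, rfl⟩ := mem_image.1 hz
        exact (mem_product.1 (mem_filter.1 hu).1).1
      · obtain ⟨u, hu, rfl⟩ := mem_image.1 hz
        exact ⟨u.2, (mem_filter.1 hu).2⟩
    calc ∑ u ∈ P.filter (fun u => f u = y), wt u.1
        = ∑ z ∈ Z', ((P.filter fun u => f u = y).filter fun u => u.1 = z).card * wt z := by
          rw [← sum_fiberwise_of_maps_to (g := Prod.fst) fun u hu => mem_image_of_mem _ hu]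
          refine sum_congr rfl fun z _ => ?_
          rw [sum_congr rfl fun u hu => by rw [(mem_filter.1 hu).2], sum_const, nsmul_eq_mul]
      _ ≤ ∑ z ∈ Z', (F.card : ℝ) * wt z := sum_le_sum fun z _ =>
          mul_le_mul_of_nonneg_right (Nat.cast_le.2 (hcard z)) (hwt z)
      _ ≤ _ := by
          rw [← mul_sum]
          exact mul_le_mul_of_nonneg_left hZ' (Nat.cast_nonneg _)
  have hY : ∑ y ∈ P.image f, anc nb o₁ q (sh y) ≤ sSup V := by
    refine le_csSup hVb ⟨(P.image f).image sh, ?_⟩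
    exact sum_image fun a _ b _ h => mul_left_cancel h
  have hmain : (∑ z ∈ Z, wt z * anc nb o₁ q (sh z)) * ∑ h ∈ U, anc nb o₁ q h ≤
      Ca * (F.card * N) * sSup V := by
    calc (∑ z ∈ Z, wt z * anc nb o₁ q (sh z)) * ∑ h ∈ U, anc nb o₁ q h
        = ∑ u ∈ P, wt u.1 * (anc nb o₁ q (sh u.1) * anc nb o₁ q u.2) := by
          rw [sum_mul_sum, hP, sum_product]
          exact sum_congr rfl fun z _ => sum_congr rfl fun h _ => by ring
      _ ≤ ∑ u ∈ P, Ca * (anc nb o₁ q (sh (f u)) * wt u.1) := sum_le_sum fun u _ =>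
          (mul_le_mul_of_nonneg_left (hfkg u) (hwt u.1)).trans (le_of_eq (by ring))
      _ = Ca * ∑ y ∈ P.image f,
            anc nb o₁ q (sh y) * ∑ u ∈ P.filter (fun u => f u = y), wt u.1 := by
          rw [← mul_sum, ← sum_fiberwise_of_maps_to (g := f) fun u hu => mem_image_of_mem _ hu]
          refine congrArg (Ca * ·) (sum_congr rfl fun y _ => ?_)
          rw [mul_sum]
          exact sum_congr rfl fun u hu => by rw [(mem_filter.1 hu).2]
      _ ≤ Ca * ∑ y ∈ P.image f, anc nb o₁ q (sh y) * (F.card * N) :=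
          mul_le_mul_of_nonneg_left
            (sum_le_sum fun y _ => mul_le_mul_of_nonneg_left (hfib y) (hn _)) hCa
      _ ≤ _ := by
          rw [← sum_mul]
          exact (mul_le_mul_of_nonneg_left (mul_le_mul_of_nonneg_right hY (by positivity))
            hCa).trans (le_of_eq (by ring))
  have hbound : ∑ z ∈ Z, wt z * anc nb o₁ q (sh z) ≤ 2 * (Ca * (F.card * N)) := by
    have hz0 : 0 ≤ ∑ z ∈ Z, wt z * anc nb o₁ q (sh z) :=
      sum_nonneg fun z _ => mul_nonneg (hwt z) (hn _)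
    have h1 := mul_le_mul_of_nonneg_left hU.le hz0
    refine le_of_mul_le_mul_right ?_ (lt_of_lt_of_le one_pos hsup)
    linarith
  -- change of types
  have hcmp : ∀ z, T nb q w (z, o') ≤ C₁ * C₂ * anc nb o₁ q (w.1⁻¹ * z) := by
    intro z
    set g := w.1⁻¹ * z with hg
    have e1 : T nb q w (z, o') = T nb q ((1 : Γ), w.2) (g, o') := by
      rw [← T_tr hl hinv w.1 hq0 hq1 ((1 : Γ), w.2) (g, o')]
      simp [tr, hg]
    have h₂ : 1 ≤ C₁ * T nb q ((1 : Γ), o₁) ((1 : Γ), w.2) :=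
      (hone _ _).trans (mul_le_mul_of_nonneg_right
        (single_le_sum (f := fun o => b ((1 : Γ), o₁) ((1 : Γ), o)) (fun _ _ => hb0 _ _)
          (mem_univ _)) (hTn _ _))
    have h₃ : 1 ≤ C₂ * T nb q (g, o') (g, o₁) := by
      rw [show T nb q (g, o') (g, o₁) = T nb q ((1 : Γ), o') ((1 : Γ), o₁) by
        rw [← T_tr hl hinv g hq0 hq1 ((1 : Γ), o') ((1 : Γ), o₁)]; simp [tr]]
      exact (hone _ _).trans (mul_le_mul_of_nonneg_right
        (single_le_sum (f := fun o => b ((1 : Γ), o) ((1 : Γ), o₁)) (fun _ _ => hb0 _ _)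
          (mem_univ _)) (hTn _ _))
    rw [e1]
    calc T nb q ((1 : Γ), w.2) (g, o')
        ≤ T nb q ((1 : Γ), w.2) (g, o') * (C₁ * T nb q ((1 : Γ), o₁) ((1 : Γ), w.2)) *
            (C₂ * T nb q (g, o') (g, o₁)) :=
          (le_mul_of_one_le_right (hTn _ _) h₂).trans
            (le_mul_of_one_le_right (mul_nonneg (hTn _ _) (mul_nonneg hC₁ (hTn _ _))) h₃)
      _ = C₁ * C₂ * (T nb q ((1 : Γ), o₁) ((1 : Γ), w.2) *
            T nb q ((1 : Γ), w.2) (g, o') * T nb q (g, o') (g, o₁)) := by ring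
      _ ≤ _ := mul_le_mul_of_nonneg_left
          ((mul_le_mul_of_nonneg_right (T_trans hl hq0 hq1 _ _ _) (hTn _ _)).trans
            (T_trans hl hq0 hq1 _ _ _))
          (mul_nonneg hC₁ hC₂)
  calc ∑ z ∈ Z, wt z * T nb q w (z, o')
      ≤ ∑ z ∈ Z, C₁ * C₂ * (wt z * anc nb o₁ q (sh z)) := sum_le_sum fun z _ =>
        (mul_le_mul_of_nonneg_left (hcmp z) (hwt z)).trans (le_of_eq (by simp only [sh]; ring))
    _ ≤ C₁ * C₂ * (2 * (Ca * (F.card * N))) := by
        rw [← mul_sum]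
        exact mul_le_mul_of_nonneg_left hbound (mul_nonneg hC₁ hC₂)
    _ = _ := by ring

/-- Levels of test matrices carry bounded mass seen from every vertex, uniformly above any positive
parameter with finite susceptibility. -/
theorem level_mass [ProperSpace k] [Fintype O] (hl : Labelling G nb) (hinv : Inv G)
    (hconn : G.Connected)
    (hdense : SL.ZariskiDense (Set.range fun g => (ρ g : Matrix (Fin n) (Fin n) k)))
    (hfin : ∀ R : ℝ, {g : Γ | ‖(ρ g : Matrix (Fin n) (Fin n) k)‖ ≤ R}.Finite)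
    {p₀ : ℝ} (hp : 0 < p₀) (hp1 : p₀ ≤ 1) (A : ℝ) :
    ∃ C : ℝ, ∀ q, p₀ ≤ q → q ≤ 1 → Witness nb q →
      ∀ Q : ∀ j : Fin (n + 1), Matrix (Sub n j) (Sub n j) k, (∀ j, Q j ≠ 0) →
      ∀ (w : Γ × O) (o' : O) (lv : Fin (n + 1) → ℝ) (Z : Finset Γ),
        (∀ z ∈ Z, ∀ j, |lev ρ (Q j) z - lv j| ≤ A) →
        ∑ z ∈ Z, T nb q w (z, o') ≤ C := by
  classical
  obtain ⟨F, A₁, hA₁, hest⟩ := exists_est ρ hdense 1
  obtain ⟨N, hN⟩ := pack_ok ρ hfin F (2 * A₁ + |A|)
  obtain ⟨K, -, hK⟩ := mass_of_fibres hl hinv hconn hp hp1 F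
  refine ⟨K * N, fun q hq hq1 hw Q hQ w o' lv Z hZ => ?_⟩
  choose R hR using fun z h : Γ => hest (fun j _ => Q j) z h
  have h := hK q hq hq1 hw w o' Z (fun _ => 1) R N (Nat.cast_nonneg _) (fun _ => zero_le_one)
    (fun z h => (hR z h).1) fun y Z' hsub hZ' => ?_
  · simpa using h
  rw [sum_const, nsmul_eq_mul, mul_one]
  refine Nat.cast_le.2 (hN y (fun j => size ρ j y - lev ρ (Q j) y + lv j) Z' fun z hz => ?_)
  obtain ⟨g, rfl⟩ := hZ' z hz
  have hA := le_abs_self A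
  constructor
  · exact ⟨g, ⟨R z g, (hR z g).1, rfl⟩, fun j =>
      ((hR z g).2 j).1.trans (by linarith [abs_nonneg A])⟩
  · intro j
    have a1 := abs_le.1 ((hR z g).2 j).1
    have a2 := abs_le.1 (((hR z g).2 j).2 0 (hQ j))
    have a3 := abs_le.1 (hZ z (hsub hz) j)
    rw [abs_le]
    constructor <;> linarith [a1.1, a1.2, a2.1, a2.2, a3.1, a3.2]

/-- The shell bound: elements of given sizes carry bounded mass seen from the anchor. -/
theorem shell_mass [ProperSpace k] [Fintype O] (hl : Labelling G nb) (hinv : Inv G)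
    (hconn : G.Connected)
    (hdense : SL.ZariskiDense (Set.range fun g => (ρ g : Matrix (Fin n) (Fin n) k)))
    (hfin : ∀ R : ℝ, {g : Γ | ‖(ρ g : Matrix (Fin n) (Fin n) k)‖ ≤ R}.Finite)
    {p₀ : ℝ} (hp : 0 < p₀) (hp1 : p₀ ≤ 1) (A : ℝ) :
    ∃ C : ℝ, ∀ q, p₀ ≤ q → q ≤ 1 → Witness nb q →
      ∀ (w : Γ × O) (o' : O) (D : Fin (n + 1) → ℝ) (Z : Finset Γ),
        (∀ z ∈ Z, ∀ j : Fin (n + 1), |size ρ j (w.1⁻¹ * z) - D j| ≤ A) →
        ∑ z ∈ Z, T nb q w (z, o') ≤ C := by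
  obtain ⟨C, hC⟩ := level_mass ρ hl hinv hconn hdense hfin hp hp1 A
  refine ⟨C, fun q hq hq1 hw w o' D Z hZ => ?_⟩
  have hne : ∀ j : Fin (n + 1), cm ρ j w.1⁻¹ ≠ 0 := fun j =>
    norm_pos_iff.1 (norm_cm_pos ρ (Nat.le_of_lt_succ j.2) _)
  refine hC q hq hq1 hw (fun j => cm ρ j w.1⁻¹) hne w o' D Z fun z hz j => ?_
  rw [lev, ← cm_mul]
  exact hZ z hz j

/-- The logarithm of the size of the exterior product of the first `j` rows of a frame. -/
noncomputable def horo (x : Matrix (Fin n) (Fin n) k) (j : Fin (n + 1)) (g : Γ) : ℝ :=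
  lev ρ (diagonal (fun s : Sub n j => if ∀ i, (emb s i).1 < j.1 then (1 : k) else 0) * cmp j x) g

/-- The level bound for every flag: its horospherical levels carry bounded mass. -/
theorem horo_mass [ProperSpace k] [Fintype O] (hl : Labelling G nb) (hinv : Inv G)
    (hconn : G.Connected)
    (hdense : SL.ZariskiDense (Set.range fun g => (ρ g : Matrix (Fin n) (Fin n) k)))
    (hfin : ∀ R : ℝ, {g : Γ | ‖(ρ g : Matrix (Fin n) (Fin n) k)‖ ≤ R}.Finite)
    {p₀ : ℝ} (hp : 0 < p₀) (hp1 : p₀ ≤ 1) (A : ℝ) :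
    ∃ C : ℝ, ∀ q, p₀ ≤ q → q ≤ 1 → Witness nb q →
      ∀ x : Matrix (Fin n) (Fin n) k, x.det ≠ 0 →
      ∀ (w : Γ × O) (o' : O) (lv : Fin (n + 1) → ℝ) (Z : Finset Γ),
        (∀ z ∈ Z, ∀ j : Fin (n + 1), |horo ρ x j z - lv j| ≤ A) →
        ∑ z ∈ Z, T nb q w (z, o') ≤ C := by
  obtain ⟨C, hC⟩ := level_mass ρ hl hinv hconn hdense hfin hp hp1 A
  refine ⟨C, fun q hq hq1 hw x hx w o' lv Z hZ => hC q hq hq1 hw _ (fun j h => ?_) w o' lv Z hZ⟩
  have e := congrArg (· * cmp j x⁻¹) h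
  simp only [zero_mul, mul_assoc, ← cmp_mul,
    mul_nonsing_inv x (isUnit_iff_ne_zero.2 hx), cmp_one, mul_one] at e
  obtain ⟨s, σ, hs⟩ := exists_sub (Fin.castLE (Nat.le_of_lt_succ j.2))
    (Fin.castLE_injective _)
  have hlead : ∀ i, (emb s i).1 < j.1 := fun i => by
    rw [← σ.apply_symm_apply i, ← hs]
    exact (σ.symm i).2
  have := congrFun (congrFun e s) s
  rw [diagonal_apply_eq, if_pos hlead] at this
  exact one_ne_zero this

end Vale.Agent.P165.EX
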