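import Vale.Agent.P165.EX.Geo

/-!
# Flat mass and the bubble in `SL(n, k)`

All candidates of one product, of every size, lie near one frame: in it the logarithms of the
lengths of the rows are the steps of the sizes. A child generic for these rows decodes them, so the
candidates carry bounded connection mass from every vertex. Weighting the children by the
connection to their parent gives the bubble.
-/

namespace Vale.Agent.P165.EX

open Finset Matrix FF
open scoped Matrix.Norms.Elementwise MatrixGroups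

variable {k : Type} [NontriviallyNormedField k] {n : ℕ}

theorem exists_coord (b : Fin n) : ∃ t : Sub n 1, emb t 0 = b := by
  obtain ⟨t, σ, h⟩ := exists_sub (fun _ : Fin 1 => b) fun x y _ => Subsingleton.elim x y
  exact ⟨t, by rw [h 0, Subsingleton.elim (σ 0) 0]⟩

/-- The test matrix of the `i`-th coordinate in a frame. -/
noncomputable def coordTest (X : Matrix (Fin n) (Fin n) k) (i : Fin n) (j : ℕ) :
    Matrix (Sub n j) (Sub n j) k :=
  diagonal (fun s => if ∃ l, emb s l = i then 1 else 0) * cmp j X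

theorem norm_coordTest (X Y : Matrix (Fin n) (Fin n) k) (i : Fin n) :
    ‖coordTest X i 1 * cmp 1 Y‖ = ‖(X * Y) i‖ := by
  rw [coordTest, mul_assoc, ← cmp_mul]
  have e : ∀ s t, (diagonal (fun s : Sub n 1 => if ∃ l, emb s l = i then (1 : k) else 0) *
      cmp 1 (X * Y)) s t = if emb s 0 = i then (X * Y) i (emb t 0) else 0 := fun s t => by
    rw [diagonal_mul, cmp, Matrix.of_apply, det_unique, submatrix_apply]
    simp only [Fin.exists_fin_one, Fin.default_eq_zero]
    split_ifs with h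
    · rw [one_mul, h]
    · rw [zero_mul]
  refine le_antisymm ((Matrix.norm_le_iff (norm_nonneg _)).2 fun s t => ?_)
    ((pi_norm_le_iff_of_nonneg (norm_nonneg _)).2 fun b => ?_)
  · rw [e]
    split_ifs
    · exact norm_le_pi_norm _ _
    · simp
  · obtain ⟨s, hs⟩ := exists_coord i
    obtain ⟨t, ht⟩ := exists_coord b
    refine le_trans (le_of_eq ?_) (norm_entry_le_entrywise_sup_norm _ (i := s) (j := t))
    rw [e, if_pos hs, ht]

/-- Bounds in both directions as a bound on logarithms. -/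
theorem abs_log_sub_le {x y B : ℝ} (hx : 0 < x) (hy : 0 < y) (hB : 0 < B) (h1 : x ≤ B * y)
    (h2 : y ≤ B * x) : |Real.log x - Real.log y| ≤ Real.log B := by
  have a := Real.log_le_log hx h1
  have b := Real.log_le_log hy h2
  rw [Real.log_mul hB.ne' hy.ne'] at a
  rw [Real.log_mul hB.ne' hx.ne'] at b
  rw [abs_le]
  constructor <;> linarith

variable {Γ : Type} [Group Γ] (ρ : Γ →* SL(n, k))

/-- Each product has a frame in which the lengths of the rows of its candidates give their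
sizes. -/
theorem exists_axis (F : Finset Γ) (A : ℝ) :
    ∃ Λ : ℝ, ∀ y : Γ, ∃ X : Matrix (Fin n) (Fin n) k, X.det ≠ 0 ∧ ∀ z, Cand ρ F A y z →
      ∀ (j : ℕ) (hj : j ≤ n), |size ρ j z - ∑ i : Fin j,
        Real.log ‖(X * (ρ z : Matrix (Fin n) (Fin n) k)) (Fin.castLE hj i)‖| ≤ Λ := by
  classical
  set S := ∑ σ ∈ F, ∑ j : Fin (n + 1), (Fintype.card (Sub n j) : ℝ) * ‖cm ρ j σ‖ with hS
  set C₀ := Real.exp |A| * (1 + S) with hC₀
  obtain ⟨C, B, hC, hB, hpiv, haxes⟩ := exists_axes (k := k) n C₀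
  set E : ℝ := n * n * (B * C) + 1 with hE
  have hE1 : 1 ≤ E := le_add_of_nonneg_left (by positivity)
  refine ⟨(n : ℝ) * Real.log E + Real.log (B + 1), fun y => ?_⟩
  obtain ⟨K, Ki, K', Ki', d, hpy⟩ := hpiv (ρ y) (ρ y).2
  have hKi : Ki.det ≠ 0 := fun h => by
    have := congrArg det hpy.2.1.2.1
    rw [det_mul, h, zero_mul, det_one] at this
    exact zero_ne_one this
  refine ⟨Ki, hKi, fun z hz j hj => ?_⟩
  obtain ⟨L, Li, L', Li', a, hpz⟩ := hpiv (ρ z) (ρ z).2
  have hinv : (ρ z : Matrix (Fin n) (Fin n) k) * (ρ z⁻¹ : Matrix (Fin n) (Fin n) k) = 1 := by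
    rw [← coe_mul, mul_inv_cancel, coe_one]
  obtain ⟨h, ⟨σ, hσ, rfl⟩, hm⟩ := hz
  have hadd : ∀ j ≤ n, ‖cmp j (ρ z : Matrix (Fin n) (Fin n) k)‖ *
      ‖cmp j ((ρ z⁻¹ : Matrix (Fin n) (Fin n) k) * (ρ (z * σ * h) : Matrix (Fin n) (Fin n) k))‖ ≤
        C₀ * ‖cmp j (ρ (z * σ * h) : Matrix (Fin n) (Fin n) k)‖ := by
    intro j hj
    rw [← coe_mul, show z⁻¹ * (z * σ * h) = σ * h by group]
    change ‖cm ρ j z‖ * ‖cm ρ j (σ * h)‖ ≤ C₀ * ‖cm ρ j (z * σ * h)‖
    rw [cm_mul ρ j σ h]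
    refine (mul_le_mul_of_nonneg_left (norm_mul_le_card _ _) (norm_nonneg _)).trans ?_
    have e : ‖cm ρ j z‖ * ‖cm ρ j h‖ ≤ Real.exp |A| * ‖cm ρ j (z * σ * h)‖ := by
      rw [← exp_size ρ hj, ← exp_size ρ hj, ← exp_size ρ hj, ← Real.exp_add, ← Real.exp_add]
      exact Real.exp_le_exp.2
        (by linarith [(abs_le.1 (hm ⟨j, Nat.lt_succ_of_le hj⟩)).1, le_abs_self A])
    have hs : (Fintype.card (Sub n j) : ℝ) * ‖cm ρ j σ‖ ≤ 1 + S :=
      ((single_le_sum (f := fun j : Fin (n + 1) =>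
          (Fintype.card (Sub n j) : ℝ) * ‖cm ρ j σ‖) (fun _ _ => by positivity)
            (mem_univ ⟨j, Nat.lt_succ_of_le hj⟩)).trans
        (single_le_sum (f := fun σ => ∑ j : Fin (n + 1),
          (Fintype.card (Sub n j) : ℝ) * ‖cm ρ j σ‖)
          (fun _ _ => sum_nonneg fun _ _ => by positivity) hσ)).trans
        (le_add_of_nonneg_left zero_le_one)
    have h2 := mul_le_mul_of_nonneg_left e
      (show 0 ≤ (Fintype.card (Sub n j) : ℝ) * ‖cm ρ j σ‖ by positivity)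
    have h3 := mul_le_mul_of_nonneg_right hs
      (show 0 ≤ Real.exp |A| * ‖cm ρ j (z * σ * h)‖ by positivity)
    rw [hC₀]
    linarith
  have f := haxes _ _ _ L Li L' Li' K Ki K' Ki' a d hpz hpy hinv hadd
  obtain ⟨hza, hL, hL', ha, -, hsz⟩ := hpz
  obtain ⟨-, hK, -, -, -, -⟩ := hpy
  set W : Fin n → ℝ := fun i => ‖(Ki * (ρ z : Matrix (Fin n) (Fin n) k)) i‖ with hW
  -- rows are comparable to the diagonal
  have e1 : Ki * (ρ z : Matrix (Fin n) (Fin n) k) = Ki * L * diagonal a * L' := by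
    rw [hza]; simp only [Matrix.mul_assoc]
  have e2 : diagonal a = Li * K * (Ki * (ρ z : Matrix (Fin n) (Fin n) k) * Li') := by
    rw [e1]
    simp only [Matrix.mul_assoc, hL'.1, mul_one]
    rw [← Matrix.mul_assoc K, hK.1, one_mul, ← Matrix.mul_assoc, hL.2.1, one_mul]
  have hC0 : 0 ≤ C := zero_le_one.trans hC
  have up : ∀ i, W i ≤ E * ‖a i‖ := fun i => by
    refine (pi_norm_le_iff_of_nonneg (by positivity)).2 fun b => ?_
    rw [e1, Matrix.mul_apply]
    refine (norm_sum_le _ _).trans ((sum_le_card_nsmul _ _ (B * ‖a i‖ * C) fun l _ => ?_).trans ?_)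
    · rw [mul_diagonal, norm_mul, norm_mul]
      exact mul_le_mul (f i l).2 ((norm_entry_le_entrywise_sup_norm L').trans hL'.2.2.1)
        (norm_nonneg _) (by positivity)
    · rw [nsmul_eq_mul, card_univ, Fintype.card_fin, hE]
      have hn1 : (1 : ℝ) ≤ n := Nat.one_le_cast.2 (Nat.succ_le_of_lt i.pos)
      have := mul_le_mul_of_nonneg_right (le_mul_of_one_le_right (Nat.cast_nonneg n) hn1)
        (show 0 ≤ B * C * ‖a i‖ by positivity)
      linarith [norm_nonneg (a i)]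
  have low : ∀ i, ‖a i‖ ≤ E * W i := fun i => by
    -- one factor comes from the inverse change of frame, one from a row
    have e3 : Ki * L * diagonal a = Ki * (ρ z : Matrix (Fin n) (Fin n) k) * Li' := by
      rw [e1]; simp only [Matrix.mul_assoc, hL'.1, mul_one]
    have hnn : ∀ l, ‖(Ki * L * diagonal a) i l‖ ≤ n * (W i * C) := fun l => by
      rw [e3, Matrix.mul_apply]
      refine (norm_sum_le _ _).trans ((sum_le_card_nsmul _ _ (W i * C) fun b _ => ?_).trans_eq ?_)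
      · rw [norm_mul]
        exact mul_le_mul (norm_le_pi_norm _ b)
          ((norm_entry_le_entrywise_sup_norm Li').trans hL'.2.2.2) (norm_nonneg _) (norm_nonneg _)
      · rw [nsmul_eq_mul, card_univ, Fintype.card_fin]
    have h1 : ∑ l, (Ki * L) i l * (Li * K) l i = 1 := by
      rw [← Matrix.mul_apply, Matrix.mul_assoc, ← Matrix.mul_assoc L, hL.1, one_mul, hK.2.1,
        one_apply_eq]
    have h2 : ‖a i‖ ≤ ∑ l, ‖(Ki * L) i l‖ * (‖(Li * K) l i‖ * ‖a i‖) := by
      calc ‖a i‖ = ‖(∑ l, (Ki * L) i l * (Li * K) l i) * a i‖ := by rw [h1, one_mul]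
        _ ≤ _ := by
            rw [sum_mul]
            refine (norm_sum_le _ _).trans (le_of_eq (sum_congr rfl fun l _ => ?_))
            rw [norm_mul, norm_mul, mul_assoc]
    refine h2.trans ?_
    refine (sum_le_card_nsmul _ _ (B * (n * (W i * C))) fun l _ => ?_).trans ?_
    · refine (mul_le_mul_of_nonneg_left (f l i).1 (norm_nonneg _)).trans ?_
      have := hnn l
      rw [mul_diagonal, norm_mul] at this
      calc ‖(Ki * L) i l‖ * (B * ‖a l‖) = B * (‖(Ki * L) i l‖ * ‖a l‖) := by ring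
        _ ≤ _ := mul_le_mul_of_nonneg_left this hB
    · rw [nsmul_eq_mul, card_univ, Fintype.card_fin, hE]
      have hW0 : 0 ≤ W i := norm_nonneg _
      linarith
  have hapos : ∀ i, 0 < ‖a i‖ := fun i => norm_pos_iff.2 (ha i)
  have hWpos : ∀ i, 0 < W i := fun i =>
    pos_of_mul_pos_right ((hapos i).trans_le (low i)) (zero_le_one.trans hE1)
  have hpa := pa_pos hapos hj
  obtain ⟨u, v⟩ := hsz j hj
  have hzp : 0 < ‖cm ρ j z‖ := norm_cm_pos ρ hj z
  have d1 : |size ρ j z - Real.log (pa (fun i => ‖a i‖) hj)| ≤ Real.log (B + 1) := by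
    refine abs_log_sub_le hzp hpa (by linarith) (u.trans ?_) (v.trans ?_)
    · exact mul_le_mul_of_nonneg_right (le_add_of_nonneg_right zero_le_one) hpa.le
    · exact mul_le_mul_of_nonneg_right (le_add_of_nonneg_right zero_le_one) (norm_nonneg _)
  have d2 : |Real.log (pa (fun i => ‖a i‖) hj) - ∑ i : Fin j, Real.log (W (Fin.castLE hj i))| ≤
      (n : ℝ) * Real.log E := by
    rw [pa, Real.log_prod (fun i _ => (hapos _).ne'), ← sum_sub_distrib]
    refine (abs_sum_le_sum_abs _ _).trans ((sum_le_card_nsmul _ _ (Real.log E) fun i _ => ?_).trans ?_)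
    · exact abs_log_sub_le (hapos _) (hWpos _) (by linarith) (low _) (up _)
    · rw [nsmul_eq_mul, card_univ, Fintype.card_fin]
      exact mul_le_mul_of_nonneg_right (Nat.cast_le.2 hj) (Real.log_nonneg hE1)
  exact (abs_sub_le _ _ _).trans ((add_le_add d1 d2).trans_eq (add_comm _ _))

/-! ### Flat mass and bubble -/

variable {O ι : Type} [DecidableEq Γ] [DecidableEq O] [Fintype ι] {G : SimpleGraph (Γ × O)}
  {nb : Γ × O → ι → Γ × O}

/-- Candidates of one product, of all sizes, carry bounded mass from every vertex. -/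
theorem flat_mass [ProperSpace k] [Fintype O] (hl : Labelling G nb) (hinv : Inv G)
    (hconn : G.Connected) (hn : 0 < n)
    (hdense : SL.ZariskiDense (Set.range fun g => (ρ g : Matrix (Fin n) (Fin n) k)))
    (hfin : ∀ R : ℝ, {g : Γ | ‖(ρ g : Matrix (Fin n) (Fin n) k)‖ ≤ R}.Finite)
    {p₀ : ℝ} (hp : 0 < p₀) (hp1 : p₀ ≤ 1) (F : Finset Γ) (A : ℝ) :
    ∃ C : ℝ, 0 ≤ C ∧ ∀ q, p₀ ≤ q → q ≤ 1 → Witness nb q →
      ∀ (y : Γ) (w : Γ × O) (o' : O) (Z : Finset Γ), (∀ z ∈ Z, Cand ρ F A y z) →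
        ∑ z ∈ Z, T nb q w (z, o') ≤ C := by
  classical
  obtain ⟨F₁, A₁, hA₁, hest⟩ := exists_est ρ hdense n
  obtain ⟨Λ, hΛ⟩ := exists_axis ρ F A
  set D : ℝ := A₁ + 3 * |Λ| with hD
  obtain ⟨N, hN⟩ := pack_ok ρ hfin F (|A| + |Λ| + n * (2 * D))
  obtain ⟨K, hK0, hK⟩ := mass_of_fibres hl hinv hconn hp hp1 F₁
  refine ⟨K * N, by positivity, fun q hq hq1 hw y w o' Z hZ => ?_⟩
  obtain ⟨X, hX, hax⟩ := hΛ y
  choose R hR using fun z h : Γ => hest (fun j i => coordTest X i j) z h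
  have h := hK q hq hq1 hw w o' Z (fun _ => 1) R N (Nat.cast_nonneg _) (fun _ => zero_le_one)
    (fun z h => (hR z h).1) fun y' Z' hsub hZ' => ?_
  · simpa using h
  rw [sum_const, nsmul_eq_mul, mul_one]
  refine Nat.cast_le.2 ?_
  set one : Fin (n + 1) := ⟨1, by omega⟩
  set ℓ : Fin n → ℝ := fun i => lev ρ (coordTest X i 1) y' with hℓ
  set μ : ℝ := (∑ i, ℓ i) / n with hμ
  refine hN y (fun j => ∑ i : Fin j, (ℓ (Fin.castLE (Nat.le_of_lt_succ j.2) i) - μ)) Z'
    fun z hz => ?_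
  obtain ⟨g, rfl⟩ := hZ' z hz
  have hc := hZ z (hsub hz)
  constructor
  · obtain ⟨h', hh, hm⟩ := hc
    have hnD : 0 ≤ (n : ℝ) * (2 * D) := by positivity
    exact ⟨h', hh, fun j => (hm j).trans (by linarith [le_abs_self A, abs_nonneg Λ])⟩
  set W : Fin n → ℝ := fun i => Real.log ‖(X * (ρ z : Matrix (Fin n) (Fin n) k)) i‖ with hW
  set t : ℝ := size ρ 1 g with ht
  have hne : ∀ i, coordTest X i 1 ≠ 0 := fun i h0 => by
    have e := norm_coordTest X 1 i
    rw [h0, zero_mul, norm_zero, mul_one, eq_comm, norm_eq_zero] at e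
    exact hX (det_eq_zero_of_row_eq_zero i fun b => congrFun e b)
  -- a row and its child
  have hrow : ∀ i, |ℓ i - W i - t| ≤ A₁ := fun i => by
    have h1 := ((hR z g).2 one).2 i (hne i)
    rwa [show lev ρ (coordTest X i one) z = W i from congrArg Real.log (norm_coordTest X _ i)]
      at h1
  -- the rows sum to a bounded number
  have hsum : |∑ i, W i| ≤ |Λ| := by
    have h1 := hax z hc n le_rfl
    have e : size ρ n z = 0 := by
      rw [size, cm, cmp_top, (ρ z).2, norm_one, Real.log_one]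
    rw [e, zero_sub, abs_neg] at h1
    simpa [hW] using h1.trans (le_abs_self Λ)
  have hn0 : (0 : ℝ) < n := Nat.cast_pos.2 hn
  have hn1 : (1 : ℝ) ≤ n := Nat.one_le_cast.2 hn
  have ht' : |μ - t| ≤ A₁ + |Λ| := by
    have h1 : |∑ i, (ℓ i - W i - t)| ≤ n * A₁ :=
      (abs_sum_le_sum_abs _ _).trans ((sum_le_card_nsmul _ _ _ fun i _ => hrow i).trans_eq
        (by simp))
    rw [sum_sub_distrib, sum_sub_distrib, sum_const, card_univ, Fintype.card_fin,
      nsmul_eq_mul] at h1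
    rw [hμ, div_sub' hn0.ne', abs_div, abs_of_pos hn0, div_le_iff₀ hn0]
    have h2 : (n : ℝ) * A₁ + |Λ| ≤ (A₁ + |Λ|) * n := by nlinarith [abs_nonneg Λ]
    refine le_trans ?_ h2
    calc |∑ i, ℓ i - n * t| = |(∑ i, ℓ i - ∑ i, W i - n * t) + ∑ i, W i| := by congr 1; ring
      _ ≤ _ := (abs_add_le _ _).trans (add_le_add h1 hsum)
  intro j
  have hj := hax z hc j (Nat.le_of_lt_succ j.2)
  have hd : |∑ i : Fin j, W (Fin.castLE (Nat.le_of_lt_succ j.2) i) -
      ∑ i : Fin j, (ℓ (Fin.castLE (Nat.le_of_lt_succ j.2) i) - μ)| ≤ n * (2 * D) := by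
    rw [← sum_sub_distrib]
    refine (abs_sum_le_sum_abs _ _).trans ((sum_le_card_nsmul _ _ (2 * D) fun i _ => ?_).trans ?_)
    · have a1 := abs_le.1 (hrow (Fin.castLE (Nat.le_of_lt_succ j.2) i))
      have a2 := abs_le.1 ht'
      rw [abs_le, hD]
      constructor <;> linarith [a1.1, a1.2, a2.1, a2.2, abs_nonneg Λ]
    · rw [nsmul_eq_mul, card_univ, Fintype.card_fin]
      exact mul_le_mul_of_nonneg_right (Nat.cast_le.2 (Nat.le_of_lt_succ j.2)) (by positivity)
  refine (abs_sub_le _ _ _).trans ((add_le_add hj hd).trans ?_)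
  linarith [le_abs_self Λ, abs_nonneg A]

/-- The bubble is bounded. -/
theorem bubble_mass [ProperSpace k] [Fintype O] (hl : Labelling G nb) (hinv : Inv G)
    (hconn : G.Connected) (hn : 0 < n)
    (hdense : SL.ZariskiDense (Set.range fun g => (ρ g : Matrix (Fin n) (Fin n) k)))
    (hfin : ∀ R : ℝ, {g : Γ | ‖(ρ g : Matrix (Fin n) (Fin n) k)‖ ≤ R}.Finite)
    {p₀ : ℝ} (hp : 0 < p₀) (hp1 : p₀ ≤ 1) :
    ∃ C : ℝ, ∀ q, p₀ ≤ q → q ≤ 1 → Witness nb q →
      ∀ (w : Γ × O) (o' : O) (Z : Finset Γ), ∑ z ∈ Z, T nb q w (z, o') ^ 2 ≤ C := by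
  obtain ⟨F, A, hA, hest⟩ := exists_est ρ hdense 0
  obtain ⟨C, hC0, hC⟩ := flat_mass ρ hl hinv hconn hn hdense hfin hp hp1 F A
  obtain ⟨K, hK0, hK⟩ := mass_of_fibres hl hinv hconn hp hp1 F
  refine ⟨K * C, fun q hq hq1 hw w o' Z => ?_⟩
  choose R hR using fun z h : Γ => hest (fun _ i => i.elim0) z h
  simp only [pow_two]
  refine hK q hq hq1 hw w o' Z (fun z => T nb q w (z, o')) R C hC0
    (fun z => T_nonneg (hp.le.trans hq) hq1 _ _) (fun z h => (hR z h).1)
    fun y Z' _ hZ' => hC q hq hq1 hw y w o' Z' fun z hz => ?_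
  obtain ⟨g, rfl⟩ := hZ' z hz
  exact ⟨g, ⟨R z g, (hR z g).1, rfl⟩, fun j => ((hR z g).2 j).1⟩

end Vale.Agent.P165.EX
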