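import Vale.Agent.P165.EX.Examples

/-!
# The integer points are generated by the elementary matrices

Column by column, row operations bring an integer matrix of determinant one to the identity: they
shrink a column to one entry by division with remainder, and that entry is a unit. Hence the integer
points are finitely generated and the phase holds for each of their Cayley graphs.
-/

namespace Vale.Agent.P165.EX

open Matrix Finset
open scoped MatrixGroups

variable {n : ℕ}

/-- The first `k` columns are those of the identity. -/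
def Cleared (k : ℕ) (g : SL(n, ℤ)) : Prop :=
  ∀ j : Fin n, (j : ℕ) < k → ∀ i, (↑g : Matrix (Fin n) (Fin n) ℤ) i j = if i = j then 1 else 0

theorem elem_mul_apply {i j : Fin n} (h : i ≠ j) (t : ℤ) (g : SL(n, ℤ)) (a b : Fin n) :
    (↑(elem h t * g) : Matrix (Fin n) (Fin n) ℤ) a b =
      if a = i then (↑g : Matrix (Fin n) (Fin n) ℤ) i b + t * (↑g : Matrix (Fin n) (Fin n) ℤ) j b else (↑g : Matrix (Fin n) (Fin n) ℤ) a b := by
  show (transvection i j t * (↑g : Matrix (Fin n) (Fin n) ℤ)) a b = _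
  by_cases ha : a = i
  · subst ha; rw [transvection_mul_apply_same, if_pos rfl]
  · rw [transvection_mul_apply_of_ne _ _ _ _ ha, if_neg ha]

/-- Rows from `k` on can be added to any other row. -/
theorem Cleared.elem_mul {k : ℕ} {g : SL(n, ℤ)} (hg : Cleared k g) {i j : Fin n} (h : i ≠ j)
    (hj : k ≤ (j : ℕ)) (t : ℤ) : Cleared k (elem h t * g) := by
  intro b hb a
  rw [elem_mul_apply, hg b hb a, hg b hb i, hg b hb j, if_neg fun e : j = b => by omega]
  split_ifs with h1 <;> simp_all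

/-- With the first `k` columns cleared, an entry which is alone in the lower part of column `k` is
a unit, and it is one if the column is the last. -/
theorem unit_of_alone {k : Fin n} {g : SL(n, ℤ)} (hg : Cleared k g) {r : Fin n}
    (hr : ∀ i : Fin n, k ≤ i → i ≠ r → (↑g : Matrix (Fin n) (Fin n) ℤ) i k = 0) : (↑g : Matrix (Fin n) (Fin n) ℤ) r k = 1 ∨ (↑g : Matrix (Fin n) (Fin n) ℤ) r k = -1 := by
  refine Int.isUnit_iff.1 (isUnit_of_dvd_one ?_)
  have hk : (↑g : Matrix (Fin n) (Fin n) ℤ) *ᵥ (fun b => if b < k then -(↑g : Matrix (Fin n) (Fin n) ℤ) b k else if b = k then 1 else 0) =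
      fun i => if k ≤ i then (↑g : Matrix (Fin n) (Fin n) ℤ) i k else 0 := by
    funext i
    have e : ∀ b, (↑g : Matrix (Fin n) (Fin n) ℤ) i b * (if b < k then -(↑g : Matrix (Fin n) (Fin n) ℤ) b k else if b = k then 1 else 0) =
        (if b = i ∧ i < k then -(↑g : Matrix (Fin n) (Fin n) ℤ) i k else 0) + if b = k then (↑g : Matrix (Fin n) (Fin n) ℤ) i k else 0 := by
      intro b
      by_cases h1 : b < k
      · rw [if_pos h1, if_neg h1.ne, hg b h1 i]
        by_cases h2 : i = b
        · subst h2; simp [h1]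
        · simp [h2, Ne.symm h2]
      · by_cases h2 : b = k
        · subst h2; simp; rintro rfl; omega
        · simp [h1, h2]; rintro rfl; omega
    simp only [mulVec, dotProduct, e, sum_add_distrib]
    by_cases h : k ≤ i
    · simp [h, h.not_gt]
    · simp [h, lt_of_not_ge h]
  have h2 : (↑g : Matrix (Fin n) (Fin n) ℤ) *ᵥ (fun b => if b < k then -(↑g : Matrix (Fin n) (Fin n) ℤ) b k else if b = k then 1 else 0) =
      (↑g : Matrix (Fin n) (Fin n) ℤ) r k • Pi.single r (if k ≤ r then 1 else 0) := by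
    rw [hk]
    funext i
    by_cases h : k ≤ i
    · by_cases hi : i = r
      · subst hi; simp [h]
      · simp [h, hr i h hi, hi]
    · by_cases hi : i = r
      · subst hi; simp [h]
      · simp [h, hi]
  have h3 := congrFun (congrArg ((↑(g⁻¹) : Matrix (Fin n) (Fin n) ℤ)).mulVec h2) k
  rw [mulVec_mulVec, show (↑(g⁻¹) : Matrix (Fin n) (Fin n) ℤ) * (↑g : Matrix (Fin n) (Fin n) ℤ) = 1 from congrArg Subtype.val (inv_mul_cancel g),
    one_mulVec, mulVec_smul, Pi.smul_apply, smul_eq_mul] at h3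
  rw [if_neg (lt_irrefl k), if_pos rfl] at h3
  exact Dvd.intro _ h3.symm

/-- One more column. -/
theorem exists_cleared (H : Subgroup SL(n, ℤ))
    (hH : ∀ (i j : Fin n) (h : i ≠ j) (t : ℤ), elem h t ∈ H) (k : Fin n) {g : SL(n, ℤ)}
    (hg : Cleared k g) : ∃ e ∈ H, Cleared (k + 1) (e * g) := by
  classical
  set R := univ.filter fun i : Fin n => k ≤ i
  -- one nonzero entry in the lower part
  have red : ∀ (N : ℕ) (g : SL(n, ℤ)), Cleared k g → ∑ i ∈ R, ((↑g : Matrix (Fin n) (Fin n) ℤ) i k).natAbs ≤ N →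
      ∃ e ∈ H, Cleared k (e * g) ∧
        ∃ r, k ≤ r ∧ ∀ i : Fin n, k ≤ i → i ≠ r → (↑(e * g) : Matrix (Fin n) (Fin n) ℤ) i k = 0 := by
    intro N
    induction N using Nat.strong_induction_on with
    | _ N ih =>
      intro g hg hN
      by_cases h : ∃ a ∈ R, ∃ b ∈ R, a ≠ b ∧ (↑g : Matrix (Fin n) (Fin n) ℤ) b k ≠ 0 ∧ ((↑g : Matrix (Fin n) (Fin n) ℤ) b k).natAbs ≤ ((↑g : Matrix (Fin n) (Fin n) ℤ) a k).natAbs
      · obtain ⟨a, ha, b, hb, hab, hb0, hle⟩ := h
        have hlt : ∃ t : ℤ, ((↑g : Matrix (Fin n) (Fin n) ℤ) a k + t * (↑g : Matrix (Fin n) (Fin n) ℤ) b k).natAbs < ((↑g : Matrix (Fin n) (Fin n) ℤ) a k).natAbs := by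
          rcases le_total 0 ((↑g : Matrix (Fin n) (Fin n) ℤ) a k * (↑g : Matrix (Fin n) (Fin n) ℤ) b k) with h0 | h0
          · refine ⟨-1, ?_⟩
            rcases Int.le_total 0 ((↑g : Matrix (Fin n) (Fin n) ℤ) b k) with hb1 | hb1
            · have : 0 ≤ (↑g : Matrix (Fin n) (Fin n) ℤ) a k := nonneg_of_mul_nonneg_left h0 (lt_of_le_of_ne hb1 hb0.symm)
              omega
            · have : (↑g : Matrix (Fin n) (Fin n) ℤ) a k ≤ 0 := nonpos_of_mul_nonneg_left h0 (lt_of_le_of_ne hb1 hb0)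
              omega
          · refine ⟨1, ?_⟩
            rcases Int.le_total 0 ((↑g : Matrix (Fin n) (Fin n) ℤ) b k) with hb1 | hb1
            · have : (↑g : Matrix (Fin n) (Fin n) ℤ) a k ≤ 0 := nonpos_of_mul_nonpos_left h0 (lt_of_le_of_ne hb1 hb0.symm)
              omega
            · have : 0 ≤ (↑g : Matrix (Fin n) (Fin n) ℤ) a k := nonneg_of_mul_nonpos_left h0 (lt_of_le_of_ne hb1 hb0)
              omega
        obtain ⟨t, ht⟩ := hlt
        have hs : ∑ i ∈ R, ((↑(elem hab t * g) : Matrix (Fin n) (Fin n) ℤ) i k).natAbs < N := by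
          refine lt_of_lt_of_le (sum_lt_sum (fun i _ => ?_) ⟨a, ha, ?_⟩) hN
          · rw [elem_mul_apply]; split_ifs with h1
            · subst h1; exact ht.le
            · exact le_rfl
          · rw [elem_mul_apply, if_pos rfl]; exact ht
        obtain ⟨e, he, hc, hr⟩ := ih _ hs _
          (hg.elem_mul hab (Fin.le_def.1 (mem_filter.1 hb).2) t) le_rfl
        exact ⟨e * elem hab t, mul_mem he (hH _ _ hab t), by rwa [mul_assoc],
          by rwa [mul_assoc]⟩
      · refine ⟨1, one_mem _, by rwa [one_mul], ?_⟩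
        rw [one_mul]
        by_cases h1 : ∃ r ∈ R, (↑g : Matrix (Fin n) (Fin n) ℤ) r k ≠ 0
        · obtain ⟨r, hr, hr0⟩ := h1
          refine ⟨r, (mem_filter.1 hr).2, fun i hi hir => by_contra fun h0 => h ?_⟩
          have hiR : i ∈ R := mem_filter.2 ⟨mem_univ _, hi⟩
          rcases le_total ((↑g : Matrix (Fin n) (Fin n) ℤ) r k).natAbs ((↑g : Matrix (Fin n) (Fin n) ℤ) i k).natAbs with h2 | h2
          · exact ⟨i, hiR, r, hr, hir, hr0, h2⟩
          · exact ⟨r, hr, i, hiR, hir.symm, h0, h2⟩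
        · push Not at h1
          exact ⟨k, le_rfl, fun i hi _ => h1 i (mem_filter.2 ⟨mem_univ _, hi⟩)⟩
  obtain ⟨e₀, he₀, hg₀, r, hrk, hr⟩ := red _ g hg le_rfl
  -- the diagonal entry becomes one
  have one : ∃ e ∈ H, Cleared k (e * g) ∧ (↑(e * g) : Matrix (Fin n) (Fin n) ℤ) k k = 1 := by
    set g₀ := e₀ * g
    have hu := unit_of_alone hg₀ hr
    by_cases hrk' : r = k
    · subst hrk'
      rcases hu with h1 | h1
      · exact ⟨e₀, he₀, hg₀, h1⟩
      by_cases hex : ∃ l : Fin n, r < l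
      · obtain ⟨l, hl⟩ := hex
        refine ⟨elem hl.ne 2 * elem hl.ne' (-1) * e₀, mul_mem (mul_mem (hH _ _ _ _) (hH _ _ _ _)) he₀,
          ?_, ?_⟩
        · simp only [mul_assoc]
          exact (hg₀.elem_mul hl.ne' le_rfl _).elem_mul hl.ne (Fin.le_def.1 hl.le) _
        · rw [mul_assoc, mul_assoc, elem_mul_apply, if_pos rfl, elem_mul_apply, if_neg hl.ne,
            elem_mul_apply, if_pos rfl, h1, hr l hl.le hl.ne']
          norm_num
      · push Not at hex
        refine ⟨e₀, he₀, hg₀, ?_⟩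
        have ht : ((↑g₀ : Matrix (Fin n) (Fin n) ℤ)).BlockTriangular id := fun i j hij => by
          rw [hg₀ j (lt_of_lt_of_le hij (hex i)) i, if_neg (ne_of_gt (show j < i from hij))]
        have hd := g₀.2
        rw [det_of_isUpperTriangular ht, ← mul_prod_erase _ _ (mem_univ r),
          prod_eq_one fun j hj => ?_, mul_one] at hd
        · exact hd
        · rw [hg₀ j (lt_of_le_of_ne (hex j) (Fin.val_ne_of_ne (mem_erase.1 hj).1)) j, if_pos rfl]
    · refine ⟨elem (Ne.symm hrk') ((↑g₀ : Matrix (Fin n) (Fin n) ℤ) r k) * e₀, mul_mem (hH _ _ _ _) he₀, ?_, ?_⟩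
      · rw [mul_assoc]; exact hg₀.elem_mul _ (Fin.le_def.1 hrk) _
      · rw [mul_assoc, elem_mul_apply, if_pos rfl, hr k le_rfl (Ne.symm hrk')]
        rcases hu with h1 | h1 <;> rw [h1] <;> norm_num
  -- the other entries vanish
  obtain ⟨e₁, he₁, hg₁, h1⟩ := one
  have clear : ∀ A : Finset (Fin n), k ∉ A → ∃ e ∈ H, Cleared k (e * g) ∧
      (↑(e * g) : Matrix (Fin n) (Fin n) ℤ) k k = 1 ∧ ∀ i ∈ A, (↑(e * g) : Matrix (Fin n) (Fin n) ℤ) i k = 0 := by
    intro A
    induction A using Finset.induction_on with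
    | empty => exact fun _ => ⟨e₁, he₁, hg₁, h1, by simp⟩
    | @insert a A haA ihA =>
      intro hk
      obtain ⟨e, he, hc, hkk, hA⟩ := ihA fun h => hk (mem_insert_of_mem h)
      have hak : a ≠ k := fun h => hk (h ▸ mem_insert_self a A)
      refine ⟨elem hak (-(↑(e * g) : Matrix (Fin n) (Fin n) ℤ) a k) * e, mul_mem (hH _ _ _ _) he, ?_, ?_, ?_⟩
      · rw [mul_assoc]; exact hc.elem_mul _ le_rfl _
      · rw [mul_assoc, elem_mul_apply, if_neg hak.symm, hkk]
      · intro i hi
        rw [mul_assoc, elem_mul_apply]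
        rcases mem_insert.1 hi with rfl | hi
        · rw [if_pos rfl, hkk]; ring
        · rw [if_neg fun h : i = a => haA (h ▸ hi), hA i hi]
  obtain ⟨e, he, hc, hkk, hz⟩ := clear (univ.erase k) (notMem_erase k univ)
  refine ⟨e, he, fun j hj i => ?_⟩
  rcases lt_or_eq_of_le (Nat.lt_succ_iff.1 hj) with hj | hj
  · exact hc j hj i
  · obtain rfl : j = k := Fin.ext hj
    by_cases hi : i = j
    · subst hi; rw [hkk, if_pos rfl]
    · rw [hz i (mem_erase.2 ⟨hi, mem_univ _⟩), if_neg hi]

/-- The elementary matrices generate the integer points. -/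
theorem closure_elementary (n : ℕ) :
    Subgroup.closure {g : SL(n, ℤ) | ∃ i j : Fin n, i ≠ j ∧
      (g : Matrix (Fin n) (Fin n) ℤ) = transvection i j 1} = ⊤ := by
  set H := Subgroup.closure {g : SL(n, ℤ) | ∃ i j : Fin n, i ≠ j ∧
    (g : Matrix (Fin n) (Fin n) ℤ) = transvection i j 1}
  have hH : ∀ (i j : Fin n) (h : i ≠ j) (t : ℤ), elem h t ∈ H := fun i j h t =>
    elem_mem (H := H) h (Subgroup.subset_closure ⟨i, j, h, rfl⟩) t
  have key : ∀ m ≤ n, ∀ g : SL(n, ℤ), ∃ e ∈ H, Cleared m (e * g) := by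
    intro m
    induction m with
    | zero => exact fun _ g => ⟨1, one_mem _, fun j hj => absurd hj (Nat.not_lt_zero _)⟩
    | succ m ih =>
      intro hm g
      obtain ⟨e, he, hc⟩ := ih (by omega) g
      obtain ⟨e', he', hc'⟩ := exists_cleared H hH ⟨m, hm⟩ hc
      exact ⟨e' * e, mul_mem he' he, by rwa [mul_assoc]⟩
  refine eq_top_iff.2 fun g _ => ?_
  obtain ⟨e, he, hc⟩ := key n le_rfl g
  have h1 : e * g = 1 := Subtype.ext <| Matrix.ext fun i j => (hc j j.2 i).trans (one_apply (i := i) (j := j)).symm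
  rw [eq_inv_of_mul_eq_one_right h1]
  exact inv_mem he

theorem elementary_finite (n : ℕ) : {g : SL(n, ℤ) | ∃ i j : Fin n, i ≠ j ∧
    (g : Matrix (Fin n) (Fin n) ℤ) = transvection i j 1}.Finite := by
  refine (Set.finite_range fun e : {e : Fin n × Fin n // e.1 ≠ e.2} => elem e.2 1).subset
    fun g hg => ?_
  obtain ⟨i, j, hij, hg⟩ := hg
  exact ⟨⟨(i, j), hij⟩, Subtype.ext hg.symm⟩

/-- The integer points are finitely generated. -/
theorem fg_int (n : ℕ) : Group.FG SL(n, ℤ) :=
  Group.fg_iff.2 ⟨_, closure_elementary n, elementary_finite n⟩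

/-- Every Cayley graph of the integer points has a phase. -/
theorem pc_lt_pu_int (h : PhaseSL n) (hn : 2 ≤ n) (s : Set SL(n, ℤ)) (hs : s.Finite)
    (hgen : Subgroup.closure s = ⊤) :
    pc (SimpleGraph.mulCayley s) < pu (SimpleGraph.mulCayley s) := by
  refine (nonuniquePhase_int h hn).2 _ s hs hgen (MonoidHom.id _) Function.injective_id ?_
  rw [MonoidHom.range_eq_top_of_surjective _ Function.surjective_id]; infer_instance

/-- The Cayley graph of the integer points in the elementary matrices has a phase. -/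
theorem pc_lt_pu_int_elementary (h : PhaseSL n) (hn : 2 ≤ n) :
    let S : Set SL(n, ℤ) := {g | ∃ i j : Fin n, i ≠ j ∧ (g : Matrix (Fin n) (Fin n) ℤ) =
      transvection i j 1}
    Subgroup.closure S = ⊤ ∧ pc (SimpleGraph.mulCayley S) < pu (SimpleGraph.mulCayley S) :=
  ⟨closure_elementary n, pc_lt_pu_int h hn _ (elementary_finite n) (closure_elementary n)⟩

end Vale.Agent.P165.EX
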