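import Vale.Agent.P165.EX.Explore

/-!
# Inserting a push: a pivotal edge appears

When `o` reaches the start of a push and its end reaches `y`, but `o` does not reach `y`, open the
closed edges of the push from its last vertex in the cluster of `o` on. Only the first of them
touches that cluster, so it is pivotal in the new configuration. The map has bounded multiplicity
and a bounded cost in weight, so the event has at most a constant times the expected number of
pivotal edges among the pushes.
-/

namespace Vale.Agent.P165.EX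

open Finset FF Gladkov

variable {V : Type} [DecidableEq V]

/-- The edge `e` is pivotal for the open connection of `o` and `y`. -/
def Piv (η : Finset (Sym2 V)) (o y : V) (e : Sym2 V) : Prop :=
  Rch η o y ∧ ¬Rch (η.erase e) o y

/-- The part of a push after its last vertex in the cluster of `o` gives a pivotal edge. -/
theorem exists_insert {P ω : Finset (Sym2 V)} {o y w a : V} (hP : Rch P w a) (hw : Rch ω o w)
    (ha : Rch ω a y) (hn : ¬Rch ω o y) :
    ∃ F ⊆ P, Disjoint F ω ∧ ∃ e ∈ F, Piv (ω ∪ F) o y e := by
  obtain ⟨q⟩ := hP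
  suffices key : ∀ {u x : V} (r : (SimpleGraph.fromEdgeSet (↑P : Set (Sym2 V))).Walk u x),
      (∃ z ∈ r.support, Rch ω o z) → Rch ω x y →
        ∃ F ⊆ P, Disjoint F ω ∧ ∃ e ∈ F, Piv (ω ∪ F) o y e from
    key q ⟨w, q.start_mem_support, hw⟩ ha
  intro u x r
  induction r with
  | @nil u =>
    rintro ⟨z, hz, hoz⟩ hxy
    rw [SimpleGraph.Walk.support_nil, List.mem_singleton] at hz
    exact absurd ((hz ▸ hoz).trans hxy) hn
  | @cons u v x hadj r ih =>
    intro hex hxy
    by_cases hlater : ∃ z ∈ r.support, Rch ω o z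
    · exact ih hlater hxy
    push Not at hlater
    obtain ⟨z, hz, hoz⟩ := hex
    have hu : Rch ω o u := by
      rw [SimpleGraph.Walk.support_cons, List.mem_cons] at hz
      rcases hz with rfl | hz
      · exact hoz
      · exact absurd hoz (hlater z hz)
    obtain ⟨he, hne⟩ := (SimpleGraph.fromEdgeSet_adj _).1 hadj
    set full := (SimpleGraph.Walk.cons hadj r).edges.toFinset
    have hsub : full ⊆ P := fun f hf => by
      have h := (SimpleGraph.Walk.cons hadj r).edges_subset_edgeSet (List.mem_toFinset.1 hf)
      rw [SimpleGraph.edgeSet_fromEdgeSet] at h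
      exact mem_coe.1 h.1
    have heω : s(u, v) ∉ ω := fun h => hlater v r.start_mem_support (hu.trans (rch_edge h))
    have hwalk : Rch (ω ∪ full \ ω) u x :=
      ⟨(SimpleGraph.Walk.cons hadj r).transfer _ fun f hf => by
        have h := (SimpleGraph.Walk.cons hadj r).edges_subset_edgeSet hf
        rw [SimpleGraph.edgeSet_fromEdgeSet] at h ⊢
        exact ⟨mem_coe.2 (by rw [union_sdiff_self_eq_union]
                             exact mem_union_right _ (List.mem_toFinset.2 hf)), h.2⟩⟩
    refine ⟨full \ ω, sdiff_subset.trans hsub, sdiff_disjoint, s(u, v),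
      mem_sdiff.2 ⟨List.mem_toFinset.2 (by simp), heω⟩,
      (rch_mono subset_union_left hu).trans (hwalk.trans (rch_mono subset_union_left hxy)), ?_⟩
    rintro ⟨s⟩
    suffices closed : ∀ {b c : V}
        (_ : (SimpleGraph.fromEdgeSet
          (↑((ω ∪ full \ ω).erase s(u, v)) : Set (Sym2 V))).Walk b c),
        Rch ω o b → Rch ω o c from hn (closed s .rfl)
    intro b c s
    induction s with
    | nil => exact id
    | @cons b d c hbd s ihs =>
      intro hb
      obtain ⟨hbd', -⟩ := (SimpleGraph.fromEdgeSet_adj _).1 hbd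
      obtain ⟨hne', hmem⟩ := mem_erase.1 (mem_coe.1 hbd')
      rcases mem_union.1 hmem with h | h
      · exact ihs (hb.trans (rch_edge h))
      · have hl := List.mem_toFinset.1 (mem_sdiff.1 h).1
        rw [SimpleGraph.Walk.edges_cons, List.mem_cons] at hl
        rcases hl with hl | hl
        · exact absurd hl hne'
        · exact absurd hb (hlater b (r.fst_mem_support_of_mem_edges hl))

/-- Opening a set of closed edges costs at most `p` to its size. -/
theorem avg_open_le {α : Type} [DecidableEq α] {E F : Finset α} (hF : F ⊆ E) {p : ℝ} (h0 : 0 < p)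
    (h1 : p ≤ 1) (g : Finset α → ℝ) (hg : ∀ η, 0 ≤ g η) :
    avg E p (fun η => ind (Disjoint F η) * g (η ∪ F)) ≤ p⁻¹ ^ F.card * avg E p g := by
  have hR : 0 ≤ avg (E \ F) p fun θ => g (θ ∪ F) := avg_nonneg _ h0.le h1 fun θ _ => hg _
  have closed : avg E p (fun η => ind (Disjoint F η) * g (η ∪ F)) ≤
      avg (E \ F) p fun θ => g (θ ∪ F) := by
    calc avg E p (fun η => ind (Disjoint F η) * g (η ∪ F))
        = avg E p fun η => ind (η ∩ F = ∅) * g (η \ F ∪ F) := avg_congr E p fun η _ => by
          rw [sdiff_union_self_eq_union, ← disjoint_iff_inter_eq_empty, disjoint_comm]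
      _ = avg F p (fun x => ind (x = ∅)) * avg (E \ F) p fun θ => g (θ ∪ F) :=
          avg_split hF p (fun x => ind (x = ∅)) fun θ => g (θ ∪ F)
      _ ≤ _ := mul_le_of_le_one_left hR
          ((avg_mono F h0.le h1 fun η _ => ind_le_one _).trans_eq (avg_one F p))
  have opened : p ^ F.card * avg (E \ F) p (fun θ => g (θ ∪ F)) ≤ avg E p g := by
    rw [← avg_forced hF p fun θ => g (θ ∪ F)]
    refine avg_mono E h0.le h1 fun η _ => ?_
    by_cases h : F ⊆ η
    · rw [if_pos h, sdiff_union_of_subset h]
    · rw [if_neg h]; exact hg η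
  refine closed.trans ?_
  rw [inv_pow, inv_mul_eq_div, le_div_iff₀ (pow_pos h0 _), mul_comm]
  exact opened

variable {κ : Type}

/-- The number of pivotal edges in a set. -/
noncomputable def pivCount (S : Finset (Sym2 V)) (o y : V) (η : Finset (Sym2 V)) : ℝ :=
  ∑ e ∈ S, ind (Piv η o y e)

/-- The insertion bound: pushes of at most `m` edges, each edge in at most `M` of them. -/
theorem insert_le (E : Finset (Sym2 V)) {p : ℝ} (h0 : 0 < p) (h1 : p ≤ 1) (o y : V) (Z : Finset κ)
    (z a : κ → V) (push : κ → Finset (Sym2 V)) {m M : ℕ} (hP : ∀ i ∈ Z, push i ⊆ E)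
    (hm : ∀ i ∈ Z, (push i).card ≤ m) (hjoin : ∀ i ∈ Z, Rch (push i) (z i) (a i))
    (hM : ∀ e, (Z.filter fun i => e ∈ push i).card ≤ M) (A : Finset (Sym2 V) → Prop)
    (hA : ∀ ω, ω ⊆ E → A ω → ∃ i ∈ Z, Rch ω o (z i) ∧ Rch ω (a i) y) :
    avg E p (fun ω => ind (A ω)) ≤ Gladkov.tau E p o y +
      M * (2 / p) ^ m * avg E p (pivCount (Z.biUnion push) o y) := by
  have hcnn : ∀ (S : Finset (Sym2 V)) η, 0 ≤ pivCount S o y η := fun S η =>
    sum_nonneg fun _ _ => ind_nonneg _
  set c := fun i => avg E p (pivCount (push i) o y)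
  calc avg E p (fun ω => ind (A ω))
      ≤ avg E p fun ω => ind (Rch ω o y) + ∑ i ∈ Z, ∑ F ∈ (push i).powerset,
          ind (Disjoint F ω) * pivCount F o y (ω ∪ F) := avg_mono E h0.le h1 fun ω hω => by
        have nn : ∀ i ∈ Z, ∀ F ∈ (push i).powerset,
            0 ≤ ind (Disjoint F ω) * pivCount F o y (ω ∪ F) :=
          fun i _ F _ => mul_nonneg (ind_nonneg _) (hcnn _ _)
        by_cases hy : Rch ω o y
        · rw [show ind (Rch ω o y) = 1 from if_pos hy]
          exact (ind_le_one _).trans
            (le_add_of_nonneg_right (sum_nonneg fun i hi => sum_nonneg (nn i hi)))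
        refine le_trans ?_ (le_add_of_nonneg_left (ind_nonneg _))
        by_cases hAω : A ω
        · obtain ⟨i, hi, hz, ha⟩ := hA ω hω hAω
          obtain ⟨F, hF, hd, e, he, hpiv⟩ := exists_insert (hjoin i hi) hz ha hy
          refine le_trans ?_ (single_le_sum (fun j hj => sum_nonneg (nn j hj)) hi)
          refine le_trans ?_ (single_le_sum (nn i hi) (mem_powerset.2 hF))
          rw [show ind (Disjoint F ω) = 1 from if_pos hd, one_mul,
            show ind (A ω) = 1 from if_pos hAω, ← show ind (Piv (ω ∪ F) o y e) = 1 from if_pos hpiv]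
          exact single_le_sum (f := fun e => ind (Piv (ω ∪ F) o y e)) (fun _ _ => ind_nonneg _) he
        · rw [show ind (A ω) = 0 from if_neg hAω]
          exact sum_nonneg fun i hi => sum_nonneg (nn i hi)
    _ ≤ Gladkov.tau E p o y + ∑ i ∈ Z, (2 / p) ^ m * c i := by
        rw [avg_add, avg_sum]
        refine add_le_add le_rfl (sum_le_sum fun i hi => ?_)
        rw [avg_sum]
        calc ∑ F ∈ (push i).powerset,
              avg E p (fun ω => ind (Disjoint F ω) * pivCount F o y (ω ∪ F))
            ≤ ∑ F ∈ (push i).powerset, p⁻¹ ^ m * c i := by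
              refine sum_le_sum fun F hF => ?_
              rw [mem_powerset] at hF
              refine (avg_open_le (hF.trans (hP i hi)) h0 h1 _ (hcnn F)).trans ?_
              exact mul_le_mul (pow_le_pow_right₀ ((one_le_inv₀ h0).2 h1)
                  ((card_le_card hF).trans (hm i hi)))
                (avg_mono E h0.le h1 fun η _ =>
                  sum_le_sum_of_subset_of_nonneg hF fun _ _ _ => ind_nonneg _)
                (avg_nonneg E h0.le h1 fun η _ => hcnn _ η) (by positivity)
          _ ≤ _ := by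
              rw [sum_const, card_powerset, nsmul_eq_mul, ← mul_assoc]
              refine mul_le_mul_of_nonneg_right ?_ (avg_nonneg E h0.le h1 fun η _ => hcnn _ η)
              rw [div_eq_mul_inv, mul_pow, Nat.cast_pow, Nat.cast_ofNat]
              exact mul_le_mul_of_nonneg_right (pow_le_pow_right₀ one_le_two (hm i hi))
                (by positivity)
    _ ≤ _ := by
        rw [← mul_sum, mul_assoc, mul_left_comm]
        refine add_le_add le_rfl (mul_le_mul_of_nonneg_left ?_ (by positivity))
        rw [← avg_sum, ← avg_mul]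
        refine avg_mono E h0.le h1 fun η _ => ?_
        classical
        calc ∑ i ∈ Z, pivCount (push i) o y η
            = ∑ e ∈ Z.biUnion push,
                ((Z.filter fun i => e ∈ push i).card : ℝ) * ind (Piv η o y e) := by
              simp only [pivCount]
              rw [sum_comm' (t' := Z.biUnion push) (s' := fun e => Z.filter fun i => e ∈ push i)
                fun i e => by simp only [mem_biUnion, mem_filter]; tauto]
              exact sum_congr rfl fun e _ => by rw [sum_const, nsmul_eq_mul]
          _ ≤ (M : ℝ) * ∑ e ∈ Z.biUnion push, ind (Piv η o y e) := by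
              rw [mul_sum]
              exact sum_le_sum fun e _ =>
                mul_le_mul_of_nonneg_right (Nat.cast_le.2 (hM e)) (ind_nonneg _)

/-- Exploration then insertion: pushes without any condition on their edges carry at most `32 B`
times the connection plus the pivotal edges among them, and twice the loss through the cluster. -/
theorem explore_insert_le {E R : Finset (Sym2 V)} (hR : R ⊆ E) {p : ℝ} (h0 : 0 < p) (h1 : p ≤ 1)
    (o y : V) (z a : κ → V) (push : κ → Finset (Sym2 V)) (Z : Finset κ) {m M : ℕ} {B : ℝ}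
    (hB : 0 ≤ B) {W : Finset V} (hW : ∀ e ∈ R, ∀ v ∈ e, v ∈ W) (hP : ∀ i ∈ Z, push i ⊆ E)
    (hm : ∀ i ∈ Z, (push i).card ≤ m) (hjoin : ∀ i ∈ Z, Rch (push i) (z i) (a i))
    (hM : ∀ e, (Z.filter fun i => e ∈ push i).card ≤ M)
    (hz : ∀ i ∈ Z, ∑ j ∈ Z, Gladkov.tau E p (z i) (z j) ≤ B)
    (ha : ∀ i ∈ Z, ∑ j ∈ Z, Gladkov.tau E p (a i) (a j) ≤ B) :
    ∑ i ∈ Z, Gladkov.tau R p o (z i) * Gladkov.tau E p (a i) y ≤
      32 * B * (Gladkov.tau E p o y +
        M * (2 / p) ^ m * avg E p (pivCount (Z.biUnion push) o y)) +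
      2 * ∑ i ∈ Z, ∑ w ∈ W,
        both R p o (z i) w * (Gladkov.tau E p (a i) w * Gladkov.tau E p w y) := by
  have h := explore_exists_le (k := 0) hR h0.le h1 o y z a (fun _ => ∅) Z hB hW
    (fun _ _ => empty_subset _) (fun _ _ => le_of_eq card_empty) hz ha
  simp only [mul_zero, pow_zero, one_mul, mul_one] at h
  refine h.trans (add_le_add (mul_le_mul_of_nonneg_left ?_ (by linarith)) le_rfl)
  refine insert_le E h0 h1 o y Z z a push hP hm hjoin hM _ fun ω _ hω => ?_
  obtain ⟨i, hi, hr, -, hc⟩ := hω
  exact ⟨i, hi, rch_mono inter_subset_left hr, rch_mono sdiff_subset hc⟩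

end Vale.Agent.P165.EX
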