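import Vale.Agent.P165.EX.Phase
import Vale.Agent.P165.Pad.Main

/-!
# Actions with finite stabilisers

A torsion free subgroup of finite index acts freely whenever the group acts with finite stabilisers,
and still with finitely many orbits. The elements of `SL(n, ℤ)` congruent to one modulo three form
such a subgroup.
-/

namespace Vale.Agent.P165.EX

open Finset
open scoped MatrixGroups Matrix.Norms.Elementwise

/-- Every connected locally finite graph with an action with finite stabilisers and finitely many
orbits has a nonuniqueness phase. -/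
def PhaseProper (Γ : Type) [Group Γ] : Prop :=
  ∀ (V : Type) (G : SimpleGraph V), G.Connected → (∀ v, (G.neighborSet v).Finite) →
    ∀ Φ : Γ →* (G ≃g G), (∀ v, {g | Φ g v = v}.Finite) →
      ∀ R : Finset V, (∀ v, ∃ g, Φ g v ∈ R) → pc G < pu G

/-- A torsion free subgroup of finite index with a phase gives the phase for proper actions. -/
theorem phaseProper_of_subgroup {Γ : Type} [Group Γ] (H : Subgroup Γ) [H.FiniteIndex]
    (htf : ∀ h : H, IsOfFinOrder h → h = 1) (hH : PhaseQT H) : PhaseProper Γ := by
  classical
  intro V G hc hf Φ hfin R cover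
  have : Fintype (Γ ⧸ H) := Subgroup.fintypeQuotientOfFiniteIndex
  refine hH V G hc hf (Φ.comp H.subtype) (fun h v hv => htf h ?_)
    ((univ ×ˢ R).image fun q : (Γ ⧸ H) × V => Φ q.1.out⁻¹ q.2) fun v => ?_
  · have key : ∀ m : ℕ, Φ ((h : Γ) ^ m) v = v := by
      intro m
      induction m with
      | zero => simp
      | succ m ih =>
        rw [pow_succ, map_mul, RelIso.mul_apply]
        rw [show Φ (h : Γ) v = v from hv]
        exact ih
    refine Submonoid.isOfFinOrder_coe.1 (finite_powers.1 ((hfin v).subset ?_))
    rintro _ ⟨m, rfl⟩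
    exact key m
  · obtain ⟨g, hg⟩ := cover v
    refine ⟨⟨(QuotientGroup.mk g : Γ ⧸ H).out⁻¹ * g, QuotientGroup.eq.1 (Quotient.out_eq _)⟩,
      mem_image.2 ⟨(QuotientGroup.mk g, Φ g v), mem_product.2 ⟨mem_univ _, hg⟩, ?_⟩⟩
    simp [map_mul, RelIso.mul_apply]

/-! ### Congruence modulo three -/

/-- An integer matrix with trivial power and congruent to one modulo three is one. -/
theorem eq_one_of_congr_three {n : ℕ} (A : Matrix (Fin n) (Fin n) ℤ) {q : ℕ} (hq : q.Prime)
    (hA : A ^ q = 1) (h3 : ∀ i j, (3 : ℤ) ∣ (A - 1) i j) : A = 1 := by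
  set X := A - 1 with hX
  have key : ∀ a : ℕ, ∃ Y : Matrix (Fin n) (Fin n) ℤ, X = (3 : ℤ) ^ (a + 1) • Y := by
    intro a
    induction a with
    | zero =>
      choose Y hY using h3
      exact ⟨Matrix.of Y, by ext i j; simpa using hY i j⟩
    | succ a ih =>
      obtain ⟨Y, hY⟩ := ih
      suffices h : ∀ i j, (3 : ℤ) ∣ Y i j by
        choose Z hZ using h
        refine ⟨Matrix.of Z, ?_⟩
        ext i j
        rw [hY, Matrix.smul_apply, Matrix.smul_apply, Matrix.of_apply, smul_eq_mul, smul_eq_mul,
          hZ i j]
        ring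
      set c : ℤ := (3 : ℤ) ^ (a + 1) with hc
      have hc0 : c ≠ 0 := pow_ne_zero _ (by norm_num)
      have hc3 : c = 3 * (3 : ℤ) ^ a := by rw [hc, pow_succ']
      have hA' : A = 1 + X := by rw [hX]; abel
      by_cases h : q = 3
      · subst h
        have e : c • ((3 : ℤ) • Y) + c • (c • ((3 : ℤ) • (Y * Y) + c • (Y * Y * Y))) = 0 := by
          have e1 : (1 + X) ^ 3 = 1 + ((3 : ℤ) • X + ((3 : ℤ) • (X * X) + X * X * X)) := by
            simp only [zsmul_eq_mul]
            push_cast
            noncomm_ring
          rw [← hA', hA, eq_comm, add_eq_left, hY] at e1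
          simp only [smul_mul_assoc, mul_smul_comm, smul_smul, smul_add] at e1 ⊢
          rw [← e1]
          ring_nf
        rw [← smul_add, smul_eq_zero] at e
        intro i j
        have e2 := congrFun (congrFun (e.resolve_left hc0) i) j
        simp only [Matrix.add_apply, Matrix.smul_apply, smul_eq_mul, Matrix.zero_apply, hc3] at e2
        refine ⟨-((3 : ℤ) ^ a * ((Y * Y) i j + (3 : ℤ) ^ a * (Y * Y * Y) i j)), ?_⟩
        linarith
      · have e : ∀ m : ℕ, ∃ W, (1 + X) ^ m = 1 + (m : ℤ) • X + (c * c) • W := by
          intro m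
          induction m with
          | zero => exact ⟨0, by simp⟩
          | succ m ih =>
            obtain ⟨W, hW⟩ := ih
            refine ⟨(m : ℤ) • (Y * Y) + W * (1 + X), ?_⟩
            rw [pow_succ, hW]
            push_cast
            simp only [add_mul, one_mul, smul_mul_assoc, mul_add, mul_one, add_smul,
              smul_add, hY, mul_smul_comm, smul_smul]
            ring_nf
            abel
        obtain ⟨W, hW⟩ := e q
        rw [← hA', hA, eq_comm, add_assoc, add_eq_left, hY] at hW
        rw [smul_smul, mul_comm (q : ℤ), ← smul_smul, ← smul_smul c c, ← smul_add,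
          smul_eq_zero] at hW
        intro i j
        have e2 := congrFun (congrFun (hW.resolve_left hc0) i) j
        simp only [Matrix.add_apply, Matrix.smul_apply, smul_eq_mul, Matrix.zero_apply, hc3] at e2
        have h3q : (3 : ℤ) ∣ (q : ℤ) * Y i j :=
          ⟨-((3 : ℤ) ^ a * W i j), by linarith⟩
        refine (Int.Prime.dvd_mul' Nat.prime_three h3q).resolve_left fun hd => h ?_
        exact ((Nat.prime_dvd_prime_iff_eq Nat.prime_three hq).1 (Int.natCast_dvd_natCast.1 hd)).symm
  refine sub_eq_zero.1 (show X = 0 from ?_)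
  ext i j
  obtain ⟨Y, hY⟩ := key (X i j).natAbs
  by_contra h0
  have hd : (3 : ℤ) ^ ((X i j).natAbs + 1) ∣ X i j :=
    ⟨Y i j, by conv_lhs => rw [hY]; simp⟩
  have h1 := Nat.le_of_dvd (Int.natAbs_pos.2 h0) (Int.natAbs_dvd_natAbs.2 hd)
  rw [Int.natAbs_pow] at h1
  exact absurd h1 (not_le.2 (((X i j).natAbs.lt_succ_self).trans (Nat.lt_pow_self (by norm_num))))

/-- The elements congruent to one modulo three. -/
noncomputable def congThree (n : ℕ) : Subgroup SL(n, ℤ) :=
  (Matrix.SpecialLinearGroup.map (n := Fin n) (Int.castRingHom (ZMod 3))).ker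

instance (n : ℕ) : (congThree n).FiniteIndex := by
  unfold congThree; infer_instance

/-- There is no torsion modulo three. -/
theorem congThree_torsionFree {n : ℕ} (h : congThree n) (hh : IsOfFinOrder h) : h = 1 := by
  obtain ⟨m, hm, he⟩ := isOfFinOrder_iff_pow_eq_one.1 hh
  induction m using Nat.strong_induction_on generalizing h with
  | _ m ih =>
    rcases (Nat.succ_le_of_lt hm).eq_or_lt with h1 | h1
    · rw [← he, ← h1, pow_one]
    set q := m.minFac
    have hq : q.Prime := Nat.minFac_prime (by omega)
    have hlt : m / q < m := Nat.div_lt_self hm hq.one_lt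
    have hpos : 0 < m / q := Nat.div_pos (Nat.minFac_le hm) hq.pos
    refine ih (m / q) hlt h hh hpos ?_
    have hpow : (h ^ (m / q)) ^ q = 1 := by
      rw [← pow_mul, Nat.div_mul_cancel (Nat.minFac_dvd m), he]
    set g : congThree n := h ^ (m / q)
    refine Subtype.ext (Subtype.ext (eq_one_of_congr_three _ hq ?_ fun i j => ?_))
    · simpa using congrArg (fun x : congThree n => ((x : SL(n, ℤ)) : Matrix (Fin n) (Fin n) ℤ)) hpow
    · have hg : Matrix.SpecialLinearGroup.map (n := Fin n) (Int.castRingHom (ZMod 3))
          (g : SL(n, ℤ)) = 1 := MonoidHom.mem_ker.1 g.2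
      have e := congrArg (fun x : SL(n, ZMod 3) => (x : Matrix (Fin n) (Fin n) (ZMod 3)) i j) hg
      simp only [Matrix.SpecialLinearGroup.map_apply_coe, RingHom.mapMatrix_apply,
        Matrix.map_apply, Matrix.SpecialLinearGroup.coe_one] at e
      refine (ZMod.intCast_zmod_eq_zero_iff_dvd _ 3).1 ?_
      rw [Matrix.sub_apply, Int.cast_sub, sub_eq_zero]
      refine e.trans ?_
      simp [Matrix.one_apply]

open Matrix in
/-- A set closed under the transvections by multiples of a nonzero integer and containing one is
Zariski dense in characteristic zero. -/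
theorem zariskiDense_of_multiples {k : Type} [Field k] [CharZero k] {n : ℕ} (hn : 2 ≤ n) (d : ℤ)
    (hd : d ≠ 0) (S : Set (Matrix (Fin n) (Fin n) k)) (h1 : (1 : Matrix (Fin n) (Fin n) k) ∈ S)
    (hT : ∀ g ∈ S, ∀ p q : Fin n, p ≠ q → ∀ t : ℤ, transvection p q ((d * t : ℤ) : k) * g ∈ S) :
    SL.ZariskiDense S := by
  have : Nontrivial (Fin n) := Fin.nontrivial_iff_two_le.2 hn
  -- the points at which every polynomial vanishing on `S` vanishes
  set Cl : Set (Matrix (Fin n) (Fin n) k) := {g | ∀ f : MvPolynomial (Fin n × Fin n) k,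
    (∀ a ∈ S, MvPolynomial.eval (fun e => a e.1 e.2) f = 0) →
      MvPolynomial.eval (fun e => g e.1 e.2) f = 0}
  have hdense : SL.ZariskiDense Cl := by
    refine SL.zariskiDense_of_transvections (Int.castRingHom k) Int.cast_injective Cl
      (fun f hf => hf 1 h1) fun g hg p q hpq t f hf => ?_
    let f' : MvPolynomial (Fin n × Fin n) k := MvPolynomial.aeval (fun e : Fin n × Fin n =>
      MvPolynomial.X e + MvPolynomial.C (if e.1 = p then (Int.castRingHom k t) else 0) *
        MvPolynomial.X (q, e.2)) f
    have entry : ∀ (a : Matrix (Fin n) (Fin n) k) (c : k) (e : Fin n × Fin n),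
        (transvection p q c * a) e.1 e.2 =
          a e.1 e.2 + (if e.1 = p then c else 0) * a q e.2 := fun a c e => by
      rcases eq_or_ne e.1 p with he | he <;> simp [he, mul_comm]
    have hf' : ∀ a : Matrix (Fin n) (Fin n) k, MvPolynomial.eval (fun e => a e.1 e.2) f' =
        MvPolynomial.eval (fun e => (transvection p q (Int.castRingHom k t) * a) e.1 e.2) f := by
      intro a
      show MvPolynomial.eval _ (MvPolynomial.aeval _ f) = _
      rw [← MvPolynomial.aeval_eq_eval, ← AlgHom.comp_apply, MvPolynomial.comp_aeval,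
        ← MvPolynomial.aeval_eq_eval]
      refine congrArg (fun F : Fin n × Fin n → k => MvPolynomial.aeval F f) (funext fun e => ?_)
      rw [entry]
      simp
    rw [← hf']
    refine hg f' fun a ha => ?_
    rw [hf']
    -- the polynomial in the parameter vanishes at all multiples
    let P : Polynomial k := MvPolynomial.aeval (fun e : Fin n × Fin n =>
      Polynomial.C (a e.1 e.2) + (if e.1 = p then Polynomial.X else 0) *
        Polynomial.C (a q e.2)) f
    have hP : ∀ c : k,
        P.eval c = MvPolynomial.eval (fun e => (transvection p q c * a) e.1 e.2) f := by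
      intro c
      rw [show P.eval c = (Polynomial.aeval c) P by simp, ← AlgHom.comp_apply,
        MvPolynomial.comp_aeval, ← MvPolynomial.aeval_eq_eval]
      refine congrArg (fun F : Fin n × Fin n → k => MvPolynomial.aeval F f) (funext fun e => ?_)
      rw [entry]
      split_ifs <;> (simp; try ring)
    have hP0 : P = 0 := Polynomial.eq_zero_of_infinite_isRoot P (Set.Infinite.mono
      (by rintro _ ⟨m, rfl⟩; show P.eval _ = 0; rw [hP]; exact hf _ (hT a ha p q hpq m))
      (Set.infinite_range_of_injective (f := fun m : ℤ => ((d * m : ℤ) : k))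
        fun a b hab => mul_left_cancel₀ hd (Int.cast_injective hab)))
    rw [← hP, hP0, Polynomial.eval_zero]
  exact fun f hf g hg => hdense f (fun a ha => ha f hf) g hg

/-- A phase for dense groups with finite boxes in degree `n` gives it for all proper actions of
the integer points, also those which are not free. -/
theorem phaseProper_int {n : ℕ} (h : PhaseSL n) (hn : 2 ≤ n) : PhaseProper SL(n, ℤ) := by
  refine phaseProper_of_subgroup (congThree n) congThree_torsionFree
    (phaseQT_of_nonuniquePhase (h ℝ _ ((ringHom n (Int.castRingHom ℝ)).comp (congThree n).subtype)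
      (zariskiDense_of_multiples hn 3 (by norm_num) _ ⟨1, by simp⟩ ?_) (subgroup_discrete _)))
  rintro g ⟨g, rfl⟩ p q hpq t
  have hmem : elem hpq (3 * t) ∈ congThree n := by
    refine MonoidHom.mem_ker.2 (Subtype.ext ?_)
    ext i j
    have h3 : (3 : ZMod 3) = 0 := by decide
    show Int.castRingHom (ZMod 3) (Matrix.transvection p q (3 * t) i j) =
      (1 : Matrix (Fin n) (Fin n) (ZMod 3)) i j
    simp only [Matrix.transvection, Matrix.add_apply, Matrix.one_apply, Matrix.single_apply,
      map_add]
    split_ifs <;> simp [h3]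
  refine ⟨⟨_, hmem⟩ * g, ?_⟩
  simp [ringHom_elem]

end Vale.Agent.P165.EX
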