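import Mathlib

/-!
# One scale for all covectors at once

The mass of `n`-tuples with a common witness of depth `t` decreases from at most one. Points
chosen one by one, each escaping a covector that kills the columns chosen so far, have no common
witness much deeper than the depth of the escapes. So among more than `η ^ (-n)` disjoint ranges
of depths one is good: for every covector a single second covector carries, down to the depth
`hi`, all but `η` of the points of depth `lo` at the first.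
-/

namespace Vale.Agent.P165.EX.Scale

open Finset Matrix
open scoped Matrix.Norms.Elementwise

section Abstract

variable {Y W : Type*} (D : ℝ → W → Y → Prop) (next : List Y → W) (T : ℝ)

/-- Each point escapes, at depth `T`, the witness made from the points before it. -/
def Chain : List Y → Prop
  | [] => True
  | y :: l => ¬ D T (next l) y ∧ Chain l

variable (U : Finset Y) (m : Y → ℝ)

open Classical in
/-- The mass of the extensions by `k` points which have a common witness of depth `t`. -/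
noncomputable def pot (t : ℝ) : ℕ → List Y → ℝ
  | 0, l => if ∃ w, ∀ y ∈ l, D t w y then 1 else 0
  | k + 1, l => ∑ y ∈ U, m y * pot t k (y :: l)

theorem pot_nonneg (hm : ∀ y ∈ U, 0 ≤ m y) (t : ℝ) (k : ℕ) (l : List Y) :
    0 ≤ pot D U m t k l := by
  induction k generalizing l with
  | zero => rw [pot]; split_ifs <;> norm_num
  | succ k ih => exact sum_nonneg fun y hy => mul_nonneg (hm y hy) (ih _)

theorem pot_le_one (hm : ∀ y ∈ U, 0 ≤ m y) (hm1 : ∑ y ∈ U, m y ≤ 1) (t : ℝ) (k : ℕ)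
    (l : List Y) : pot D U m t k l ≤ 1 := by
  induction k generalizing l with
  | zero => rw [pot]; split_ifs <;> norm_num
  | succ k ih =>
    exact (sum_le_sum fun y hy => mul_le_of_le_one_right (hm y hy) (ih _)).trans hm1

theorem pot_anti (hm : ∀ y ∈ U, 0 ≤ m y)
    (mono : ∀ ⦃s t : ℝ⦄ ⦃w : W⦄ ⦃y : Y⦄, s ≤ t → D t w y → D s w y) {s t : ℝ} (h : s ≤ t)
    (k : ℕ) (l : List Y) : pot D U m t k l ≤ pot D U m s k l := by
  induction k generalizing l with
  | zero =>
    rw [pot, pot]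
    by_cases hw : ∃ w, ∀ y ∈ l, D t w y
    · obtain ⟨w, h'⟩ := hw
      rw [if_pos ⟨w, h'⟩, if_pos ⟨w, fun y hy => mono h (h' y hy)⟩]
    · rw [if_neg hw]; split_ifs <;> norm_num
  | succ k ih => exact sum_le_sum fun y hy => mul_le_mul_of_nonneg_left (ih _) (hm y hy)

open Classical in
theorem pot_drop (hm : ∀ y ∈ U, 0 ≤ m y)
    (mono : ∀ ⦃s t : ℝ⦄ ⦃w : W⦄ ⦃y : Y⦄, s ≤ t → D t w y → D s w y) {n : ℕ} {lo t η : ℝ}
    (hlt : lo ≤ t) (hη : 0 ≤ η) (v : W)
    (spoil : ∀ l : List Y, l.length = n → Chain D next T l → ∀ w, ∃ y ∈ l, ¬ D t w y)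
    (hv : ∀ w, η ≤ ∑ y ∈ U.filter (fun y => D lo v y ∧ ¬ D T w y), m y)
    (k : ℕ) (l : List Y) (hl : l.length + k = n) (hc : Chain D next T l)
    (hlo : ∀ y ∈ l, D lo v y) : η ^ k ≤ pot D U m lo k l - pot D U m t k l := by
  induction k generalizing l with
  | zero =>
    have hno : ¬ ∃ w, ∀ y ∈ l, D t w y := fun ⟨w, hw⟩ => by
      obtain ⟨y, hy, h⟩ := spoil l (by simpa using hl) hc w
      exact h (hw y hy)
    rw [pot, pot, if_pos ⟨v, hlo⟩, if_neg hno]
    simp
  | succ k ih =>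
    rw [pot, pot, ← sum_sub_distrib]
    simp only [← mul_sub]
    calc η ^ (k + 1) = η * η ^ k := pow_succ' η k
      _ ≤ (∑ y ∈ U.filter (fun y => D lo v y ∧ ¬ D T (next l) y), m y) * η ^ k :=
          mul_le_mul_of_nonneg_right (hv (next l)) (pow_nonneg hη k)
      _ ≤ ∑ y ∈ U.filter (fun y => D lo v y ∧ ¬ D T (next l) y),
            m y * (pot D U m lo k (y :: l) - pot D U m t k (y :: l)) := by
          rw [sum_mul]
          refine sum_le_sum fun y hy => ?_
          obtain ⟨hyU, h1, h2⟩ := mem_filter.1 hy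
          refine mul_le_mul_of_nonneg_left (ih (y :: l) ?_ ⟨h2, hc⟩ ?_) (hm y hyU)
          · simp only [List.length_cons]; omega
          · exact List.forall_mem_cons.2 ⟨h1, hlo⟩
      _ ≤ _ := sum_le_sum_of_subset_of_nonneg (filter_subset _ _) fun y hy _ =>
          mul_nonneg (hm y hy) (sub_nonneg.2 (pot_anti D U m hm mono hlt k _))

open Classical in
/-- One range of depths is good for every witness. -/
theorem exists_range (hm : ∀ y ∈ U, 0 ≤ m y) (hm1 : ∑ y ∈ U, m y ≤ 1)
    (mono : ∀ ⦃s t : ℝ⦄ ⦃w : W⦄ ⦃y : Y⦄, s ≤ t → D t w y → D s w y) (n : ℕ)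
    (lo hi dp : ℕ → ℝ) (hld : ∀ i, lo i ≤ dp i) (hsep : ∀ i, dp i ≤ lo (i + 1))
    (spoil : ∀ i, ∀ l : List Y, l.length = n → Chain D next (hi i) l →
      ∀ w, ∃ y ∈ l, ¬ D (dp i) w y)
    {η : ℝ} (hη : 0 ≤ η) {J : ℕ} (hJ : 1 < (J : ℝ) * η ^ n) :
    ∃ i < J, ∀ v : W, ∃ w : W,
      ∑ y ∈ U.filter (fun y => D (lo i) v y ∧ ¬ D (hi i) w y), m y ≤ η := by
  by_contra hbad
  push Not at hbad
  set F : ℝ → ℝ := fun t => pot D U m t n [] with hF
  have hanti : ∀ s t, s ≤ t → F t ≤ F s := fun s t h => pot_anti D U m hm mono h n []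
  have hdrop : ∀ i < J, η ^ n ≤ F (lo i) - F (dp i) := fun i hi' => by
    obtain ⟨v, hv⟩ := hbad i hi'
    exact pot_drop D next (hi i) U m hm mono (hld i) hη v (spoil i) (fun w => (hv w).le) n []
      (by simp) trivial (by simp)
  have htel : ∀ k, ∑ i ∈ range k, (F (lo i) - F (dp i)) ≤ F (lo 0) - F (lo k) := by
    intro k
    induction k with
    | zero => simp
    | succ k ih =>
      rw [sum_range_succ]
      linarith [hanti _ _ (hsep k)]
  have h1 : (J : ℝ) * η ^ n ≤ ∑ i ∈ range J, (F (lo i) - F (dp i)) := by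
    calc (J : ℝ) * η ^ n = ∑ _i ∈ range J, η ^ n := by simp
      _ ≤ _ := sum_le_sum fun i hi' => hdrop i (mem_range.1 hi')
  have h2 : F (lo 0) ≤ 1 := pot_le_one D U m hm hm1 _ n []
  have h3 : 0 ≤ F (lo J) := pot_nonneg D U m hm _ n []
  linarith [htel J]

end Abstract

section Covectors

variable {k : Type*} [NormedField k] {α : Type*} [Fintype α]

theorem norm_dot_le (φ u : α → k) : ‖φ ⬝ᵥ u‖ ≤ Fintype.card α * (‖φ‖ * ‖u‖) := by
  refine (norm_sum_le _ _).trans ?_
  calc ∑ i, ‖φ i * u i‖ ≤ ∑ _i : α, ‖φ‖ * ‖u‖ := sum_le_sum fun i _ => by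
        rw [norm_mul]
        exact mul_le_mul (norm_le_pi_norm φ i) (norm_le_pi_norm u i) (norm_nonneg _) (norm_nonneg _)
    _ = Fintype.card α * (‖φ‖ * ‖u‖) := by simp [sum_const]

theorem span_induct {us : List (α → k)} {φ u : α → k}
    (hu : u ∈ Submodule.span k {v | v ∈ us}) (h : ∀ v ∈ us, φ ⬝ᵥ v = 0) : φ ⬝ᵥ u = 0 := by
  induction hu using Submodule.span_induction with
  | mem v hv => exact h v hv
  | zero => simp
  | add a b _ _ ha hb => rw [dotProduct_add, ha, hb, add_zero]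
  | smul c a _ ha => rw [dotProduct_smul, ha, smul_zero]

/-- A nonzero covector killing fewer vectors than the dimension. -/
theorem exists_killer (us : List (α → k)) (h : us.length < Fintype.card α) :
    ∃ ψ : α → k, ψ ≠ 0 ∧ ∀ u ∈ us, ψ ⬝ᵥ u = 0 := by
  classical
  have hlt : Submodule.span k {u | u ∈ us} < ⊤ := by
    rw [lt_top_iff_ne_top]
    intro htop
    have h1 : Module.finrank k (Submodule.span k {u | u ∈ us}) ≤ us.length := by
      have hset : {u | u ∈ us} = (us.toFinset : Set (α → k)) := by ext u; simp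
      rw [hset]
      exact (finrank_span_finset_le_card _).trans us.toFinset_card_le
    rw [htop, finrank_top, Module.finrank_fintype_fun_eq_card] at h1
    omega
  obtain ⟨f, hf, hker⟩ := Submodule.exists_le_ker_of_lt_top _ hlt
  have hfeq : ∀ u, (fun i => f (Pi.single i 1)) ⬝ᵥ u = f u := fun u => by
    conv_rhs => rw [← Finset.univ_sum_single u]
    rw [map_sum]
    refine sum_congr rfl fun i _ => ?_
    rw [show (Pi.single i (u i) : α → k) = u i • Pi.single i 1 by
      rw [← Pi.single_smul]; simp, map_smul, smul_eq_mul, mul_comm]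
  refine ⟨fun i => f (Pi.single i 1), fun h0 => hf ?_, fun u hu => ?_⟩
  · exact LinearMap.ext fun u => by rw [← hfeq u, h0]; simp
  · rw [hfeq]
    exact hker (Submodule.subset_span hu)

variable {Y : Type*} (M : Y → Matrix α α k)

/-- A covector is small at depth `t` on a matrix. -/
def Dep (t : ℝ) (φ : {φ : α → k // φ ≠ 0}) (y : Y) : Prop :=
  ‖φ.1 ᵥ* M y‖ ≤ Real.exp (-t) * (‖φ.1‖ * ‖M y‖)

theorem dep_mono ⦃s t : ℝ⦄ ⦃φ : {φ : α → k // φ ≠ 0}⦄ ⦃y : Y⦄ (h : s ≤ t) (hd : Dep M t φ y) :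
    Dep M s φ y :=
  hd.trans (mul_le_mul_of_nonneg_right (Real.exp_le_exp.2 (neg_le_neg h))
    (mul_nonneg (norm_nonneg _) (norm_nonneg _)))

variable [Nonempty α]

open Classical in
/-- A covector killing the given vectors, if there is one. -/
noncomputable def killer (us : List (α → k)) : {φ : α → k // φ ≠ 0} :=
  if h : us.length < Fintype.card α then
    ⟨(exists_killer us h).choose, (exists_killer us h).choose_spec.1⟩
  else ⟨1, one_ne_zero⟩

theorem killer_spec {us : List (α → k)} (h : us.length < Fintype.card α) :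
    ∀ u ∈ us, (killer us).1 ⬝ᵥ u = 0 := by
  classical
  rw [killer, dif_pos h]
  exact (exists_killer us h).choose_spec.2

/-- A column on which a covector is largest. -/
noncomputable def pick (φ : α → k) (y : Y) : α → k :=
  (M y).col (Finite.exists_max fun b => ‖(φ ᵥ* M y) b‖).choose

theorem norm_vecMul_le_pick (φ : α → k) (y : Y) : ‖φ ᵥ* M y‖ ≤ ‖φ ⬝ᵥ pick M φ y‖ :=
  (pi_norm_le_iff_of_nonneg (norm_nonneg _)).2
    (Finite.exists_max fun b => ‖(φ ᵥ* M y) b‖).choose_spec

theorem norm_pick_le (φ : α → k) (y : Y) : ‖pick M φ y‖ ≤ ‖M y‖ :=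
  (pi_norm_le_iff_of_nonneg (norm_nonneg _)).2 fun _ => norm_entry_le_entrywise_sup_norm (M y)

/-- The columns chosen along a list, each for the covector killing those before it. -/
noncomputable def cols : List Y → List (α → k)
  | [] => []
  | y :: l => pick M (killer (cols l)).1 y :: cols l

theorem cols_length (l : List Y) : (cols M l).length = l.length := by
  induction l with
  | nil => rfl
  | cons y l ih => rw [cols, List.length_cons, List.length_cons, ih]

/-- The covector offered to the next point. -/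
noncomputable def next (l : List Y) : {φ : α → k // φ ≠ 0} := killer (cols M l)

theorem escape_lt {T : ℝ} {y : Y} {l : List Y} (h : ¬ Dep M T (next M l) y) :
    Real.exp (-T) * (‖(next M l).1‖ * ‖M y‖) < ‖(next M l).1 ⬝ᵥ pick M (next M l).1 y‖ :=
  (lt_of_not_ge h).trans_le (norm_vecMul_le_pick M _ y)

theorem finrank_cols {T : ℝ} (l : List Y) (hl : l.length ≤ Fintype.card α)
    (hc : Chain (Dep M) (next M) T l) :
    l.length ≤ Module.finrank k (Submodule.span k {u | u ∈ cols M l}) := by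
  induction l with
  | nil => simp
  | cons y l ih =>
    obtain ⟨hy, hc⟩ := hc
    simp only [List.length_cons] at hl
    have hk := killer_spec (us := cols M l) (by rw [cols_length]; omega)
    set u := pick M (killer (cols M l)).1 y
    have hsub : Submodule.span k {v | v ∈ cols M l} ≤ Submodule.span k {v | v ∈ cols M (y :: l)} :=
      Submodule.span_mono fun v hv => List.mem_cons_of_mem _ hv
    have hu : u ∈ Submodule.span k {v | v ∈ cols M (y :: l)} :=
      Submodule.subset_span (by rw [Set.mem_ofPred_eq, cols]; exact List.mem_cons_self)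
    have hnot : u ∉ Submodule.span k {v | v ∈ cols M l} := by
      intro hmem
      have h0 : (killer (cols M l)).1 ⬝ᵥ u = 0 := span_induct hmem hk
      have := escape_lt M hy
      rw [next, h0, norm_zero] at this
      exact absurd this (not_lt.2 (by positivity))
    have := Submodule.finrank_lt_finrank_of_lt (lt_of_le_of_ne hsub fun he => hnot (he ▸ hu))
    have := ih (by omega) hc
    simp only [List.length_cons]
    omega

/-- The loss of one step. -/
noncomputable def loss (α : Type*) [Fintype α] (T : ℝ) : ℝ :=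
  3 * (Fintype.card α + 1) * Real.exp T

theorem adjust {T δ : ℝ} (hT : 0 ≤ T) (hδ : 0 ≤ δ) (l : List Y) (hl : l.length ≤ Fintype.card α)
    (hc : Chain (Dep M) (next M) T l) (φ : α → k)
    (hφ : ∀ y ∈ l, ‖φ ᵥ* M y‖ ≤ δ * (‖φ‖ * ‖M y‖)) :
    ∃ φ' : α → k, (∀ u ∈ cols M l, φ' ⬝ᵥ u = 0) ∧
      ‖φ - φ'‖ ≤ (loss α T ^ l.length - 1) * (δ * ‖φ‖) := by
  induction l with
  | nil => exact ⟨φ, by simp [cols], by simp⟩
  | cons y l ih =>
    obtain ⟨hy, hc⟩ := hc
    simp only [List.length_cons] at hl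
    obtain ⟨φ₁, hk₁, hd₁⟩ := ih (by omega) hc fun z hz => hφ z (List.mem_cons_of_mem _ hz)
    set ψ := (killer (cols M l)).1 with hψ
    set u := pick M ψ y with hu
    have hk := killer_spec (us := cols M l) (by rw [cols_length]; omega)
    have hesc : Real.exp (-T) * (‖ψ‖ * ‖M y‖) < ‖ψ ⬝ᵥ u‖ := escape_lt M hy
    have hne : ψ ⬝ᵥ u ≠ 0 := fun h0 => by
      rw [h0, norm_zero] at hesc
      exact absurd hesc (not_lt.2 (by positivity))
    refine ⟨φ₁ - (φ₁ ⬝ᵥ u / (ψ ⬝ᵥ u)) • ψ, ?_, ?_⟩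
    · rw [cols]
      refine List.forall_mem_cons.2 ⟨?_, fun v hv => ?_⟩
      · rw [sub_dotProduct, smul_dotProduct, smul_eq_mul, ← hψ, ← hu, div_mul_cancel₀ _ hne,
          sub_self]
      · rw [sub_dotProduct, smul_dotProduct, hk₁ v hv, hψ, hk v hv, smul_zero, sub_zero]
    set a : ℝ := Fintype.card α + 1 with ha
    set E : ℝ := loss α T ^ l.length - 1 with hE
    have ha1 : 1 ≤ a := by rw [ha]; simp
    have hexp : 1 ≤ Real.exp T := Real.one_le_exp hT
    have hloss : loss α T = 3 * a * Real.exp T := rfl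
    have hE0 : 0 ≤ E := by
      have : (1 : ℝ) ≤ loss α T := by rw [hloss]; nlinarith
      rw [hE]; linarith [one_le_pow₀ this (n := l.length)]
    set e := δ * ‖φ‖ with he
    have he0 : 0 ≤ e := by positivity
    have hnum : ‖φ₁ ⬝ᵥ u‖ ≤ a * (1 + E) * e * ‖M y‖ := by
      have h1 : ‖φ ⬝ᵥ u‖ ≤ e * ‖M y‖ := by
        have := norm_le_pi_norm (φ ᵥ* M y) (Finite.exists_max fun b => ‖(ψ ᵥ* M y) b‖).choose
        exact (this.trans (hφ y List.mem_cons_self)).trans (le_of_eq (by rw [he]; ring))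
      have h2 : ‖(φ - φ₁) ⬝ᵥ u‖ ≤ (a - 1) * (E * e * ‖M y‖) := by
        rw [show a - 1 = (Fintype.card α : ℝ) by rw [ha]; ring]
        exact (norm_dot_le _ _).trans (mul_le_mul_of_nonneg_left
          (mul_le_mul hd₁ (norm_pick_le M ψ y) (norm_nonneg _) (by positivity)) (Nat.cast_nonneg _))
      have h3 : φ₁ ⬝ᵥ u = φ ⬝ᵥ u - (φ - φ₁) ⬝ᵥ u := by rw [sub_dotProduct]; ring
      rw [h3]
      refine (norm_sub_le _ _).trans ((add_le_add h1 h2).trans ?_)
      have : 0 ≤ e * ‖M y‖ := by positivity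
      nlinarith [mul_nonneg hE0 this, mul_nonneg (sub_nonneg.2 ha1) this]
    have hcoef : ‖(φ₁ ⬝ᵥ u / (ψ ⬝ᵥ u)) • ψ‖ ≤ a * (1 + E) * e * Real.exp T := by
      rw [norm_smul, norm_div, div_mul_eq_mul_div, div_le_iff₀ (norm_pos_iff.2 hne)]
      refine (mul_le_mul_of_nonneg_right hnum (norm_nonneg _)).trans ?_
      calc a * (1 + E) * e * ‖M y‖ * ‖ψ‖
          = a * (1 + E) * e * Real.exp T * (Real.exp (-T) * (‖ψ‖ * ‖M y‖)) := by
            rw [Real.exp_neg]; field_simp
        _ ≤ _ := mul_le_mul_of_nonneg_left hesc.le (by positivity)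
    calc ‖φ - (φ₁ - (φ₁ ⬝ᵥ u / (ψ ⬝ᵥ u)) • ψ)‖
        = ‖(φ - φ₁) + (φ₁ ⬝ᵥ u / (ψ ⬝ᵥ u)) • ψ‖ := by rw [sub_sub_eq_add_sub, add_sub_right_comm]
      _ ≤ E * e + a * (1 + E) * e * Real.exp T := (norm_add_le _ _).trans (add_le_add hd₁ hcoef)
      _ ≤ (loss α T ^ (y :: l).length - 1) * e := by
        rw [List.length_cons, pow_succ, show loss α T ^ l.length = E + 1 by rw [hE]; ring, hloss]
        have hp : 0 ≤ (1 + E) * (a * Real.exp T - 1) :=
          mul_nonneg (by linarith) (by nlinarith)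
        nlinarith [mul_nonneg hp he0, mul_nonneg (show (0:ℝ) ≤ 1 + E by linarith) he0,
          mul_nonneg (mul_nonneg (show (0:ℝ) ≤ 1 + E by linarith) he0) (show 0 ≤ a * Real.exp T by positivity)]

/-- A full chain has no common witness much deeper than its escapes. -/
theorem spoil {T t : ℝ} (hT : 0 ≤ T) (ht : loss α T ^ Fintype.card α * Real.exp (-t) ≤ 1)
    (l : List Y) (hl : l.length = Fintype.card α) (hc : Chain (Dep M) (next M) T l)
    (φ : {φ : α → k // φ ≠ 0}) : ∃ y ∈ l, ¬ Dep M t φ y := by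
  by_contra h
  push Not at h
  obtain ⟨φ', hk, hd⟩ := adjust M hT (Real.exp_nonneg (-t)) l hl.le hc φ.1 h
  have htop : Submodule.span k {u | u ∈ cols M l} = ⊤ := Submodule.eq_top_of_finrank_eq
    (le_antisymm (Submodule.finrank_le _)
      (by rw [Module.finrank_fintype_fun_eq_card, ← hl]; exact finrank_cols M l hl.le hc))
  have h0 : φ' = 0 := dotProduct_eq_zero _ fun u =>
    span_induct (us := cols M l) (htop ▸ Submodule.mem_top) hk
  rw [h0, sub_zero, hl] at hd
  have hp : 0 < ‖φ.1‖ := norm_pos_iff.2 φ.2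
  nlinarith [mul_le_mul_of_nonneg_right ht hp.le, Real.exp_pos (-t), mul_pos (Real.exp_pos (-t)) hp]

theorem exp_bound {T t : ℝ}
    (ht : (Fintype.card α : ℝ) * (T + Real.log (3 * (Fintype.card α + 1))) ≤ t) :
    loss α T ^ Fintype.card α * Real.exp (-t) ≤ 1 := by
  have h : loss α T = Real.exp (T + Real.log (3 * (Fintype.card α + 1))) := by
    rw [Real.exp_add, Real.exp_log (by positivity), loss]; ring
  rw [h, ← Real.exp_nat_mul, ← Real.exp_add, Real.exp_le_one_iff]
  linarith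

open Classical in
/-- Among `J > η ^ (-card α)` ranges one is good for all covectors at once: the points of depth
`lo` at `φ` which are not of depth `hi` at one further covector `φ'` have mass at most `η`. -/
theorem exists_covector_scale (U : Finset Y) (m : Y → ℝ) (hm : ∀ y ∈ U, 0 ≤ m y)
    (hm1 : ∑ y ∈ U, m y ≤ 1) (lo hi : ℕ → ℝ) (hlo : ∀ i, lo i ≤ hi i) (hhi : ∀ i, 0 ≤ hi i)
    (hsep : ∀ i, (Fintype.card α : ℝ) * (hi i + Real.log (3 * (Fintype.card α + 1))) ≤ lo (i + 1))
    {η : ℝ} (hη : 0 ≤ η) {J : ℕ} (hJ : 1 < (J : ℝ) * η ^ Fintype.card α) :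
    ∃ i < J, ∀ φ : α → k, φ ≠ 0 → ∃ φ' : α → k, φ' ≠ 0 ∧
      ∑ y ∈ U.filter (fun y => ‖φ ᵥ* M y‖ ≤ Real.exp (-lo i) * (‖φ‖ * ‖M y‖) ∧
        ¬ ‖φ' ᵥ* M y‖ ≤ Real.exp (-hi i) * (‖φ'‖ * ‖M y‖)), m y ≤ η := by
  set L := Real.log (3 * ((Fintype.card α : ℝ) + 1)) with hL
  have hL0 : 0 ≤ L := Real.log_nonneg (by linarith [(Nat.cast_nonneg _ : (0:ℝ) ≤ Fintype.card α)])
  have hc1 : (1 : ℝ) ≤ Fintype.card α := by exact_mod_cast Fintype.card_pos
  have hle : ∀ i, hi i ≤ (Fintype.card α : ℝ) * (hi i + L) := fun i => by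
    nlinarith [hhi i]
  obtain ⟨i, hiJ, hgood⟩ := exists_range (Dep M) (next M) U m hm hm1 (dep_mono M)
    (Fintype.card α) lo hi (fun i => (Fintype.card α : ℝ) * (hi i + L))
    (fun i => (hlo i).trans (hle i)) hsep
    (fun i l hl hc w => spoil M (hhi i) (exp_bound le_rfl) l hl hc w) hη hJ
  refine ⟨i, hiJ, fun φ hφ => ?_⟩
  obtain ⟨w, hw⟩ := hgood ⟨φ, hφ⟩
  refine ⟨w.1, w.2, le_of_eq_of_le (sum_congr ?_ fun _ _ => rfl) hw⟩
  ext y
  simp [Dep]

omit [Nonempty α] in
/-- A covector repeated as every row of a test matrix keeps its norm on a matrix. -/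
theorem norm_of_row {β : Type*} [Fintype β] [Nonempty β] (φ : α → k) (A : Matrix α α k) :
    ‖Matrix.of (fun _ : β => φ) * A‖ = ‖φ ᵥ* A‖ := by
  refine le_antisymm ((Matrix.norm_le_iff (norm_nonneg _)).2 fun _ b => ?_) ?_
  · exact le_of_eq_of_le (congrArg norm (rfl : _ = (φ ᵥ* A) b)) (norm_le_pi_norm _ b)
  · refine (pi_norm_le_iff_of_nonneg (norm_nonneg _)).2 fun b => ?_
    exact le_of_eq_of_le (congrArg norm (rfl : _ = (Matrix.of (fun _ : β => φ) * A) (Classical.arbitrary β) b))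
      (norm_entry_le_entrywise_sup_norm _)

end Covectors

end Vale.Agent.P165.EX.Scale
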