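import Vale.Agent.P165.EX.Child

/-!
# One good scale for every covector, with one exceptional hyperplane

`U` is a finite set with weights, each point carries a matrix. A covector `φ` is deep at `y` when
all columns of `M y` are almost killed by it, relative to the largest entry. If for every unit `L`
the points deep at `φ` and shallow at `L` had mass above `δ`, a minor built column by column would
give mass `δ ^ n` to the tuples whose largest determinant lies in one window. The windows are
disjoint, so among more than `δ ^ (-n)` of them one serves every covector with a single `L`.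
-/

namespace Vale.Agent.P165.EX.ScaleDet

open Finset Matrix
open scoped Matrix.Norms.Elementwise

variable {k : Type*} [NormedField k] {n : ℕ} {Y : Type*}

/-- The square matrix of the chosen columns of the matrices at a tuple, on the chosen rows. -/
def minor (M : Y → Matrix (Fin n) (Fin n) k) {j : ℕ} (y : Fin j → Y) (i : Fin j → Fin n)
    (I : Fin j → Fin n) : Matrix (Fin j) (Fin j) k :=
  Matrix.of fun a c => M (y a) (I c) (i a)

/-- Some minor of chosen columns is not small. -/
def Big (M : Y → Matrix (Fin n) (Fin n) k) (b : ℝ) (j : ℕ) (y : Fin j → Y) : Prop :=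
  ∃ i I, b * ∏ a, ‖M (y a)‖ ≤ ‖(minor M y i I).det‖

/-- All determinants of chosen columns are small. -/
def Small (M : Y → Matrix (Fin n) (Fin n) k) (t : ℝ) (y : Fin n → Y) : Prop :=
  ∀ i, ‖(minor M y i id).det‖ < t * ∏ a, ‖M (y a)‖

theorem norm_le_vecMul {A B : Matrix (Fin n) (Fin n) k} (h : A * B = 1) (L : Fin n → k) :
    ‖L‖ ≤ n * (‖L ᵥ* A‖ * ‖B‖) := by
  have e : L = (L ᵥ* A) ᵥ* B := by rw [vecMul_vecMul, h, vecMul_one]
  refine (pi_norm_le_iff_of_nonneg (by positivity)).2 fun c => ?_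
  rw [congrFun e c, vecMul, dotProduct]
  refine (norm_sum_le _ _).trans ?_
  refine (sum_le_sum fun r _ => (norm_mul_le _ _).trans (mul_le_mul (norm_le_pi_norm _ r)
    (norm_entry_le_entrywise_sup_norm B) (norm_nonneg _) (norm_nonneg _))).trans ?_
  simp

/-- A deep covector makes every determinant small. -/
theorem norm_det_le_of_deep (M : Y → Matrix (Fin n) (Fin n) k) {ε : ℝ}
    {φ : Fin n → k} (hφ : ‖φ‖ = 1) (y : Fin n → Y)
    (h : ∀ a, ‖φ ᵥ* M (y a)‖ ≤ ε * ‖M (y a)‖) (i : Fin n → Fin n) :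
    ‖(minor M y i id).det‖ ≤ n.factorial * ε * ∏ a, ‖M (y a)‖ := by
  obtain ⟨m, hm⟩ : ∃ m, ‖φ m‖ = 1 := by
    rcases isEmpty_or_nonempty (Fin n) with hn | hn
    · rw [Subsingleton.elim φ 0, norm_zero] at hφ
      exact absurd hφ zero_ne_one
    obtain ⟨m, hm⟩ := Finite.exists_max fun r => ‖φ r‖
    exact ⟨m, le_antisymm ((norm_le_pi_norm φ m).trans hφ.le)
      (hφ.ge.trans ((pi_norm_le_iff_of_nonneg (norm_nonneg _)).2 hm))⟩
  set A := (minor M y i id)ᵀ
  have hd := det_updateRow_sum A m φ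
  have hA : ‖(minor M y i id).det‖ = ‖(A.updateRow m (∑ r, φ r • A r)).det‖ := by
    rw [hd, det_transpose, smul_eq_mul, norm_mul, hm, one_mul]
  rw [hA, det_apply]
  refine (norm_sum_le _ _).trans ?_
  have hper : ∀ σ : Equiv.Perm (Fin n), ‖Equiv.Perm.sign σ •
      ∏ a, A.updateRow m (∑ r, φ r • A r) (σ a) a‖ ≤ ε * ∏ a, ‖M (y a)‖ := fun σ => by
    have hs : ∀ x : k, ‖Equiv.Perm.sign σ • x‖ = ‖x‖ := fun x => by
      rcases Int.units_eq_one_or (Equiv.Perm.sign σ) with e | e <;> simp [e, Units.smul_def]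
    rw [hs, norm_prod]
    have e : ε * ∏ a, ‖M (y a)‖ = ∏ a, ((if σ a = m then ε else 1) * ‖M (y a)‖) := by
      rw [prod_mul_distrib, Equiv.prod_comp σ (fun l => if l = m then ε else 1),
        prod_ite_eq', if_pos (mem_univ m)]
    rw [e]
    refine prod_le_prod (fun a _ => norm_nonneg _) fun a _ => ?_
    rcases eq_or_ne (σ a) m with he | he
    · rw [if_pos he, he, updateRow_self]
      refine le_trans (le_of_eq ?_) ((norm_le_pi_norm _ (i a)).trans (h a))
      simp [A, minor, vecMul, dotProduct, Finset.sum_apply]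
    · rw [if_neg he, one_mul, updateRow_ne he]
      simp only [A, minor, transpose_apply, of_apply]
      exact norm_entry_le_entrywise_sup_norm (M (y a))
  refine (sum_le_sum fun σ _ => hper σ).trans (le_of_eq ?_)
  simp [Fintype.card_perm, mul_assoc]

/-- One more column: a unit covector whose value on it multiplies the largest minor. -/
theorem exists_covector (M : Y → Matrix (Fin n) (Fin n) k) {j : ℕ} (hj : j < n) (y : Fin j → Y)
    {b : ℝ} (hb : 0 < b) (hM : ∀ a, M (y a) ≠ 0) (h : Big M b j y) :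
    ∃ L : Fin n → k, ‖L‖ = 1 ∧ ∀ z : Y, ∀ s : ℝ, 0 ≤ s → s * ‖M z‖ ≤ ‖L ᵥ* M z‖ →
      Big M (b * s) (j + 1) (Fin.snoc y z) := by
  obtain ⟨i, I₀, h0⟩ := h
  have : Nonempty (Fin j → Fin n) := ⟨i⟩
  obtain ⟨I, hI⟩ := Finite.exists_max fun I : Fin j → Fin n => ‖(minor M y i I).det‖
  set D := (minor M y i I).det
  have hD' : b * ∏ a, ‖M (y a)‖ ≤ ‖D‖ := h0.trans (hI I₀)
  have hD : D ≠ 0 := norm_pos_iff.1
    ((mul_pos hb (prod_pos fun a _ => norm_pos_iff.2 (hM a))).trans_le hD')
  have hinj : Function.Injective I := fun c c' hc => by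
    by_contra hne
    exact hD (det_zero_of_column_eq hne fun a => by simp [minor, hc])
  obtain ⟨l, hl⟩ : ∃ l, ∀ c, I c ≠ l := by
    by_contra hc
    push Not at hc
    have := Fintype.card_le_of_surjective I hc
    simp at this
    omega
  set J : Fin (j + 1) → Fin n := Fin.snoc I l with hJ
  have hJinj : Function.Injective J := Fin.snoc_injective_of_injective hinj fun ⟨c, hc⟩ => hl c hc
  set co : Fin (j + 1) → k := fun c =>
    (-1) ^ ((j : ℕ) + (c : ℕ)) * (minor M y i (J ∘ c.succAbove)).det / D with hco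
  set L : Fin n → k := fun r => ∑ c, if J c = r then co c else 0 with hL
  have hco1 : ∀ c, ‖co c‖ ≤ 1 := fun c => by
    rw [hco, norm_div, norm_mul, norm_pow, norm_neg, norm_one, one_pow, one_mul,
      div_le_one (norm_pos_iff.2 hD)]
    exact hI _
  have hLJ : ∀ c, L (J c) = co c := fun c => by
    simp [hL, hJinj.eq_iff]
  have hLl : ‖L l‖ = 1 := by
    have e : l = J (Fin.last j) := by simp [hJ]
    have e2 : J ∘ (Fin.last j).succAbove = I := by
      funext c
      simp [hJ, Fin.succAbove_last]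
    rw [e, hLJ, hco]
    simp only [e2, Fin.val_last, norm_div, norm_mul, norm_pow, norm_neg, norm_one, one_pow, one_mul]
    exact div_self (norm_ne_zero_iff.2 hD)
  have hLle : ‖L‖ ≤ 1 := (pi_norm_le_iff_of_nonneg zero_le_one).2 fun r => by
    by_cases hr : ∃ c, J c = r
    · obtain ⟨c, rfl⟩ := hr
      rw [hLJ]; exact hco1 c
    · rw [show L r = 0 from sum_eq_zero fun c _ => if_neg fun hc => hr ⟨c, hc⟩, norm_zero]
      exact zero_le_one
  refine ⟨L, le_antisymm hLle (hLl ▸ norm_le_pi_norm L l), fun z s hs hz => ?_⟩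
  have : Nonempty (Fin n) := ⟨l⟩
  obtain ⟨col, hcol⟩ := Finite.exists_max fun c => ‖(L ᵥ* M z) c‖
  have hmax : ‖L ᵥ* M z‖ ≤ ‖(L ᵥ* M z) col‖ :=
    (pi_norm_le_iff_of_nonneg (norm_nonneg _)).2 hcol
  refine ⟨Fin.snoc i col, J, ?_⟩
  have hval : (minor M (Fin.snoc y z) (Fin.snoc i col) J).det = D * (L ᵥ* M z) col := by
    rw [det_succ_row _ (Fin.last j)]
    have e : (L ᵥ* M z) col = ∑ c, co c * M z (J c) col := by
      simp only [vecMul, dotProduct, hL, sum_mul, ite_mul, zero_mul]
      rw [sum_comm]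
      simp
    rw [e, mul_sum]
    refine sum_congr rfl fun c _ => ?_
    have esub : (minor M (Fin.snoc y z) (Fin.snoc i col) J).submatrix (Fin.last j).succAbove
        c.succAbove = minor M y i (J ∘ c.succAbove) := by
      ext a a'
      simp [minor, Fin.succAbove_last]
    rw [esub]
    simp only [minor, of_apply, Fin.snoc_last, Fin.val_last, hco]
    field_simp
  rw [hval, norm_mul, Fin.prod_univ_castSucc]
  simp only [Fin.snoc_castSucc, Fin.snoc_last]
  calc b * s * ((∏ a, ‖M (y a)‖) * ‖M z‖) = (b * ∏ a, ‖M (y a)‖) * (s * ‖M z‖) := by ring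
    _ ≤ ‖D‖ * ‖(L ᵥ* M z) col‖ :=
        mul_le_mul hD' (hz.trans hmax) (mul_nonneg hs (norm_nonneg _)) (norm_nonneg _)

open Classical in
/-- One scale that is good for every covector: all but `δ` of the points deep at `φ` are deep at
one hyperplane `L`. -/
theorem exists_scale (U : Finset Y) (μ : Y → ℝ) (hμ : ∀ y ∈ U, 0 ≤ μ y)
    (h1 : ∑ y ∈ U, μ y ≤ 1) (M : Y → Matrix (Fin n) (Fin n) k) (hM : ∀ y ∈ U, M y ≠ 0)
    (a b : ℕ → ℝ) (ha : ∀ i, 0 < a i) (hb : ∀ i, 0 < b i)
    (hab : ∀ i, b i ^ n ≤ (n.factorial + 1) * a i)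
    (hsep : ∀ i, (n.factorial + 1) * a (i + 1) ≤ b i ^ n)
    {δ : ℝ} (hδ : 0 ≤ δ) {J : ℕ} (hJ : 1 < (J : ℝ) * δ ^ n) :
    ∃ i < J, ∀ φ : Fin n → k, ‖φ‖ = 1 → ∃ L : Fin n → k, ‖L‖ = 1 ∧
      ∑ y ∈ U.filter (fun y => ‖φ ᵥ* M y‖ ≤ a i * ‖M y‖ ∧ b i * ‖M y‖ ≤ ‖L ᵥ* M y‖), μ y
        ≤ δ := by
  set w : ∀ {j : ℕ}, (Fin j → Y) → ℝ := fun y => ∏ c, μ (y c)
  set P : ℝ → ℝ := fun t =>
    ∑ y ∈ (Fintype.piFinset fun _ : Fin n => U).filter (Small M t), w y with hP
  have hw : ∀ {j : ℕ} (y : Fin j → Y), y ∈ Fintype.piFinset (fun _ => U) → 0 ≤ w y :=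
    fun y hy => prod_nonneg fun c _ => hμ _ (Fintype.mem_piFinset.1 hy c)
  have hmono : ∀ s t, s ≤ t → P s ≤ P t := fun s t hst => by
    refine sum_le_sum_of_subset_of_nonneg (fun y hy => ?_) fun y hy _ => hw y (mem_filter.1 hy).1
    obtain ⟨hyU, hy⟩ := mem_filter.1 hy
    exact mem_filter.2 ⟨hyU, fun i => (hy i).trans_le
      (mul_le_mul_of_nonneg_right hst (prod_nonneg fun c _ => norm_nonneg _))⟩
  have hP1 : ∀ t, P t ≤ 1 := fun t => by
    refine (sum_le_sum_of_subset_of_nonneg (filter_subset _ _) fun y hy _ => hw y hy).trans ?_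
    rw [← prod_univ_sum (fun _ : Fin n => U) (fun _ y => μ y), prod_const]
    exact pow_le_one₀ (sum_nonneg hμ) h1
  have hP0 : ∀ t, 0 ≤ P t := fun t => sum_nonneg fun y hy => hw y (mem_filter.1 hy).1
  by_contra hbad
  push Not at hbad
  have hdrop : ∀ i < J, δ ^ n ≤ P ((n.factorial + 1) * a i) - P (b i ^ n) := by
    intro i hi
    obtain ⟨φ, hφ, hφL⟩ := hbad i hi
    set B := U.filter (fun y => ‖φ ᵥ* M y‖ ≤ a i * ‖M y‖)
    set T : ∀ j, Finset (Fin j → Y) := fun j =>
      (Fintype.piFinset fun _ : Fin j => B).filter (Big M (b i ^ j) j)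
    have hBU : B ⊆ U := filter_subset _ _
    have key : ∀ j, j ≤ n → δ ^ j ≤ ∑ y ∈ T j, w y := by
      intro j
      induction j with
      | zero =>
        intro _
        have : T 0 = {Fin.elim0} := by
          ext y
          simp only [T, mem_filter, Fintype.mem_piFinset, mem_singleton]
          exact ⟨fun _ => Subsingleton.elim _ _,
            fun _ => ⟨fun c => c.elim0, Fin.elim0, Fin.elim0, by simp [minor]⟩⟩
        rw [this, sum_singleton]
        simp [w]
      | succ j ih =>
        intro hj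
        have hex : ∀ y : Fin j → Y, ∃ L : Fin n → k, y ∈ T j → ‖L‖ = 1 ∧ ∀ z : Y, ∀ s : ℝ,
            0 ≤ s → s * ‖M z‖ ≤ ‖L ᵥ* M z‖ → Big M (b i ^ j * s) (j + 1) (Fin.snoc y z) := by
          intro y
          by_cases hy : y ∈ T j
          · obtain ⟨L, hL⟩ := exists_covector M hj y (pow_pos (hb i) j)
              (fun c => hM _ (hBU (Fintype.mem_piFinset.1 (mem_filter.1 hy).1 c)))
              (mem_filter.1 hy).2
            exact ⟨L, fun _ => hL⟩
          · exact ⟨0, fun h => absurd h hy⟩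
        choose L hL using hex
        set Z : (Fin j → Y) → Finset Y := fun y =>
          B.filter fun z => b i * ‖M z‖ ≤ ‖L y ᵥ* M z‖
        have hZ : ∀ y ∈ T j, δ ≤ ∑ z ∈ Z y, μ z := fun y hy => by
          refine (hφL (L y) (hL y hy).1).le.trans (le_of_eq (sum_congr ?_ fun _ _ => rfl))
          simp only [Z, B, filter_filter]
        calc δ ^ (j + 1) = δ ^ j * δ := pow_succ δ j
          _ ≤ (∑ y ∈ T j, w y) * δ := mul_le_mul_of_nonneg_right (ih (by omega)) hδ
          _ ≤ ∑ y ∈ T j, ∑ z ∈ Z y, w y * μ z := by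
              rw [sum_mul]
              refine sum_le_sum fun y hy => ?_
              rw [← mul_sum]
              exact mul_le_mul_of_nonneg_left (hZ y hy) (hw y (Fintype.mem_piFinset.2 fun c =>
                hBU (Fintype.mem_piFinset.1 (mem_filter.1 hy).1 c)))
          _ = ∑ q ∈ (T j).sigma Z, w (Fin.snoc q.1 q.2 : Fin (j + 1) → Y) := by
              rw [sum_sigma]
              refine sum_congr rfl fun y _ => sum_congr rfl fun z _ => ?_
              simp [w, Fin.prod_univ_castSucc]
          _ ≤ ∑ y ∈ T (j + 1), w y := by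
              rw [← sum_image (f := fun y : Fin (j + 1) → Y => w y)
                (g := fun q : (_ : Fin j → Y) × Y => (Fin.snoc q.1 q.2 : Fin (j + 1) → Y))
                fun q _ q' _ h => ?_]
              · refine sum_le_sum_of_subset_of_nonneg (fun y hy => ?_) fun y hy _ =>
                  hw y (Fintype.mem_piFinset.2 fun c =>
                    hBU (Fintype.mem_piFinset.1 (mem_filter.1 hy).1 c))
                obtain ⟨⟨y, z⟩, hq, rfl⟩ := mem_image.1 hy
                obtain ⟨hy, hz⟩ := mem_sigma.1 hq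
                obtain ⟨hzB, hz⟩ := mem_filter.1 hz
                refine mem_filter.2 ⟨Fintype.mem_piFinset.2 fun c => ?_, ?_⟩
                · refine Fin.lastCases ?_ (fun c => ?_) c
                  · simpa using hzB
                  · simpa using Fintype.mem_piFinset.1 (mem_filter.1 hy).1 c
                · rw [pow_succ]
                  exact (hL y hy).2 z (b i) (hb i).le hz
              · obtain ⟨e1, e2⟩ := Fin.snoc_inj.1 h
                exact Sigma.ext e1 (heq_of_eq e2)
    refine (key n le_rfl).trans ?_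
    rw [le_sub_iff_add_le]
    have hdisj : Disjoint (T n) ((Fintype.piFinset fun _ : Fin n => U).filter (Small M (b i ^ n))) := by
      refine disjoint_left.2 fun y hy hy' => ?_
      obtain ⟨i', I, hI⟩ := (mem_filter.1 hy).2
      have hlt := (mem_filter.1 hy').2 i'
      have hne : (minor M y i' I).det ≠ 0 := norm_pos_iff.1 ((mul_pos (pow_pos (hb i) n)
        (prod_pos fun c _ => norm_pos_iff.2
          (hM _ (Fintype.mem_piFinset.1 (mem_filter.1 hy').1 c)))).trans_le hI)
      have hinj : Function.Injective I := fun c c' hc => by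
        by_contra hne'
        exact hne (det_zero_of_column_eq hne' fun a => by simp [minor, hc])
      have : (minor M y i' I).det = (Equiv.Perm.sign (Equiv.ofBijective I
          (Finite.injective_iff_bijective.1 hinj)) : k) * (minor M y i' id).det := by
        rw [← det_permute']
        rfl
      rw [this, norm_mul] at hI
      rcases Int.units_eq_one_or (Equiv.Perm.sign (Equiv.ofBijective I
        (Finite.injective_iff_bijective.1 hinj))) with e | e <;>
        simp [e] at hI <;> linarith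
    rw [hP]
    simp only
    rw [← sum_union hdisj]
    refine sum_le_sum_of_subset_of_nonneg (fun y hy => ?_) fun y hy _ => hw y (mem_filter.1 hy).1
    rcases mem_union.1 hy with hy | hy
    · have hyB := Fintype.mem_piFinset.1 (mem_filter.1 hy).1
      refine mem_filter.2 ⟨Fintype.mem_piFinset.2 fun c => hBU (hyB c), fun i' => ?_⟩
      refine (norm_det_le_of_deep M hφ y
        (fun c => (mem_filter.1 (hyB c)).2) i').trans_lt ?_
      exact mul_lt_mul_of_pos_right (mul_lt_mul_of_pos_right (lt_add_one _) (ha i))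
        (prod_pos fun c _ => norm_pos_iff.2 (hM _ (hBU (hyB c))))
    · obtain ⟨hyU, hy⟩ := mem_filter.1 hy
      exact mem_filter.2 ⟨hyU, fun i' => (hy i').trans_le
        (mul_le_mul_of_nonneg_right (hab i) (prod_nonneg fun c _ => norm_nonneg _))⟩
  have htel : ∀ m, ∑ i ∈ range m, (P ((n.factorial + 1) * a i) - P (b i ^ n)) ≤
      P ((n.factorial + 1) * a 0) - P ((n.factorial + 1) * a m) := by
    intro m
    induction m with
    | zero => simp
    | succ m ih =>
      rw [sum_range_succ]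
      linarith [hmono _ _ (hsep m)]
  have hlow := sum_le_sum fun i (hi : i ∈ range J) => hdrop i (mem_range.1 hi)
  rw [sum_const, card_range, nsmul_eq_mul] at hlow
  linarith [htel J, hP1 ((n.factorial + 1) * a 0), hP0 ((n.factorial + 1) * a J)]

section defect

open scoped MatrixGroups

variable {K : Type} [NontriviallyNormedField K] {Γ : Type} [Group Γ] (ρ : Γ →* SL(n, K))

open Classical in
/-- One scale that is good for all unit covectors, in terms of defects: all but `δ` of the elements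
with `lo i ≤ defect φ` have defect above `hi i` at one further covector. -/
theorem exists_scale_defect (U : Finset Γ) (μ : Γ → ℝ) (hμ : ∀ g ∈ U, 0 ≤ μ g)
    (h1 : ∑ g ∈ U, μ g ≤ 1) (lo hi : ℕ → ℝ)
    (hlh : ∀ i, lo i ≤ n * hi i + Real.log (n.factorial + 1))
    (hsep : ∀ i, n * hi i + Real.log (n.factorial + 1) ≤ lo (i + 1))
    {δ : ℝ} (hδ : 0 ≤ δ) {J : ℕ} (hJ : 1 < (J : ℝ) * δ ^ n) :
    ∃ i < J, ∀ φ : Fin n → K, ‖φ‖ = 1 → ∃ ψ : Fin n → K, ‖ψ‖ = 1 ∧
      ∑ g ∈ U.filter (fun g => lo i ≤ defect ρ (rowsOf φ) g ∧ defect ρ (rowsOf ψ) g ≤ hi i), μ g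
        ≤ δ := by
  rcases Nat.eq_zero_or_pos n with hn | hn
  · subst hn
    refine ⟨0, Nat.pos_of_ne_zero fun h => ?_, fun φ hφ => ?_⟩
    · rw [h] at hJ; norm_num at hJ
    · rw [Subsingleton.elim φ 0, norm_zero] at hφ
      exact absurd hφ zero_ne_one
  set X : Γ → Matrix (Fin n) (Fin n) K := fun g => (ρ g : Matrix (Fin n) (Fin n) K)
  have hX : ∀ g, 0 < ‖X g‖ := fun g => by
    rw [← norm_cmp_one]
    exact norm_cm_pos ρ hn g
  have hpos : ∀ (φ : Fin n → K), ‖φ‖ = 1 → ∀ g, 0 < ‖φ ᵥ* X g‖ := fun φ hφ g => by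
    refine norm_pos_iff.2 fun h => ?_
    have hg : X g * X g⁻¹ = 1 := by rw [← EX.coe_mul, mul_inv_cancel, EX.coe_one]
    have := norm_le_vecMul hg φ
    rw [h, norm_zero, zero_mul, mul_zero, hφ] at this
    linarith
  have hc : (0 : ℝ) < n.factorial + 1 := by positivity
  obtain ⟨i, hiJ, hgood⟩ := exists_scale U μ hμ h1 X (fun g _ => norm_pos_iff.1 (hX g))
    (fun i => Real.exp (-lo i)) (fun i => Real.exp (-hi i)) (fun i => Real.exp_pos _)
    (fun i => Real.exp_pos _)
    (fun i => by
      rw [← Real.exp_nat_mul, ← Real.exp_log hc, ← Real.exp_add]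
      exact Real.exp_le_exp.2 (by linarith [hlh i]))
    (fun i => by
      rw [← Real.exp_nat_mul, ← Real.exp_log hc, ← Real.exp_add]
      exact Real.exp_le_exp.2 (by linarith [hsep i]))
    hδ hJ
  refine ⟨i, hiJ, fun φ hφ => ?_⟩
  obtain ⟨ψ, hψ, hle⟩ := hgood φ hφ
  refine ⟨ψ, hψ, le_trans (le_of_eq (sum_congr (filter_congr fun g _ => ?_) fun _ _ => rfl)) hle⟩
  rw [defect_rowsOf ρ hn, defect_rowsOf ρ hn]
  simp only [lsize]
  refine and_congr ?_ ?_
  · rw [← Real.log_le_log_iff (hpos φ hφ g) (mul_pos (Real.exp_pos _) (hX g)),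
      Real.log_mul (Real.exp_pos _).ne' (hX g).ne', Real.log_exp]
    constructor <;> intro h <;> linarith
  · rw [← Real.log_le_log_iff (mul_pos (Real.exp_pos _) (hX g)) (hpos ψ hψ g),
      Real.log_mul (Real.exp_pos _).ne' (hX g).ne', Real.log_exp]
    constructor <;> intro h <;> linarith

end defect

end Vale.Agent.P165.EX.ScaleDet
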