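import Vale.Agent.P165.EX.Rows
import Vale.Agent.P165.EX.BallCount
import Vale.Agent.P165.EX.ScaleDet

/-!
# Small rows for dense groups with finite boxes

From a push and the master inequality along a frame: linear volume of the windows, small mass of the
small elements, and, by one good scale for every covector, small mass of the elements with small
cocycle in one of finitely many windows.
-/

namespace Vale.Agent.P165.EX

open Finset Matrix FF
open scoped Matrix.Norms.Elementwise MatrixGroups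

variable {k : Type} [NontriviallyNormedField k] {n : ℕ}
  {Γ O ι : Type} [Group Γ] [DecidableEq Γ] [DecidableEq O] [Fintype ι]
  {G : SimpleGraph (Γ × O)} {nb : Γ × O → ι → Γ × O}

/-- Pushes with small averaged square norm below a parameter. -/
def PushBelow (nb : Γ × O → ι → Γ × O) (o₁ : O) (p : ℝ) : Prop :=
  ∀ ε : ℝ, 0 < ε → ∃ S : Finset Γ, S.Nonempty ∧ ∀ q, p / 2 ≤ q → q < p →
    ∀ X : Finset (Γ × O), ∑ x ∈ X, (∑ g ∈ S, T nb q (g, o₁) x) ^ 2 ≤ (ε * S.card) ^ 2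

/-- The master inequality along one frame set. -/
def MasterAt (nb : Γ × O → ι → Γ × O) (ρ : Γ →* SL(n, k)) (o₁ : O) (p₀ : ℝ) (F : Finset Γ)
    (A : ℝ) : Prop :=
  ∃ C₁ : ℝ, 0 ≤ C₁ ∧ ∀ S : Finset Γ, S.Nonempty → ∃ CS : ℝ, 0 ≤ CS ∧
    ∀ q, p₀ ≤ q → q ≤ 1 → Witness nb q → ∀ ε : ℝ, 0 ≤ ε →
      (∀ X : Finset (Γ × O), ∑ x ∈ X, (∑ g ∈ S, T nb q (g, o₁) x) ^ 2 ≤ (ε * S.card) ^ 2) →
    ∀ U : Finset Γ, (∀ U' : Finset Γ, ∑ g ∈ U', anc nb o₁ q g ≤ 2 * ∑ g ∈ U, anc nb o₁ q g) →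
    ∀ (m : ℕ) (o : O) (W₀ : Finset (Γ × O)), W₀ ⊆ QT.wball nb ((1 : Γ), o) m →
    ∀ r : ℝ, 0 < r → r ≤ 1 → (∀ w ∈ W₀, r ≤ T nb q ((1 : Γ), o) w) →
    ∀ R : Γ → Γ → Γ, (∀ z h, R z h ∈ F ∧ Cand ρ F A (z * R z h * h) z) →
    ∀ Y : Finset Γ, (∀ w ∈ W₀, ∀ g ∈ S, ∀ h ∈ U, w.1 * R w.1 (g * h) * (g * h) ∈ Y) →
      (∑ w ∈ W₀, winT nb q m o w) * ∑ g ∈ U, anc nb o₁ q g ≤
        C₁ * ε * (∑ w ∈ QT.wball nb ((1 : Γ), o) m, winT nb q m o w) *
            ∑ g ∈ U, anc nb o₁ q g +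
          CS * (1 + Real.log (1 / r)) * ∑ y ∈ Y, T nb q ((1 : Γ), o) (y, o₁)

/-- A set that holds half of the anchor mass. -/
theorem rowsExistsHalf [Fintype O] (hl : Labelling G nb) (hinv : Inv G) (o₁ : O) {q : ℝ}
    (h0 : 0 ≤ q) (h1 : q ≤ 1) (hw : Witness nb q) :
    ∃ U : Finset Γ, 1 ≤ ∑ g ∈ U, anc nb o₁ q g ∧
      ∀ U' : Finset Γ, ∑ g ∈ U', anc nb o₁ q g ≤ 2 * ∑ g ∈ U, anc nb o₁ q g := by
  obtain ⟨X, hX⟩ := susceptibility hl hinv h0 h1 hw
  set V := Set.range fun U : Finset Γ => ∑ g ∈ U, anc nb o₁ q g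
  have hV : BddAbove V := ⟨X, by
    rintro _ ⟨U, rfl⟩
    have h := sum_T_le hl h0 h1 ((1 : Γ), o₁) (U.image fun g => (g, o₁)) fun S => hX S _ _
    rw [sum_image fun a _ b _ h => congrArg Prod.fst h] at h
    exact h⟩
  have h1V : (1 : ℝ) ≤ sSup V :=
    (le_of_eq (by simp [anc, T_self h0 h1])).trans (le_csSup hV ⟨{1}, rfl⟩)
  obtain ⟨_, ⟨U₀, rfl⟩, hU₀⟩ :=
    exists_lt_of_lt_csSup ⟨_, Set.mem_range_self (∅ : Finset Γ)⟩
      (show sSup V / 2 < sSup V by linarith)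
  have hle : ∑ g ∈ U₀, anc nb o₁ q g ≤ ∑ g ∈ insert 1 U₀, anc nb o₁ q g :=
    sum_le_sum_of_subset_of_nonneg (subset_insert _ _) fun g _ _ => anc_nonneg o₁ h0 h1 g
  refine ⟨insert 1 U₀, (le_of_eq (by simp [anc, T_self h0 h1])).trans
    (single_le_sum (fun g _ => anc_nonneg o₁ h0 h1 g) (mem_insert_self _ _)), fun U' => ?_⟩
  have := le_csSup hV ⟨U', rfl⟩
  simp only at hU₀ this
  linarith

/-- Changing the first end of an anchor costs a constant. -/
theorem exists_move [Fintype O] (hl : Labelling G nb) (hconn : G.Connected) (o₁ : O) {p₀ : ℝ}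
    (h0 : 0 < p₀) (h1 : p₀ ≤ 1) :
    ∃ Cc : ℝ, 0 ≤ Cc ∧ ∀ q, p₀ ≤ q → q ≤ 1 → ∀ (o : O) (Y : Finset Γ),
      ∑ y ∈ Y, T nb q ((1 : Γ), o) (y, o₁) ≤ Cc * ∑ y ∈ Y, anc nb o₁ q y := by
  set b : O → ℝ := fun o => (T nb p₀ ((1 : Γ), o₁) ((1 : Γ), o))⁻¹
  have hb : ∀ o, 0 ≤ b o := fun o => inv_nonneg.2 (T_nonneg h0.le h1 _ _)
  refine ⟨∑ o, b o, sum_nonneg fun o _ => hb o, fun q hq hq1 o Y => ?_⟩
  rw [mul_sum]
  refine sum_le_sum fun y _ => ?_
  have hq0 : 0 ≤ q := h0.le.trans hq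
  have hpos := T_pos hl hconn h0 h1 ((1 : Γ), o₁) ((1 : Γ), o)
  have e : 1 ≤ (∑ o, b o) * T nb q ((1 : Γ), o₁) ((1 : Γ), o) :=
    (inv_mul_cancel₀ hpos.ne').ge.trans (mul_le_mul
      (single_le_sum (f := b) (fun o _ => hb o) (mem_univ o)) (T_mono h0.le hq hq1 _ _)
      hpos.le (sum_nonneg fun o _ => hb o))
  calc T nb q ((1 : Γ), o) (y, o₁)
      ≤ (∑ o, b o) * T nb q ((1 : Γ), o₁) ((1 : Γ), o) * T nb q ((1 : Γ), o) (y, o₁) :=
        le_mul_of_one_le_left (T_nonneg hq0 hq1 _ _) e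
    _ ≤ _ := by
        rw [mul_assoc]
        exact mul_le_mul_of_nonneg_left (T_trans hl hq0 hq1 _ _ _) (sum_nonneg fun o _ => hb o)

omit [Group Γ] in
/-- Connections inside a window cost at most the power of the window. -/
theorem rowsPowLeT (hl : Labelling G nb) {q : ℝ} (h0 : 0 ≤ q) (h1 : q ≤ 1) {a z : Γ × O} {m : ℕ}
    (hz : z ∈ QT.wball nb a m) : q ^ m ≤ T nb q a z := by
  classical
  obtain ⟨w, hw⟩ := (QT.wball_mem hl).1 hz
  refine (pow_le_pow_of_le_one h0 h1 ?_).trans ((pow_le_tauIn hl w h0 h1).trans (le_T h0 h1 _ a z))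
  exact (List.toFinset_card_le _).trans (by rw [SimpleGraph.Walk.length_edges]; exact hw)

section sizes

variable (ρ : Γ →* SL(n, k))

omit [DecidableEq Γ] in
theorem norm_pos (hn : 0 < n) (g : Γ) : 0 < ‖(ρ g : Matrix (Fin n) (Fin n) k)‖ := by
  rw [← norm_cmp_one]
  exact norm_cm_pos ρ hn g

omit [DecidableEq Γ] in
theorem rowsSizeMulLe (hn : 0 < n) (g h : Γ) :
    lsize ρ (g * h) ≤ Real.log n + lsize ρ g + lsize ρ h := by
  have hn0 : (0 : ℝ) < n := Nat.cast_pos.2 hn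
  have h2 := norm_mul_le_card (ρ g : Matrix (Fin n) (Fin n) k) (ρ h : Matrix (Fin n) (Fin n) k)
  rw [Fintype.card_fin, ← coe_mul] at h2
  have := Real.log_le_log (norm_pos ρ hn (g * h)) h2
  rw [Real.log_mul hn0.ne' (mul_pos (norm_pos ρ hn g) (norm_pos ρ hn h)).ne',
    Real.log_mul (norm_pos ρ hn g).ne' (norm_pos ρ hn h).ne'] at this
  simp only [lsize]
  linarith

omit [DecidableEq Γ] in
theorem abs_lsize_le (hn : 0 < n) (g : Γ) :
    |lsize ρ g| ≤ max (lsize ρ g) (Real.log n.factorial) := by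
  have hX := norm_pos ρ hn g
  have h := norm_det_le (ρ g : Matrix (Fin n) (Fin n) k) fun _ _ =>
    norm_entry_le_entrywise_sup_norm _
  rw [(ρ g).2, norm_one] at h
  have h2 := Real.log_le_log one_pos h
  rw [Real.log_one, Real.log_mul (Nat.cast_ne_zero.2 n.factorial_ne_zero) (pow_pos hX n).ne',
    Real.log_pow, ← lsize] at h2
  rcases le_total 0 (lsize ρ g) with hs | hs
  · rw [abs_of_nonneg hs]
    exact le_max_left _ _
  · rw [abs_of_nonpos hs]
    refine le_trans ?_ (le_max_right _ _)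
    have := mul_le_mul_of_nonpos_right (Nat.one_le_cast.2 hn : (1 : ℝ) ≤ n) hs
    linarith

/-- Sizes in a window are linear in the window. -/
theorem exists_win [Fintype O] (hn : 0 < n) (hl : Labelling G nb) (hinv : Inv G) :
    ∃ C : ℝ, 0 ≤ C ∧ ∀ (m : ℕ) (o : O), 1 ≤ m → ∀ z ∈ QT.wball nb ((1 : Γ), o) m,
      |lsize ρ z.1| ≤ C * m := by
  have hln : 0 ≤ Real.log n := Real.log_natCast_nonneg n
  have hlf : 0 ≤ Real.log n.factorial := Real.log_natCast_nonneg _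
  set M : ℝ := ∑ o : O, ∑ i : ι, |lsize ρ (nb ((1 : Γ), o) i).1|
  have hM : 0 ≤ M := sum_nonneg fun _ _ => sum_nonneg fun _ _ => abs_nonneg _
  have hstep : ∀ u v : Γ × O, G.Adj u v → lsize ρ v.1 ≤ lsize ρ u.1 + (Real.log n + M) := by
    intro u v huv
    have h' : G.Adj ((1 : Γ), u.2) (tr u.1⁻¹ v) := by simpa [tr] using (hinv u.1⁻¹ u v).2 huv
    obtain ⟨i, hi⟩ := (hl.adj _ _).1 h'
    have hM' : |lsize ρ (nb ((1 : Γ), u.2) i).1| ≤ M :=
      (single_le_sum (fun i _ => abs_nonneg (lsize ρ (nb ((1 : Γ), u.2) i).1)) (mem_univ i)).trans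
        (single_le_sum (f := fun o : O => ∑ i, |lsize ρ (nb ((1 : Γ), o) i).1|)
          (fun o _ => sum_nonneg fun i _ => abs_nonneg _) (mem_univ u.2))
    have h := rowsSizeMulLe ρ hn u.1 (nb ((1 : Γ), u.2) i).1
    rw [show u.1 * (nb ((1 : Γ), u.2) i).1 = v.1 by simp [hi, tr]] at h
    linarith [le_abs_self (lsize ρ (nb ((1 : Γ), u.2) i).1)]
  have hwalk : ∀ (a z : Γ × O) (w : G.Walk a z),
      lsize ρ z.1 ≤ lsize ρ a.1 + w.length * (Real.log n + M) := by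
    intro a z w
    induction w with
    | nil => simp
    | @cons a b c hab w ih =>
      rw [SimpleGraph.Walk.length_cons, Nat.cast_add_one]
      linarith [hstep a b hab]
  refine ⟨Real.log n + M + Real.log n.factorial, by linarith, fun m o hm z hz => ?_⟩
  obtain ⟨w, hw⟩ := (QT.wball_mem hl).1 hz
  have h := hwalk _ _ w
  have hone : lsize ρ 1 = 0 := by
    have : ‖(1 : Matrix (Fin n) (Fin n) k)‖ = 1 :=
      le_antisymm ((Matrix.norm_le_iff zero_le_one).2 fun a b => by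
        rw [Matrix.one_apply]; split_ifs <;> simp)
        (le_of_eq_of_le (by simp) (norm_entry_le_entrywise_sup_norm
          (1 : Matrix (Fin n) (Fin n) k) (i := ⟨0, hn⟩) (j := ⟨0, hn⟩)))
    rw [lsize, coe_one, this, Real.log_one]
  rw [show (((1 : Γ), o) : Γ × O).1 = 1 from rfl, hone] at h
  have hw' : (w.length : ℝ) ≤ m := Nat.cast_le.2 hw
  have hm' : (1 : ℝ) ≤ m := Nat.one_le_cast.2 hm
  have := mul_le_mul_of_nonneg_right hw' (add_nonneg hln hM)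
  have := mul_le_mul_of_nonneg_left hm' hlf
  refine (abs_lsize_le ρ hn _).trans (max_le ?_ ?_) <;> nlinarith

/-- The logarithmic cocycle of a covector. -/
noncomputable def covLog (φ : {φ : Fin n → k // φ ≠ 0}) (g : Γ) : ℝ :=
  Real.log ‖φ.1 ᵥ* (ρ g : Matrix (Fin n) (Fin n) k)‖ - Real.log ‖φ.1‖

omit [DecidableEq Γ] in
theorem covLog_eq (hn : 0 < n) (φ : {φ : Fin n → k // φ ≠ 0}) (g : Γ) :
    covLog ρ φ g = lsize ρ g - defect ρ (rowsOf φ.1) g - Real.log ‖φ.1‖ := by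
  rw [covLog, defect_rowsOf ρ hn]
  ring

omit [DecidableEq Γ] in
theorem vecMul_rho_ne (φ : {φ : Fin n → k // φ ≠ 0}) (g : Γ) :
    φ.1 ᵥ* (ρ g : Matrix (Fin n) (Fin n) k) ≠ 0 := fun h => φ.2 (by
  rw [← vecMul_one φ.1, ← coe_one ρ, ← mul_inv_cancel g, coe_mul, ← vecMul_vecMul, h,
    zero_vecMul])

omit [DecidableEq Γ] in
theorem covLog_mul (φ : {φ : Fin n → k // φ ≠ 0}) (g : Γ) :
    ∃ φ', ∀ h, covLog ρ φ (g * h) = covLog ρ φ g + covLog ρ φ' h := by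
  refine ⟨⟨_, vecMul_rho_ne ρ φ g⟩, fun h => ?_⟩
  simp only [covLog, vecMul_vecMul, ← coe_mul]
  ring

omit [DecidableEq Γ] in
theorem exists_unit (φ : {φ : Fin n → k // φ ≠ 0}) :
    ∃ φ₁ : {φ : Fin n → k // φ ≠ 0}, ‖φ₁.1‖ = 1 ∧ ∀ g, covLog ρ φ₁ g = covLog ρ φ g := by
  obtain ⟨i₀, hi₀⟩ := Function.ne_iff.1 φ.2
  have : Nonempty (Fin n) := ⟨i₀⟩
  obtain ⟨i, hi⟩ := Finite.exists_max fun r => ‖φ.1 r‖
  have hnorm : ‖φ.1‖ = ‖φ.1 i‖ :=
    le_antisymm ((pi_norm_le_iff_of_nonneg (norm_nonneg _)).2 hi) (norm_le_pi_norm _ i)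
  have hc : ‖φ.1 i‖ ≠ 0 := hnorm ▸ norm_ne_zero_iff.2 φ.2
  refine ⟨⟨(φ.1 i)⁻¹ • φ.1, smul_ne_zero (inv_ne_zero (norm_ne_zero_iff.1 hc)) φ.2⟩, ?_,
    fun g => ?_⟩
  · rw [norm_smul, norm_inv, hnorm, inv_mul_cancel₀ hc]
  · have hne := vecMul_rho_ne ρ φ g
    simp only [covLog, smul_vecMul, norm_smul, norm_inv]
    rw [Real.log_mul (inv_ne_zero hc) (norm_ne_zero_iff.2 hne),
      Real.log_mul (inv_ne_zero hc) (norm_ne_zero_iff.2 φ.2)]
    ring

end sizes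

/-- The master inequality with the children inside a set of small anchor mass. -/
theorem mass_le {o₁ : O} {q C₁ CS ε r c Cc : ℝ} {m : ℕ} {o : O}
    {W₀ : Finset (Γ × O)} {U Y : Finset Γ} (hCS : 0 ≤ CS) (hr : 0 < r) (hr1 : r ≤ 1) (hCc : 0 ≤ Cc)
    (hU : 1 ≤ ∑ g ∈ U, anc nb o₁ q g)
    (hM : (∑ w ∈ W₀, winT nb q m o w) * ∑ g ∈ U, anc nb o₁ q g ≤
        C₁ * ε * (∑ w ∈ QT.wball nb ((1 : Γ), o) m, winT nb q m o w) *
            ∑ g ∈ U, anc nb o₁ q g +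
          CS * (1 + Real.log (1 / r)) * ∑ y ∈ Y, T nb q ((1 : Γ), o) (y, o₁))
    (hmove : ∑ y ∈ Y, T nb q ((1 : Γ), o) (y, o₁) ≤ Cc * ∑ y ∈ Y, anc nb o₁ q y)
    (hY : ∑ y ∈ Y, anc nb o₁ q y ≤ c * ∑ g ∈ U, anc nb o₁ q g) :
    ∑ w ∈ W₀, winT nb q m o w ≤
      C₁ * ε * (∑ w ∈ QT.wball nb ((1 : Γ), o) m, winT nb q m o w) +
        CS * (1 + Real.log (1 / r)) * (Cc * c) := by
  have hlog : 0 ≤ Real.log (1 / r) := Real.log_nonneg (by rw [le_div_iff₀ hr]; linarith)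
  have h := mul_le_mul_of_nonneg_left
    (hmove.trans (mul_le_mul_of_nonneg_left hY hCc)) (mul_nonneg hCS (add_nonneg zero_le_one hlog))
  refine le_of_mul_le_mul_right (hM.trans (le_of_le_of_eq (add_le_add le_rfl h) ?_))
    (zero_lt_one.trans_le hU)
  ring

/-- A push and the master inequality give small rows in finitely many windows. -/
theorem windowsBelow_of_master [ProperSpace k] [Fintype O] (ρ : Γ →* SL(n, k)) (hn : 0 < n)
    (hdense : SL.ZariskiDense (Set.range fun g => (ρ g : Matrix (Fin n) (Fin n) k)))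
    (hfin : ∀ R : ℝ, {g : Γ | ‖(ρ g : Matrix (Fin n) (Fin n) k)‖ ≤ R}.Finite)
    (hl : Labelling G nb) (hinv : Inv G) (hconn : G.Connected) (o₁ : O) {p : ℝ}
    (hs : FQ.Sub nb p) (hpush : PushBelow nb o₁ p)
    (hmaster : ∀ F A, MasterAt nb ρ o₁ (p / 2) F A) : WindowsBelow nb p := by
  classical
  obtain ⟨hp, hp1, hwit⟩ := hs
  have hh0 : 0 < p / 2 := by linarith
  have hh1 : p / 2 ≤ 1 := by linarith
  obtain ⟨F, A, hA, hchild⟩ := exists_child ρ hn hdense 2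
  obtain ⟨C₁, hC₁, hMA⟩ := hmaster F A
  obtain ⟨Cw, hCw, hwin⟩ := exists_win ρ hn hl hinv
  obtain ⟨Cb, D, hCb, hcount⟩ := exists_ball_count ρ hfin
  obtain ⟨Cc, hCc, hmove⟩ := exists_move hl hconn o₁ hh0 hh1
  have hln : 0 ≤ Real.log n := Real.log_natCast_nonneg n
  have hlf : 0 ≤ Real.log n.factorial := Real.log_natCast_nonneg _
  set ec : ℝ := Real.log n + Real.log n.factorial with hec
  set C₀ : ℝ := Cw + ((n : ℝ) + 2) + ec with hC₀
  have hC₀0 : 0 < C₀ := by positivity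
  have hsz : ∀ (m : ℕ) o, 1 ≤ m → ∀ z ∈ QT.wball nb ((1 : Γ), o) m, |lsize ρ z.1| ≤ C₀ * m :=
    fun m o hm z hz => (hwin m o hm z hz).trans
      (mul_le_mul_of_nonneg_right (by linarith [(n.cast_nonneg : (0 : ℝ) ≤ n)]) (Nat.cast_nonneg m))
  set L : ℝ := Real.log (1 / (p / 2)) with hL
  have hL0 : 0 ≤ L := Real.log_nonneg (by rw [le_div_iff₀ hh0]; linarith)
  have hlogr : ∀ m : ℕ, Real.log (1 / (p / 2) ^ m) = m * L := fun m => by
    rw [hL, one_div, one_div, Real.log_inv, Real.log_inv, Real.log_pow, mul_neg]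
  have hkid : ∀ Q : Fin 2 → Matrix (Fin n) (Fin n) k, ∃ R : Γ → Γ → Γ,
      ∀ z h, R z h ∈ F ∧ Cand ρ F A (z * R z h * h) z ∧
        ∀ i, Q i ≠ 0 → |defect ρ (Q i) (z * R z h * h) - defect ρ (Q i) z| ≤ A := by
    intro Q
    choose R h1 h2 h3 h4 using hchild Q
    exact ⟨R, fun z h => ⟨h1 z h, h2 z h, h4 z h⟩⟩
  obtain ⟨R₀, hR₀⟩ := hkid 0
  -- linear volume
  obtain ⟨K, hK, hvol⟩ : ∃ K : ℝ, 0 ≤ K ∧ ∀ m : ℕ, 1 ≤ m → ∀ q, p / 2 ≤ q → q < p →
      WinVolume nb q m K := by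
    obtain ⟨S, hS, hpS⟩ := hpush (1 / (2 * (C₁ + 1))) (by positivity)
    obtain ⟨CS, hCS, hM⟩ := hMA S hS
    refine ⟨4 * CS * (1 + L) * Cc, by positivity, fun m hm q hq hqp o => ?_⟩
    have hq0 : 0 ≤ q := hh0.le.trans hq
    have hq1 : q ≤ 1 := hqp.le.trans hp1
    obtain ⟨U, hU1, hU⟩ := rowsExistsHalf hl hinv o₁ hq0 hq1 (hwit q hq0 hqp)
    set Q := QT.wball nb ((1 : Γ), o) m
    set Y := Finset.image (fun u : ((Γ × O) × Γ) × Γ =>
      u.1.1.1 * R₀ u.1.1.1 (u.1.2 * u.2) * (u.1.2 * u.2)) ((Q ×ˢ S) ×ˢ U)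
    have h := mass_le (c := 2) hCS (pow_pos hh0 m) (pow_le_one₀ hh0.le hh1) hCc hU1
      (hM q hq hq1 (hwit q hq0 hqp) _ (by positivity) (hpS q hq hqp) U hU m o Q subset_rfl
        ((p / 2) ^ m) (pow_pos hh0 m) (pow_le_one₀ hh0.le hh1)
        (fun w hw => (pow_le_pow_left₀ hh0.le hq m).trans (rowsPowLeT hl hq0 hq1 hw))
        R₀ (fun z h => ⟨(hR₀ z h).1, (hR₀ z h).2.1⟩) Y
        fun w hw g hg h hh => mem_image.2 ⟨((w, g), h), by simp [hw, hg, hh], rfl⟩)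
      (hmove q hq hq1 o Y) (hU Y)
    rw [hlogr] at h
    have hV : 0 ≤ ∑ w ∈ Q, winT nb q m o w :=
      sum_nonneg fun w _ => tauIn_nonneg _ hq0 hq1 _ _
    have hε : C₁ * (1 / (2 * (C₁ + 1))) ≤ 1 / 2 := by
      rw [mul_one_div, div_le_div_iff₀ (by positivity) two_pos]; linarith
    have := mul_le_mul_of_nonneg_right hε hV
    have hm' : 0 ≤ CS * ((m : ℝ) - 1) * (Cc * 2) := mul_nonneg
      (mul_nonneg hCS (sub_nonneg.2 (Nat.one_le_cast.2 hm))) (mul_nonneg hCc zero_le_two)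
    linarith
  have hV : ∀ (m : ℕ), 1 ≤ m → ∀ q, p / 2 ≤ q → q < p → ∀ o, ∀ ε C : ℝ, 0 ≤ ε → C * K ≤ ε →
      0 ≤ C → C * ∑ w ∈ QT.wball nb ((1 : Γ), o) m, winT nb q m o w ≤ ε * m :=
    fun m hm q hq hqp o ε C _ hCε hC => (mul_le_mul_of_nonneg_left (hvol m hm q hq hqp o) hC).trans
      (by rw [← mul_assoc]; exact mul_le_mul_of_nonneg_right hCε (Nat.cast_nonneg m))
  have hC₁ε : ∀ ε : ℝ, 0 < ε → C₁ * (ε / (4 * (C₁ * K + 1))) * K ≤ ε / 4 := fun ε hε => by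
    rw [mul_div_assoc', div_mul_eq_mul_div, div_le_div_iff₀ (by positivity) four_pos]
    linarith
  have : Nonempty (Fin n) := ⟨⟨0, hn⟩⟩
  have : Nonempty {φ : Fin n → k // φ ≠ 0} :=
    ⟨⟨fun _ => 1, fun h => one_ne_zero (congrFun h ⟨0, hn⟩)⟩⟩
  refine windowsBelow_of_parts (X := {φ : Fin n → k // φ ≠ 0}) hl hp hp1
    (sz := fun g => |lsize ρ g|) (En := covLog ρ) hC₀0.le (fun φ g => ?_) (covLog_mul ρ) hsz
    ⟨K, hK, hvol⟩ (fun ε hε => ?_) fun η hη ε hε n₀ => ?_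
  · -- the lower bound of the cocycle
    have hφ := rowsOf_ne_zero hn φ.2
    have h := (defect_bounds ρ hn hφ g).2
    rw [norm_rowsOf hn] at h
    rw [covLog_eq ρ hn]
    have := neg_abs_le (lsize ρ g)
    have hle : ((n : ℝ) + 2) * |lsize ρ g| ≤ C₀ * |lsize ρ g| :=
      mul_le_mul_of_nonneg_right (by linarith) (abs_nonneg _)
    linarith [(n.cast_nonneg : (0 : ℝ) ≤ n)]
  · -- the small elements
    obtain ⟨S, hS, hpS⟩ := hpush (ε / (4 * (C₁ * K + 1))) (by positivity)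
    obtain ⟨CS, hCS, hM⟩ := hMA S hS
    set a : ℝ := CS * (Cc * 2) with ha
    have ha0 : 0 ≤ a := by positivity
    set b : ℝ := (Fintype.card O : ℝ) * Cb + a with hb
    refine ⟨ε / (4 * (a * D + 1)), by positivity, ⌈2 * b / ε⌉₊ + 1, fun m hm q hq hqp o => ?_⟩
    set η := ε / (4 * (a * D + 1)) with hη
    have hη0 : 0 < η := by positivity
    have hq0 : 0 ≤ q := hh0.le.trans hq
    have hq1 : q ≤ 1 := hqp.le.trans hp1
    have hm1 : 1 ≤ m := le_of_add_le_right hm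
    obtain ⟨U, hU1, hU⟩ := rowsExistsHalf hl hinv o₁ hq0 hq1 (hwit q hq0 hqp)
    set r : ℝ := Real.exp (-(D * (η * m))) with hr
    set P := (QT.wball nb ((1 : Γ), o) m).filter fun z => |lsize ρ z.1| ≤ η * m
    rw [← sum_filter_add_sum_filter_not P fun z => r ≤ T nb q ((1 : Γ), o) z]
    have hr1 : r ≤ 1 := Real.exp_le_one_iff.2 (neg_nonpos.2 (by positivity))
    set W₀ := P.filter fun z => r ≤ T nb q ((1 : Γ), o) z
    set Y := Finset.image (fun u : ((Γ × O) × Γ) × Γ =>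
      u.1.1.1 * R₀ u.1.1.1 (u.1.2 * u.2) * (u.1.2 * u.2)) ((W₀ ×ˢ S) ×ˢ U)
    have hbig := mass_le (c := 2) hCS (Real.exp_pos _) hr1 hCc hU1
      (hM q hq hq1 (hwit q hq0 hqp) _ (by positivity) (hpS q hq hqp) U hU m o W₀
        (fun w hw => (mem_filter.1 (mem_filter.1 hw).1).1) r (Real.exp_pos _) hr1
        (fun w hw => (mem_filter.1 hw).2)
        R₀ (fun z h => ⟨(hR₀ z h).1, (hR₀ z h).2.1⟩) Y
        fun w hw g hg h hh => mem_image.2 ⟨((w, g), h), by simp [hw, hg, hh], rfl⟩)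
      (hmove q hq hq1 o Y) (hU Y)
    rw [one_div (Real.exp _), Real.log_inv, Real.log_exp, neg_neg] at hbig
    have hsm : ∑ z ∈ P.filter (fun z => ¬r ≤ T nb q ((1 : Γ), o) z), winT nb q m o z ≤
        (Fintype.card O : ℝ) * Cb := by
      have hc : (P.card : ℝ) ≤ Fintype.card O * (Cb * Real.exp (η * m) ^ D) := by
        have h1 : P.card ≤ (P.image Prod.fst).card * Fintype.card O := by
          refine (card_le_card (t := P.image Prod.fst ×ˢ univ) fun z hz =>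
            mem_product.2 ⟨mem_image_of_mem _ hz, mem_univ _⟩).trans_eq ?_
          rw [card_product, card_univ]
        refine (Nat.cast_le.2 h1).trans ?_
        rw [Nat.cast_mul, mul_comm]
        refine mul_le_mul_of_nonneg_left (hcount _ (Real.one_le_exp (by positivity)) _
          fun g hg => ?_) (Nat.cast_nonneg _)
        obtain ⟨z, hz, rfl⟩ := mem_image.1 hg
        rw [← Real.exp_log (norm_pos ρ hn z.1)]
        exact Real.exp_le_exp.2 ((le_abs_self _).trans (mem_filter.1 hz).2)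
      refine (sum_le_card_nsmul _ _ r fun z hz => ?_).trans ?_
      · exact (le_T hq0 hq1 _ _ _).trans (le_of_not_ge (mem_filter.1 hz).2)
      rw [nsmul_eq_mul]
      refine (mul_le_mul_of_nonneg_right ((Nat.cast_le.2 (card_filter_le _ _)).trans hc)
        (Real.exp_pos _).le).trans (le_of_eq ?_)
      rw [mul_assoc, mul_assoc, ← Real.exp_nat_mul, ← Real.exp_add, add_neg_cancel,
        Real.exp_zero, mul_one]
    have hV' := hV m hm1 q hq hqp o (ε / 4) (C₁ * (ε / (4 * (C₁ * K + 1)))) (by positivity)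
      (hC₁ε ε hε) (by positivity)
    have hηa : a * (D * (η * m)) ≤ ε / 4 * m := by
      rw [← mul_assoc, ← mul_assoc]
      refine mul_le_mul_of_nonneg_right ?_ (Nat.cast_nonneg m)
      rw [hη, mul_div_assoc', div_le_div_iff₀ (by positivity) four_pos]
      linarith
    have hmb : b ≤ ε / 2 * m := by
      have h2 : 2 * b / ε ≤ m := (Nat.le_ceil _).trans (Nat.cast_le.2 ((Nat.le_succ _).trans hm))
      rw [div_le_iff₀ hε] at h2
      linarith
    linarith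
  · -- the bad elements in one of finitely many windows
    obtain ⟨S, hS, hpS⟩ := hpush (ε / (4 * (C₁ * K + 1))) (by positivity)
    obtain ⟨CS, hCS, hM⟩ := hMA S hS
    set δ : ℝ := ε / (4 * (CS * (1 + L) * Cc + 1)) with hδ
    have hδ0 : 0 < δ := by positivity
    obtain ⟨J, hJ⟩ := exists_nat_gt (1 / δ ^ n)
    have hJ' : 1 < (J : ℝ) * δ ^ n := by rwa [div_lt_iff₀ (pow_pos hδ0 n)] at hJ
    set η' := min η C₀
    have hη' : 0 < η' := lt_min hη hC₀0
    set c := Real.log ((n.factorial : ℝ) + 1) with hc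
    have hc0 : 0 ≤ c := Real.log_nonneg (le_add_of_nonneg_left (Nat.cast_nonneg _))
    set hiF : ℕ → ℝ := fun m => ((n : ℝ) + 1) * C₀ * m + ec + A with hhiF
    set loF : ℕ → ℝ := fun m => η' * m / 2 - A with hloF
    set N₁ : ℕ := max n₀ (⌈Real.log n.factorial / η⌉₊ + 1) with hN₁
    obtain ⟨w, hw₁, hw₂⟩ : ∃ w : ℕ → ℕ, (∀ i, N₁ ≤ w i) ∧
        ∀ i, n * hiF (w i) + c ≤ loF (w (i + 1)) := by
      refine ⟨fun i => i.rec N₁ fun _ m => max N₁ ⌈2 * (n * hiF m + c + A) / η'⌉₊,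
        fun i => ?_, fun i => ?_⟩
      · cases i with
        | zero => exact le_rfl
        | succ i => exact le_max_left _ _
      · simp only [hloF]
        set m : ℕ := Nat.rec N₁ (fun _ m => max N₁ ⌈2 * (n * hiF m + c + A) / η'⌉₊) i
        have h : 2 * (n * hiF m + c + A) / η' ≤
            ((max N₁ ⌈2 * (n * hiF m + c + A) / η'⌉₊ : ℕ) : ℝ) :=
          (Nat.le_ceil _).trans (Nat.cast_le.2 (le_max_right _ _))
        rw [div_le_iff₀ hη'] at h
        linarith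
    refine ⟨(range J).sup w, fun q hq hqp => ?_⟩
    have hq0 : 0 ≤ q := hh0.le.trans hq
    have hq1 : q ≤ 1 := hqp.le.trans hp1
    obtain ⟨U, hU1, hU⟩ := rowsExistsHalf hl hinv o₁ hq0 hq1 (hwit q hq0 hqp)
    have hU0 : (0 : ℝ) < 2 * ∑ g ∈ U, anc nb o₁ q g := by linarith
    set all : Finset Γ := (range J).biUnion fun i => (univ : Finset O).biUnion fun o =>
      Finset.image (fun u : (((Γ × O) × Γ) × Γ) × Γ =>
        u.1.1.1.1 * u.1.1.2 * (u.1.2 * u.2)) (((QT.wball nb ((1 : Γ), o) (w i) ×ˢ F) ×ˢ S) ×ˢ U)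
    obtain ⟨i, hiJ, hgood⟩ := ScaleDet.exists_scale_defect ρ all
      (fun y => anc nb o₁ q y / (2 * ∑ g ∈ U, anc nb o₁ q g))
      (fun y _ => div_nonneg (anc_nonneg o₁ hq0 hq1 y) hU0.le)
      (by rw [← sum_div, div_le_one hU0]; exact hU all) (fun i => loF (w i)) (fun i => hiF (w i))
      (fun i => by
        simp only [hloF, hhiF]
        have h1 : η' * w i ≤ C₀ * w i :=
          mul_le_mul_of_nonneg_right (min_le_right _ _) (Nat.cast_nonneg _)
        have h2 : 0 ≤ C₀ * w i := by positivity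
        have hn1 : (1 : ℝ) ≤ n := Nat.one_le_cast.2 hn
        have h3 := le_mul_of_one_le_left
          (show 0 ≤ ((n : ℝ) + 1) * C₀ * w i + ec + A by positivity) hn1
        nlinarith)
      hw₂ hδ0.le hJ'
    have hwi := hw₁ i
    have hm1 : 1 ≤ w i := le_trans (le_max_of_le_right (Nat.le_add_left 1 _)) hwi
    refine ⟨w i, (le_max_left _ _).trans hwi, le_sup (f := w) (mem_range.2 hiJ), fun φ o => ?_⟩
    obtain ⟨φ₁, hφ₁, hEn⟩ := exists_unit ρ φ
    obtain ⟨ψ, hψ, hle⟩ := hgood φ₁.1 hφ₁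
    have hψ0 : ψ ≠ 0 := fun h => by rw [h, norm_zero] at hψ; exact zero_ne_one hψ
    obtain ⟨R, hR⟩ := hkid ![rowsOf φ₁.1, rowsOf ψ]
    set Y := all.filter fun y =>
      loF (w i) ≤ defect ρ (rowsOf φ₁.1) y ∧ defect ρ (rowsOf ψ) y ≤ hiF (w i)
    have hY : ∑ y ∈ Y, anc nb o₁ q y ≤ 2 * δ * ∑ g ∈ U, anc nb o₁ q g := by
      rw [← sum_div, div_le_iff₀ hU0] at hle
      refine le_trans (le_of_eq (sum_congr ?_ fun _ _ => rfl)) (hle.trans (le_of_eq (by ring)))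
      exact filter_congr fun _ _ => Iff.rfl
    have hlogn : Real.log n.factorial ≤ η * w i := by
      have h : Real.log n.factorial / η ≤ w i :=
        (Nat.le_ceil _).trans (Nat.cast_le.2 ((Nat.le_succ _).trans (le_of_max_le_right hwi)))
      rw [div_le_iff₀ hη] at h
      linarith
    have h := mass_le (c := 2 * δ) hCS (pow_pos hh0 (w i)) (pow_le_one₀ hh0.le hh1) hCc hU1
      (hM q hq hq1 (hwit q hq0 hqp) _ (by positivity) (hpS q hq hqp) U hU (w i) o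
        ((QT.wball nb ((1 : Γ), o) (w i)).filter fun z =>
          η * w i < |lsize ρ z.1| ∧ covLog ρ φ z.1 ≤ η * w i / 2) (filter_subset _ _)
        ((p / 2) ^ w i) (pow_pos hh0 _) (pow_le_one₀ hh0.le hh1)
        (fun z hz => (pow_le_pow_left₀ hh0.le hq _).trans
          (rowsPowLeT hl hq0 hq1 (mem_filter.1 hz).1))
        R (fun z h => ⟨(hR z h).1, (hR z h).2.1⟩) Y fun z hz g hg h hh => by
          obtain ⟨hzb, hbig, hEz⟩ := mem_filter.1 hz
          obtain ⟨hσ, -, hdef⟩ := hR z.1 (g * h)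
          have d1 := abs_le.1 (hdef 0 (by simpa using rowsOf_ne_zero hn φ₁.2))
          have d2 := abs_le.1 (hdef 1 (by simpa using rowsOf_ne_zero hn hψ0))
          simp only [Matrix.cons_val_zero, Matrix.cons_val_one] at d1 d2
          refine mem_filter.2 ⟨mem_biUnion.2 ⟨i, mem_range.2 hiJ, mem_biUnion.2 ⟨o, mem_univ o,
            mem_image.2 ⟨(((z, R z.1 (g * h)), g), h), by simp [hzb, hσ, hg, hh], rfl⟩⟩⟩, ?_, ?_⟩
          · have hpos : |lsize ρ z.1| ≤ lsize ρ z.1 := by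
              rcases le_max_iff.1 (abs_lsize_le ρ hn z.1) with h' | h'
              · exact h'
              · linarith
            rw [← hEn, covLog_eq ρ hn, hφ₁, Real.log_one, sub_zero] at hEz
            have := mul_le_mul_of_nonneg_right (min_le_left η C₀)
              (Nat.cast_nonneg (α := ℝ) (w i))
            simp only [hloF]
            linarith
          · have hb := (defect_bounds ρ hn (rowsOf_ne_zero hn hψ0) z.1).2
            rw [norm_rowsOf hn, hψ, Real.log_one] at hb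
            have := mul_le_mul_of_nonneg_left (hsz _ o hm1 z hzb)
              (show (0 : ℝ) ≤ (n : ℝ) + 1 by positivity)
            simp only [hhiF]
            linarith)
      (hmove q hq hq1 o Y) hY
    rw [hlogr] at h
    have hV' := hV (w i) hm1 q hq hqp o (ε / 4) (C₁ * (ε / (4 * (C₁ * K + 1)))) (by positivity)
      (hC₁ε ε hε) (by positivity)
    have hd : CS * (1 + L) * Cc * δ ≤ ε / 4 := by
      rw [hδ, mul_div_assoc', div_le_div_iff₀ (by positivity) four_pos]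
      linarith
    have hm' : (1 : ℝ) ≤ w i := Nat.one_le_cast.2 hm1
    have h1 := mul_le_mul_of_nonneg_right hd (Nat.cast_nonneg (α := ℝ) (w i))
    have h2 : 0 ≤ CS * ((w i : ℝ) - 1) * (Cc * δ) :=
      mul_nonneg (mul_nonneg hCS (sub_nonneg.2 hm')) (mul_nonneg hCc hδ0.le)
    have h3 : 0 ≤ ε * (w i : ℝ) := by positivity
    linarith

end Vale.Agent.P165.EX
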