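import Vale.Agent.P165.EX.Pivot

/-!
# Packing in `SL(n, k)`: intervals of additive sizes are bounded

If the sizes of all compounds of `y` are multiplicative in `y = z * x` and `y = z' * x'` and `z`,
`z'` have comparable sizes, then `z⁻¹ z'` is bounded.
-/

namespace Vale.Agent.P165.EX

open Matrix Finset
open scoped Matrix.Norms.Elementwise

/-- The product of the first `j` values. -/
def pa {n j : ℕ} (α : Fin n → ℝ) (hj : j ≤ n) : ℝ := ∏ i : Fin j, α (Fin.castLE hj i)

theorem pa_pos {n j : ℕ} {α : Fin n → ℝ} (hα : ∀ i, 0 < α i) (hj : j ≤ n) : 0 < pa α hj :=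
  prod_pos fun _ _ => hα _

theorem pa_succ {n j : ℕ} (α : Fin n → ℝ) (hj : j + 1 ≤ n) :
    pa α hj = pa α (Nat.le_of_succ_le hj) * α ⟨j, hj⟩ := Fin.prod_univ_castSucc _

theorem exists_sub {n j : ℕ} (f : Fin j → Fin n) (hf : Function.Injective f) :
    ∃ (s : Sub n j) (σ : Equiv.Perm (Fin j)), ∀ i, f i = emb s (σ i) := by
  set s : Sub n j := ⟨univ.map ⟨f, hf⟩, by simp⟩ with hs
  have h : ∀ i, ∃ l, emb s l = f i := fun i => (mem_iff s (f i)).1 (by simp [hs])
  choose σ hσ using h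
  have hinj : Function.Injective σ := fun a b e => hf (by rw [← hσ a, e, hσ b])
  exact ⟨s, Equiv.ofBijective σ ⟨hinj, Finite.surjective_of_injective hinj⟩, fun i => (hσ i).symm⟩

theorem id_le_emb {n j : ℕ} (s : Sub n j) (i : Fin j) : i.1 ≤ (emb s i).1 := by
  obtain ⟨i, hi⟩ := i
  induction i with
  | zero => exact Nat.zero_le _
  | succ i ih =>
    have h : (emb s ⟨i, by omega⟩ : Fin n) < emb s ⟨i + 1, hi⟩ :=
      (emb s).strictMono (Fin.mk_lt_mk.2 (Nat.lt_succ_self i))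
    exact Nat.succ_le_of_lt (lt_of_le_of_lt (ih (by omega)) h)

theorem prod_le_pa {n j : ℕ} {α : Fin n → ℝ} {C : ℝ} (hC : 1 ≤ C) (hα : ∀ i, 0 < α i)
    (hdec : ∀ i l, i ≤ l → α l ≤ C * α i) (hj : j ≤ n) (f : Fin j → Fin n)
    (hf : Function.Injective f) : ∏ i, α (f i) ≤ C ^ n * pa α hj := by
  obtain ⟨s, σ, h⟩ := exists_sub f hf
  calc ∏ i, α (f i) = ∏ i, α (emb s i) := by
        simp only [h]; exact Equiv.prod_comp σ fun i => α (emb s i)
    _ ≤ ∏ i, C * α (Fin.castLE hj i) :=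
        prod_le_prod (fun i _ => (hα _).le) fun i _ => hdec _ _ (id_le_emb s i)
    _ = C ^ j * pa α hj := by rw [prod_mul_distrib]; simp [pa]
    _ ≤ _ := mul_le_mul_of_nonneg_right (pow_le_pow_right₀ hC hj) (pa_pos hα hj).le

section Field

variable {k : Type} [NormedField k] {n : ℕ}

theorem norm_det_perm {j : ℕ} (A : Matrix (Fin j) (Fin j) k) (σ τ : Equiv.Perm (Fin j)) :
    ‖(A.submatrix σ τ).det‖ = ‖A.det‖ := by
  rw [show A.submatrix σ τ = (A.submatrix σ id).submatrix id τ from rfl, det_permute',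
    det_permute, norm_mul, norm_mul]
  rcases Int.units_eq_one_or (Equiv.Perm.sign σ) with h | h <;>
    rcases Int.units_eq_one_or (Equiv.Perm.sign τ) with h' | h' <;> simp [h, h']

theorem minor_le {j : ℕ} (A : Matrix (Fin n) (Fin n) k) (f g : Fin j → Fin n)
    (hf : Function.Injective f) (hg : Function.Injective g) :
    ‖(A.submatrix f g).det‖ ≤ ‖cmp j A‖ := by
  obtain ⟨s, σ, hs⟩ := exists_sub f hf
  obtain ⟨t, τ, ht⟩ := exists_sub g hg
  rw [show A.submatrix f g = (A.submatrix (emb s) (emb t)).submatrix σ τ by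
    ext a b; simp [hs, ht], norm_det_perm]
  exact norm_entry_le_entrywise_sup_norm (cmp j A) (i := s) (j := t)

theorem det_zero_size (A : Matrix (Fin n) (Fin n) k) : ‖cmp 0 A‖ = 1 := by
  have h : ∀ s t, ‖cmp 0 A s t‖ = 1 := fun s t => by simp [cmp]
  refine le_antisymm ((Matrix.norm_le_iff zero_le_one).2 fun s t => (h s t).le) ?_
  obtain ⟨s⟩ : Nonempty (Sub n 0) := ⟨⟨∅, by simp⟩⟩
  exact (h s s).ge.trans (norm_entry_le_entrywise_sup_norm _)

theorem cmp_top (A : Matrix (Fin n) (Fin n) k) : ‖cmp n A‖ = ‖A.det‖ := by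
  refine le_antisymm ((Matrix.norm_le_iff (norm_nonneg _)).2 fun s t => ?_) ?_
  · refine le_of_eq ?_
    obtain ⟨σ, hσ⟩ : ∃ σ : Equiv.Perm (Fin n), ∀ i, emb s i = σ i :=
      ⟨Equiv.ofBijective _ ⟨(emb s).injective, Finite.surjective_of_injective (emb s).injective⟩,
        fun _ => rfl⟩
    obtain ⟨τ, hτ⟩ : ∃ τ : Equiv.Perm (Fin n), ∀ i, emb t i = τ i :=
      ⟨Equiv.ofBijective _ ⟨(emb t).injective, Finite.surjective_of_injective (emb t).injective⟩,
        fun _ => rfl⟩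
    rw [cmp, Matrix.of_apply, show A.submatrix (emb s) (emb t) = A.submatrix σ τ by
      ext a b; simp [hσ, hτ], norm_det_perm]
  · simpa using minor_le A id id Function.injective_id Function.injective_id

/-- The entries bound on the conjugate of a change of frame by a decreasing diagonal. -/
theorem core (n : ℕ) {C c : ℝ} (hC : 1 ≤ C) (hc : 0 < c) :
    ∃ B : ℝ, 0 ≤ B ∧ ∀ (N : Matrix (Fin n) (Fin n) k) (α : Fin n → ℝ), (∀ i, 0 < α i) →
      (∀ i l, i ≤ l → α l ≤ C * α i) → (∀ a b, ‖N a b‖ ≤ C) →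
      (∀ b (hb : b ≤ n), ∃ f : Fin b → Fin n, Function.Injective f ∧
        c ≤ ‖(N.submatrix f (Fin.castLE hb)).det‖) →
      (∀ j (hj : j ≤ n) (f : Fin j → Fin n), Function.Injective f →
        ‖(N.submatrix f (Fin.castLE hj)).det‖ * pa α hj ≤ C * ∏ i, α (f i)) →
      ∀ a b, ‖N a b‖ * α b ≤ B * α a := by
  set B₁ : ℝ := C * C ^ n * C * C / c with hB₁
  set B₂ : ℝ := (C + n * (C * B₁)) * C ^ n / c with hB₂
  have hB₁0 : 0 ≤ B₁ := by positivity
  have hB₂0 : 0 ≤ B₂ := by positivity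
  refine ⟨B₁ + B₂, by positivity, fun N α hα hdec hN hlow hminor a b => ?_⟩
  obtain ⟨b, hb⟩ := b
  obtain ⟨f, hf, hfl⟩ := hlow b hb.le
  set Q : ℝ := ∏ i, α (f i) with hQ
  set P : ℝ := pa α hb.le with hP
  have hP0 : 0 < P := pa_pos hα _
  have hQ0 : 0 < Q := prod_pos fun _ _ => hα _
  have hcP : c * P ≤ C * Q :=
    (mul_le_mul_of_nonneg_right hfl hP0.le).trans (hminor b hb.le f hf)
  have inside : ∀ l, ‖N (f l) ⟨b, hb⟩‖ * α ⟨b, hb⟩ ≤ B₁ * α (f l) := by
    intro l
    obtain ⟨m, rfl⟩ : ∃ m, b = m + 1 := ⟨b - 1, by have := l.2; omega⟩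
    have hother : ∏ i, α (f (l.succAbove i)) ≤ C ^ n * pa α (Nat.le_of_succ_le hb.le) :=
      prod_le_pa hC hα hdec _ _ (hf.comp Fin.succAbove_right_injective)
    rw [hQ, Fin.prod_univ_succAbove _ l] at hcP
    rw [hP, pa_succ] at hcP
    have h1 : c * α ⟨m, by omega⟩ ≤ C * C ^ n * α (f l) := by
      refine le_of_mul_le_mul_right ?_ (pa_pos hα (show m ≤ n by omega))
      have := mul_le_mul_of_nonneg_left hother
        (mul_nonneg (zero_le_one.trans hC) (hα (f l)).le)
      linarith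
    have h2 := hdec ⟨m, by omega⟩ ⟨m + 1, hb⟩ (Fin.mk_le_mk.2 (Nat.le_succ m))
    have h3 : c * α ⟨m + 1, hb⟩ ≤ C * (C * C ^ n * α (f l)) := by
      have := mul_le_mul_of_nonneg_left h1 (zero_le_one.trans hC)
      have := mul_le_mul_of_nonneg_left h2 hc.le
      linarith
    rw [hB₁, div_mul_eq_mul_div, le_div_iff₀ hc]
    have h4 := mul_le_mul (hN (f l) ⟨m + 1, hb⟩) h3 (by have := hα ⟨m + 1, hb⟩; positivity)
      (zero_le_one.trans hC)
    linarith
  by_cases ha : ∃ l, f l = a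
  · obtain ⟨l, rfl⟩ := ha
    exact (inside l).trans (mul_le_mul_of_nonneg_right (le_add_of_nonneg_right hB₂0) (hα _).le)
  push Not at ha
  set F : Fin (b + 1) → Fin n := Fin.snoc f a with hF
  have hFinj : Function.Injective F := Fin.snoc_injective_iff.2 ⟨hf, by simpa using ha⟩
  have hdet := hminor (b + 1) hb F hFinj
  set αb := α ⟨b, hb⟩ with hαb
  have hαb0 : 0 < αb := hα _
  have hprodF : ∏ i, α (F i) = Q * α a := by
    rw [Fin.prod_univ_castSucc]; simp [hF, hQ]
  rw [hprodF, pa_succ, ← hP, ← hαb] at hdet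
  set M := N.submatrix F (Fin.castLE (show b + 1 ≤ n from hb)) with hM
  rw [det_succ_column M (Fin.last b), Fin.sum_univ_castSucc] at hdet
  set T : Fin (b + 1) → k := fun i => (-1) ^ (i.1 + (Fin.last b).1) * M i (Fin.last b) *
    (M.submatrix i.succAbove (Fin.last b).succAbove).det with hT
  change ‖∑ i : Fin b, T i.castSucc + T (Fin.last b)‖ * _ ≤ _ at hdet
  have hlast : ‖N a ⟨b, hb⟩‖ * c ≤ ‖T (Fin.last b)‖ := by
    rw [hT]
    simp only [norm_mul, norm_pow, norm_neg, norm_one, one_pow, one_mul, Fin.succAbove_last]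
    have e1 : M (Fin.last b) (Fin.last b) = N a ⟨b, hb⟩ := by
      rw [hM, submatrix_apply, hF, Fin.snoc_last]; rfl
    have e2 : M.submatrix Fin.castSucc Fin.castSucc = N.submatrix f (Fin.castLE hb.le) := by
      ext u v; simp [hM, hF]
    rw [e1, e2]
    exact mul_le_mul_of_nonneg_left hfl (norm_nonneg _)
  have hrest : ∀ l : Fin b, ‖T l.castSucc‖ * (P * αb) ≤ C * B₁ * (Q * α a) := by
    intro l
    rw [hT]
    simp only [norm_mul, norm_pow, norm_neg, norm_one, one_pow, one_mul, Fin.succAbove_last]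
    have e1 : M l.castSucc (Fin.last b) = N (f l) ⟨b, hb⟩ := by
      rw [hM, submatrix_apply, hF, Fin.snoc_castSucc]; rfl
    have e2 : M.submatrix l.castSucc.succAbove Fin.castSucc =
        N.submatrix (F ∘ l.castSucc.succAbove) (Fin.castLE hb.le) := by
      ext u v; simp [hM]
    rw [e1, e2]
    have h1 := hminor b hb.le _ (hFinj.comp Fin.succAbove_right_injective (f := l.castSucc.succAbove))
    have h2 := inside l
    have h3 : α (f l) * ∏ i, α (F (l.castSucc.succAbove i)) = Q * α a := by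
      rw [← hprodF, Fin.prod_univ_succAbove _ l.castSucc, hF, Fin.snoc_castSucc]
    have h4 := mul_le_mul h2 h1 (mul_nonneg (norm_nonneg _) hP0.le)
      (mul_nonneg hB₁0 (hα (f l)).le)
    simp only [Function.comp_apply, ← hP] at h4
    linear_combination h4 + C * B₁ * h3
  have hsum : ‖N a ⟨b, hb⟩‖ * c * (P * αb) ≤ (C + n * (C * B₁)) * (Q * α a) := by
    have htri : ‖T (Fin.last b)‖ ≤ ‖∑ i : Fin b, T i.castSucc + T (Fin.last b)‖ +
        ∑ i : Fin b, ‖T i.castSucc‖ := by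
      have := norm_sub_le (∑ i : Fin b, T i.castSucc + T (Fin.last b)) (∑ i : Fin b, T i.castSucc)
      rw [add_sub_cancel_left] at this
      linarith [norm_sum_le (univ : Finset (Fin b)) fun i => T i.castSucc]
    have h1 := mul_le_mul_of_nonneg_right (hlast.trans htri) (mul_pos hP0 hαb0).le
    have h2 : (∑ i : Fin b, ‖T i.castSucc‖) * (P * αb) ≤ n * (C * B₁ * (Q * α a)) := by
      rw [sum_mul]
      refine (sum_le_card_nsmul _ _ _ fun l _ => hrest l).trans ?_
      rw [nsmul_eq_mul, card_univ, Fintype.card_fin]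
      exact mul_le_mul_of_nonneg_right (Nat.cast_le.2 hb.le)
        (mul_nonneg (mul_nonneg (zero_le_one.trans hC) hB₁0) (mul_pos hQ0 (hα a)).le)
    linarith
  have hQP : Q ≤ C ^ n * P := prod_le_pa hC hα hdec hb.le f hf
  refine le_trans ?_ (mul_le_mul_of_nonneg_right (le_add_of_nonneg_left hB₁0) (hα a).le)
  rw [hB₂, div_mul_eq_mul_div, le_div_iff₀ hc]
  refine le_of_mul_le_mul_right ?_ hP0
  have h5 := hsum.trans (mul_le_mul_of_nonneg_left (mul_le_mul_of_nonneg_right hQP (hα a).le)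
    (by positivity))
  linarith

theorem adjugate_entry_le {B : ℝ} (hB : 1 ≤ B) (W : Matrix (Fin n) (Fin n) k)
    (h : ∀ a b, ‖W a b‖ ≤ B) (a b : Fin n) : ‖W.adjugate a b‖ ≤ n.factorial * B ^ n := by
  rw [adjugate_apply]
  refine norm_det_le _ fun i l => ?_
  rw [updateRow_apply]
  split_ifs
  · rw [Pi.single_apply]; split_ifs <;> simp [hB, zero_le_one.trans hB]
  · exact h i l

/-- Sizes of all compounds are products of the diagonal of a pivot factorisation. -/
theorem size_pivot (n : ℕ) {C : ℝ} (hC : 1 ≤ C) :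
    ∃ D : ℝ, 1 ≤ D ∧ ∀ (z L Li L' Li' : Matrix (Fin n) (Fin n) k) (a : Fin n → k),
      z = L * diagonal a * L' → Bdd C L Li → Bdd C L' Li' → (∀ i, a i ≠ 0) →
      (∀ i l, i ≤ l → ‖a l‖ ≤ C * ‖a i‖) → ∀ j (hj : j ≤ n),
        ‖cmp j z‖ ≤ D * pa (fun i => ‖a i‖) hj ∧ pa (fun i => ‖a i‖) hj ≤ D * ‖cmp j z‖ := by
  set G : ℕ → ℝ := fun j => (Fintype.card (Sub n j) * (j.factorial * C ^ j)) ^ 2
  set D : ℝ := (1 + C ^ n) * (1 + ∑ j ∈ range (n + 1), G j)
  have hG : ∀ j, 0 ≤ G j := fun j => sq_nonneg _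
  have hCn : 0 ≤ C ^ n := pow_nonneg (zero_le_one.trans hC) n
  refine ⟨D, one_le_mul_of_one_le_of_one_le (le_add_of_nonneg_right hCn)
    (le_add_of_nonneg_right (sum_nonneg fun j _ => hG j)), ?_⟩
  intro z L Li L' Li' a hz hL hL' ha hdec j hj
  set α : Fin n → ℝ := fun i => ‖a i‖
  have hGj : G j ≤ 1 + ∑ i ∈ range (n + 1), G i :=
    (single_le_sum (fun i _ => hG i) (mem_range.2 (Nat.lt_succ_of_le hj))).trans
      (le_add_of_nonneg_left zero_le_one)
  have hS : 0 ≤ 1 + ∑ i ∈ range (n + 1), G i := (hG j).trans hGj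
  have hpa : 0 ≤ pa α hj := prod_nonneg fun _ _ => norm_nonneg _
  constructor
  · rw [hz]
    refine (norm_cmp_mul3_le _ _ _ hL.2.2.1 hL'.2.2.1).trans ?_
    have h : ‖cmp j (diagonal a)‖ ≤ C ^ n * pa α hj := by
      refine (Matrix.norm_le_iff (mul_nonneg hCn hpa)).2 fun s t => ?_
      rw [cmp_diagonal]
      by_cases hst : s = t
      · subst hst
        rw [diagonal_apply_eq, norm_prod]
        exact prod_le_pa hC (fun i => norm_pos_iff.2 (ha i)) hdec hj _ (emb s).injective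
      · rw [diagonal_apply_ne _ hst, norm_zero]; exact mul_nonneg hCn hpa
    refine (mul_le_mul hGj h (norm_nonneg _) hS).trans (le_of_eq_of_le (mul_assoc _ _ _).symm ?_)
    refine mul_le_mul_of_nonneg_right ?_ hpa
    show _ ≤ (1 + C ^ n) * _
    rw [mul_comm]
    exact mul_le_mul_of_nonneg_right (le_add_of_nonneg_left zero_le_one) hS
  · have e : diagonal a = Li * z * Li' := by
      rw [hz]; simp only [Matrix.mul_assoc, hL'.1, mul_one]
      rw [← Matrix.mul_assoc, hL.2.1, one_mul]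
    have h : pa α hj ≤ ‖cmp j (diagonal a)‖ := by
      have hinj : Function.Injective (Fin.castLE hj) := Fin.castLE_injective hj
      refine le_trans (le_of_eq ?_) (minor_le (diagonal a) _ _ hinj hinj)
      rw [submatrix_diagonal a _ hinj, det_diagonal, norm_prod]
      rfl
    rw [e] at h
    refine h.trans ((norm_cmp_mul3_le _ _ _ hL.2.2.2 hL'.2.2.2).trans ?_)
    refine mul_le_mul_of_nonneg_right (hGj.trans ?_) (norm_nonneg _)
    exact le_mul_of_one_le_left hS (le_add_of_nonneg_right hCn)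

/-- A pivot factorisation with sizes the products of the leading entries. -/
def PivDec (C B : ℝ) (z L Li L' Li' : Matrix (Fin n) (Fin n) k) (a : Fin n → k) : Prop :=
  z = L * diagonal a * L' ∧ Bdd C L Li ∧ Bdd C L' Li' ∧ (∀ i, a i ≠ 0) ∧
    (∀ i l, i ≤ l → ‖a l‖ ≤ C * ‖a i‖) ∧
    ∀ j (hj : j ≤ n), ‖cmp j z‖ ≤ B * pa (fun i => ‖a i‖) hj ∧
      pa (fun i => ‖a i‖) hj ≤ B * ‖cmp j z‖

/-- Over one constant: pivot factorisations with sizes the products of the leading entries, and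
for a factor of a product with multiplicative sizes the change of frame to the product, and its
inverse, bounded after conjugation by the diagonal of the factor. -/
theorem exists_axes (n : ℕ) (C₀ : ℝ) : ∃ C B : ℝ, 1 ≤ C ∧ 0 ≤ B ∧
    (∀ z : Matrix (Fin n) (Fin n) k, z.det = 1 → ∃ L Li L' Li' a, PivDec C B z L Li L' Li' a) ∧
    ∀ (w wi y U Ui U' Ui' K Ki K' Ki' : Matrix (Fin n) (Fin n) k) (e d : Fin n → k),
      PivDec C B w U Ui U' Ui' e → PivDec C B y K Ki K' Ki' d → w * wi = 1 →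
      (∀ j ≤ n, ‖cmp j w‖ * ‖cmp j (wi * y)‖ ≤ C₀ * ‖cmp j y‖) →
      ∀ i l, ‖(Ui * K) i l‖ * ‖e l‖ ≤ B * ‖e i‖ ∧ ‖(Ki * U) i l‖ * ‖e l‖ ≤ B * ‖e i‖ := by
  obtain ⟨C₁, hC₁, hpiv⟩ := exists_pivot (k := k) n
  obtain ⟨D, hD, hsize⟩ := size_pivot (k := k) n hC₁
  set C₂ : ℝ := n * (C₁ * C₁) + 1 with hC₂
  set G : ℕ → ℝ := fun j => (Fintype.card (Sub n j) * (j.factorial * C₁ ^ j)) ^ 2 with hG
  set H : ℕ → ℝ := fun j => Fintype.card (Sub n j) * (j.factorial * C₂ ^ j) with hH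
  set C₃ : ℝ := C₁ + C₂ + D ^ 2 * |C₀| * (1 + ∑ j ∈ range (n + 1), G j) with hC₃
  set c : ℝ := 1 / (1 + ∑ j ∈ range (n + 1), H j) with hc
  have hC₂0 : 0 ≤ C₂ := by positivity
  have hG0 : ∀ j, 0 ≤ G j := fun j => sq_nonneg _
  have hH0 : ∀ j, 0 ≤ H j := fun j => by positivity
  have hC₁0 : 0 ≤ C₁ := zero_le_one.trans hC₁
  have hGs : 0 ≤ 1 + ∑ j ∈ range (n + 1), G j :=
    add_nonneg zero_le_one (sum_nonneg fun j _ => hG0 j)
  have hC₃1 : 1 ≤ C₃ := by rw [hC₃]; nlinarith [abs_nonneg C₀, mul_nonneg (mul_nonneg (sq_nonneg D) (abs_nonneg C₀)) hGs]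
  have hc0 : 0 < c := by
    have : (0 : ℝ) ≤ ∑ j ∈ range (n + 1), H j := sum_nonneg fun j _ => hH0 j
    positivity
  obtain ⟨B, hB, hcore⟩ := core (k := k) n hC₃1 hc0
  set Bi : ℝ := n.factorial * C₂ ^ n * (n.factorial * (B + 1) ^ n) with hBi
  refine ⟨C₁, B + Bi + D, hC₁, by positivity, fun z hz => ?_, ?_⟩
  · obtain ⟨L, Li, L', Li', a, hza, hL, hL', hdec⟩ := hpiv z
    have ha : ∀ i, a i ≠ 0 := fun i hi => by
      rw [hza, det_mul, det_mul, det_diagonal, prod_eq_zero (mem_univ i) hi] at hz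
      simp at hz
    refine ⟨L, Li, L', Li', a, hza, hL, hL', ha, hdec, fun j hj => ?_⟩
    have hBD : D ≤ B + Bi + D := le_add_of_nonneg_left (by positivity)
    obtain ⟨u, v⟩ := hsize z L Li L' Li' a hza hL hL' ha hdec j hj
    exact ⟨u.trans (mul_le_mul_of_nonneg_right hBD (prod_nonneg fun _ _ => norm_nonneg _)),
      v.trans (mul_le_mul_of_nonneg_right hBD (norm_nonneg _))⟩
  intro w wi y U Ui U' Ui' K Ki K' Ki' e d hpw hpy hw hadd
  obtain ⟨hwe, hU, hU', he, hdece, -⟩ := hpw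
  obtain ⟨hyd, hK, hK', hd, hdecd, -⟩ := hpy
  have hszw := hsize w U Ui U' Ui' e hwe hU hU' he hdece
  have hsy := hsize y K Ki K' Ki' d hyd hK hK' hd hdecd
  have hNb : ‖Ui * K‖ ≤ C₂ ∧ ‖Ki * U‖ ≤ C₂ := by
    constructor <;> refine (norm_mul_le_card _ _).trans ?_ <;>
      rw [Fintype.card_fin, hC₂]
    · linarith [mul_le_mul_of_nonneg_left (mul_le_mul hU.2.2.2 hK.2.2.1 (norm_nonneg _) hC₁0)
        (Nat.cast_nonneg (α := ℝ) n)]
    · linarith [mul_le_mul_of_nonneg_left (mul_le_mul hK.2.2.2 hU.2.2.1 (norm_nonneg _) hC₁0)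
        (Nat.cast_nonneg (α := ℝ) n)]
  have f1 : ∀ i l, ‖(Ui * K) i l‖ * ‖e l‖ ≤ B * ‖e i‖ := by
    refine hcore (Ui * K) (fun i => ‖e i‖) (fun i => norm_pos_iff.2 (he i))
      (fun i l h => (hdece i l h).trans (mul_le_mul_of_nonneg_right ?_ (norm_nonneg _)))
      (fun i l => (norm_entry_le_entrywise_sup_norm _).trans (hNb.1.trans ?_)) ?_ ?_
    · rw [hC₃]; nlinarith [abs_nonneg C₀, mul_nonneg (mul_nonneg (sq_nonneg D) (abs_nonneg C₀)) hGs]
    · rw [hC₃]; nlinarith [abs_nonneg C₀, mul_nonneg (mul_nonneg (sq_nonneg D) (abs_nonneg C₀)) hGs]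
    · intro b hb
      obtain ⟨t, τ, ht⟩ := exists_sub (Fin.castLE hb) (Fin.castLE_injective hb)
      have h1 : cmp b (Ki * U) * cmp b (Ui * K) = 1 := by
        rw [← cmp_mul, Matrix.mul_assoc, ← Matrix.mul_assoc U, hU.1, one_mul, hK.2.1, cmp_one]
      have h2 := congrFun (congrFun h1 t) t
      rw [Matrix.mul_apply, one_apply_eq] at h2
      have : Nonempty (Sub n b) := ⟨t⟩
      obtain ⟨s, hs⟩ := Finite.exists_max fun s => ‖cmp b (Ui * K) s t‖
      have h4 : 1 ≤ H b * ‖cmp b (Ui * K) s t‖ := by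
        rw [← norm_one (α := k), ← h2]
        refine (norm_sum_le _ _).trans ((sum_le_card_nsmul _ _
          (b.factorial * C₂ ^ b * ‖cmp b (Ui * K) s t‖) fun r _ => ?_).trans_eq ?_)
        · rw [norm_mul]
          refine mul_le_mul ?_ (hs r) (norm_nonneg _) (by positivity)
          exact ((norm_entry_le_entrywise_sup_norm _).trans (norm_cmp_le b _)).trans
            (mul_le_mul_of_nonneg_left (pow_le_pow_left₀ (norm_nonneg _) hNb.2 b) (Nat.cast_nonneg _))
        · rw [nsmul_eq_mul, card_univ, hH]; ring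
      refine ⟨fun i => emb s (τ i), (emb s).injective.comp τ.injective, ?_⟩
      rw [show (Ui * K).submatrix (fun i => emb s (τ i)) (Fin.castLE hb) =
        ((Ui * K).submatrix (emb s) (emb t)).submatrix τ τ by ext u v; simp [ht], norm_det_perm]
      change c ≤ ‖cmp b (Ui * K) s t‖
      have hHb : H b ≤ 1 + ∑ j ∈ range (n + 1), H j :=
        (single_le_sum (fun i _ => hH0 i) (mem_range.2 (Nat.lt_succ_of_le hb))).trans
          (le_add_of_nonneg_left zero_le_one)
      rw [hc, div_le_iff₀ (lt_of_lt_of_le one_pos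
        (le_add_of_nonneg_right (sum_nonneg fun i _ => hH0 i)))]
      linarith [mul_le_mul_of_nonneg_right hHb (norm_nonneg (cmp b (Ui * K) s t))]
    · intro j hj f hf
      have hfac : Ui * K * diagonal d = diagonal e * (U' * (wi * y) * Ki') := by
        have hy : y = U * diagonal e * U' * (wi * y) := by
          rw [← hwe, ← Matrix.mul_assoc, hw, one_mul]
        calc Ui * K * diagonal d = Ui * y * Ki' := by
              rw [hyd]; simp only [Matrix.mul_assoc, hK'.1, mul_one]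
          _ = _ := by
              conv_lhs => rw [hy]
              simp only [Matrix.mul_assoc]
              rw [← Matrix.mul_assoc Ui, hU.2.1, one_mul]
      set X := U' * (wi * y) * Ki'
      have h1 : (Ui * K).submatrix f (Fin.castLE hj) * diagonal (fun i => d (Fin.castLE hj i)) =
          diagonal (fun i => e (f i)) * X.submatrix f (Fin.castLE hj) := by
        ext u v
        have := congrFun (congrFun hfac (f u)) (Fin.castLE hj v)
        simpa [mul_diagonal, diagonal_mul] using this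
      have h2 := congrArg (fun A => ‖Matrix.det A‖) h1
      simp only [det_mul, det_diagonal, norm_mul, norm_prod] at h2
      change ‖((Ui * K).submatrix f _).det‖ * pa (fun i => ‖d i‖) hj = _ at h2
      have h3 : ‖(X.submatrix f (Fin.castLE hj)).det‖ ≤ G j * ‖cmp j (wi * y)‖ :=
        (minor_le X _ _ hf (Fin.castLE_injective hj)).trans
          (norm_cmp_mul3_le _ _ _ hU'.2.2.1 hK'.2.2.2)
      obtain ⟨-, hw2⟩ := hszw j hj
      obtain ⟨hy1, -⟩ := hsy j hj
      have hGj : G j ≤ 1 + ∑ i ∈ range (n + 1), G i :=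
        (single_le_sum (fun i _ => hG0 i) (mem_range.2 (Nat.lt_succ_of_le hj))).trans
          (le_add_of_nonneg_left zero_le_one)
      have hpe : 0 < pa (fun i => ‖e i‖) hj := pa_pos (fun i => norm_pos_iff.2 (he i)) hj
      have hpd : 0 < pa (fun i => ‖d i‖) hj := pa_pos (fun i => norm_pos_iff.2 (hd i)) hj
      set pe := pa (fun i => ‖e i‖) hj
      set pd := pa (fun i => ‖d i‖) hj
      set Pf := ∏ i, ‖e (f i)‖
      have hPf : 0 ≤ Pf := prod_nonneg fun _ _ => norm_nonneg _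
      have h6 : pe * ‖cmp j (wi * y)‖ ≤ D ^ 2 * |C₀| * pd := by
        have a1 := mul_le_mul_of_nonneg_right hw2 (norm_nonneg (cmp j (wi * y)))
        have a2 := mul_le_mul_of_nonneg_left ((hadd j hj).trans
          (mul_le_mul (le_abs_self C₀) hy1 (norm_nonneg _) (abs_nonneg _)))
          (zero_le_one.trans hD)
        linarith
      refine le_of_mul_le_mul_right ?_ hpd
      calc ‖((Ui * K).submatrix f (Fin.castLE hj)).det‖ * pe * pd
          = Pf * ‖(X.submatrix f (Fin.castLE hj)).det‖ * pe := by rw [← h2]; ring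
        _ ≤ Pf * (G j * ‖cmp j (wi * y)‖) * pe :=
            mul_le_mul_of_nonneg_right (mul_le_mul_of_nonneg_left h3 hPf) hpe.le
        _ = Pf * G j * (pe * ‖cmp j (wi * y)‖) := by ring
        _ ≤ Pf * (1 + ∑ i ∈ range (n + 1), G i) * (D ^ 2 * |C₀| * pd) :=
            mul_le_mul (mul_le_mul_of_nonneg_left hGj hPf) h6 (by positivity)
              (mul_nonneg hPf hGs)
        _ = (D ^ 2 * |C₀| * (1 + ∑ i ∈ range (n + 1), G i)) * Pf * pd := by ring
        _ ≤ C₃ * Pf * pd := by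
            refine mul_le_mul_of_nonneg_right (mul_le_mul_of_nonneg_right ?_ hPf) hpd.le
            rw [hC₃]; linarith
  set W : Matrix (Fin n) (Fin n) k :=
    diagonal (fun i => (e i)⁻¹) * (Ui * K) * diagonal e with hW
  set W' : Matrix (Fin n) (Fin n) k :=
    diagonal (fun i => (e i)⁻¹) * (Ki * U) * diagonal e with hW'
  have hdd : diagonal e * diagonal (fun i => (e i)⁻¹) = 1 := by
    rw [diagonal_mul_diagonal, ← diagonal_one]; congr 1; funext i; exact mul_inv_cancel₀ (he i)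
  have hWW : W * W' = 1 := by
    rw [hW, hW']
    simp only [Matrix.mul_assoc]
    rw [← Matrix.mul_assoc (diagonal e) (diagonal _), hdd, one_mul, ← Matrix.mul_assoc K,
      hK.1, one_mul, ← Matrix.mul_assoc Ui, hU.2.1, one_mul]
    rw [diagonal_mul_diagonal, ← diagonal_one]; congr 1; funext i; exact inv_mul_cancel₀ (he i)
  have hWb : ∀ i l, ‖W i l‖ ≤ B + 1 := fun i l => by
    rw [hW, mul_diagonal, diagonal_mul, norm_mul, norm_mul, norm_inv, mul_assoc,
      inv_mul_le_iff₀ (norm_pos_iff.2 (he i))]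
    linarith [f1 i l, norm_nonneg (e i)]
  have hW'adj : W' = W'.det • W.adjugate := by
    have h1 : W.adjugate = W.det • W' := by
      calc W.adjugate = W.adjugate * (W * W') := by rw [hWW, mul_one]
        _ = W.det • W' := by rw [← Matrix.mul_assoc, adjugate_mul, Matrix.smul_mul, one_mul]
    rw [h1, smul_smul, ← det_mul, mul_eq_one_comm.1 hWW, det_one, one_smul]
  have hW'b : ∀ i l, ‖W' i l‖ ≤ Bi := fun i l => by
    have hdet : ‖W'.det‖ ≤ n.factorial * C₂ ^ n := by
      have e : W'.det = (Ki * U).det := by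
        rw [hW', det_mul, det_mul, mul_comm, ← mul_assoc, ← det_mul, hdd, det_one, one_mul]
      rw [e]
      refine norm_det_le _ fun u v => (norm_entry_le_entrywise_sup_norm _).trans
        ((norm_mul_le_card _ _).trans ?_)
      rw [Fintype.card_fin, hC₂]
      linarith [mul_le_mul_of_nonneg_left (mul_le_mul hK.2.2.2 hU.2.2.1 (norm_nonneg _) hC₁0)
        (Nat.cast_nonneg (α := ℝ) n)]
    rw [hW'adj, Matrix.smul_apply, smul_eq_mul, norm_mul]
    exact mul_le_mul hdet (adjugate_entry_le (le_add_of_nonneg_left hB) W hWb i l) (norm_nonneg _)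
      (by positivity)
  intro i l
  refine ⟨(f1 i l).trans (mul_le_mul_of_nonneg_right ?_ (norm_nonneg _)), ?_⟩
  · have : 0 ≤ Bi + D := add_nonneg (by positivity) (zero_le_one.trans hD)
    linarith
  · have h := hW'b i l
    rw [hW', mul_diagonal, diagonal_mul, norm_mul, norm_mul, norm_inv, mul_assoc,
      inv_mul_le_iff₀ (norm_pos_iff.2 (he i))] at h
    refine h.trans ((mul_comm _ _).trans_le (mul_le_mul_of_nonneg_right ?_ (norm_nonneg _)))
    have : 0 ≤ B + D := add_nonneg hB (zero_le_one.trans hD)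
    linarith

/-- An interval of multiplicative sizes is bounded. -/
theorem norm_div_le (n : ℕ) (C₀ : ℝ) : ∃ B : ℝ, ∀ z zi z' zi' y : Matrix (Fin n) (Fin n) k,
    z * zi = 1 → z' * zi' = 1 → z.det = 1 → z'.det = 1 → y.det = 1 →
    (∀ j ≤ n, ‖cmp j z‖ * ‖cmp j (zi * y)‖ ≤ C₀ * ‖cmp j y‖ ∧
      ‖cmp j z'‖ * ‖cmp j (zi' * y)‖ ≤ C₀ * ‖cmp j y‖ ∧ ‖cmp j z'‖ ≤ C₀ * ‖cmp j z‖ ∧
      ‖cmp j z‖ ≤ C₀ * ‖cmp j z'‖) →
    ‖zi * z'‖ ≤ B := by
  obtain ⟨C, B, hC, hB, hpiv, haxes⟩ := exists_axes (k := k) n C₀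
  have hC0 : 0 ≤ C := zero_le_one.trans hC
  set R : ℝ := (B ^ 2 * |C₀|) ^ 2 with hR
  refine ⟨n * (n * (C * (n * (B * R * B))) * C), ?_⟩
  intro z zi z' zi' y hz hz' hdz hdz' hdy hyp
  obtain ⟨L, Li, L', Li', a, hpz⟩ := hpiv z hdz
  obtain ⟨M, Mi, M', Mi', a', hpz'⟩ := hpiv z' hdz'
  obtain ⟨K, Ki, K', Ki', d, hpy⟩ := hpiv y hdy
  have f1 := haxes z zi y L Li L' Li' K Ki K' Ki' a d hpz hpy hz fun j hj => (hyp j hj).1
  have f2 := haxes z' zi' y M Mi M' Mi' K Ki K' Ki' a' d hpz' hpy hz' fun j hj => (hyp j hj).2.1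
  obtain ⟨hza, hL, hL', ha, -, hsz⟩ := hpz
  obtain ⟨hz'a, hM, hM', ha', -, hsz'⟩ := hpz'
  obtain ⟨-, hK, -, -, -, -⟩ := hpy
  have hratio : ∀ i, ‖a' i‖ ≤ R * ‖a i‖ := by
    intro i
    have key : ∀ j (hj : j ≤ n), pa (fun i => ‖a' i‖) hj ≤ B ^ 2 * |C₀| * pa (fun i => ‖a i‖) hj ∧
        pa (fun i => ‖a i‖) hj ≤ B ^ 2 * |C₀| * pa (fun i => ‖a' i‖) hj := by
      intro j hj
      obtain ⟨-, -, hc1, hc2⟩ := hyp j hj
      constructor
      · have := mul_le_mul_of_nonneg_left (hc1.trans (mul_le_mul (le_abs_self C₀) (hsz j hj).1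
          (norm_nonneg _) (abs_nonneg _))) hB
        linarith [(hsz' j hj).2]
      · have := mul_le_mul_of_nonneg_left (hc2.trans (mul_le_mul (le_abs_self C₀) (hsz' j hj).1
          (norm_nonneg _) (abs_nonneg _))) hB
        linarith [(hsz j hj).2]
    have h1 := (key (i.1 + 1) i.2).1
    have h2 := (key i.1 i.2.le).2
    rw [pa_succ, pa_succ] at h1
    have hp := pa_pos (α := fun i => ‖a' i‖) (fun i => norm_pos_iff.2 (ha' i)) i.2.le
    have hp' := pa_pos (α := fun i => ‖a i‖) (fun i => norm_pos_iff.2 (ha i)) i.2.le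
    refine le_of_mul_le_mul_right ?_ hp
    have h3 := mul_le_mul_of_nonneg_left h2
      (show (0:ℝ) ≤ B ^ 2 * |C₀| * ‖a i‖ by positivity)
    simp only [Fin.eta] at h1
    linarith
  set W' : Matrix (Fin n) (Fin n) k :=
    diagonal (fun i => (a' i)⁻¹) * (Ki * M) * diagonal a' with hW'
  have hdd : diagonal a' * diagonal (fun i => (a' i)⁻¹) = 1 := by
    rw [diagonal_mul_diagonal, ← diagonal_one]; congr 1; funext i; exact mul_inv_cancel₀ (ha' i)
  set V : Matrix (Fin n) (Fin n) k :=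
    diagonal (fun i => (a i)⁻¹) * (Li * K) * diagonal a' with hV
  have hVb : ‖V‖ ≤ B * R := (Matrix.norm_le_iff (by positivity)).2 fun i l => by
    rw [hV, mul_diagonal, diagonal_mul, norm_mul, norm_mul, norm_inv, mul_assoc,
      inv_mul_le_iff₀ (norm_pos_iff.2 (ha i))]
    have h1 := mul_le_mul_of_nonneg_left (hratio l) (norm_nonneg ((Li * K) i l))
    have h2 := mul_le_mul_of_nonneg_right (f1 i l).1 (sq_nonneg (B ^ 2 * |C₀|))
    rw [← hR] at h2
    linarith
  have hzi : zi = Li' * diagonal (fun i => (a i)⁻¹) * Li := by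
    have hdia : diagonal a * diagonal (fun i => (a i)⁻¹) = 1 := by
      rw [diagonal_mul_diagonal, ← diagonal_one]; congr 1; funext i; exact mul_inv_cancel₀ (ha i)
    have h : z * (Li' * diagonal (fun i => (a i)⁻¹) * Li) = 1 := by
      rw [hza]; simp only [Matrix.mul_assoc]
      rw [← Matrix.mul_assoc L', hL'.1, one_mul, ← Matrix.mul_assoc (diagonal a), hdia, one_mul,
        hL.1]
    calc zi = zi * (z * (Li' * diagonal (fun i => (a i)⁻¹) * Li)) := by rw [h, mul_one]
      _ = _ := by rw [← Matrix.mul_assoc, mul_eq_one_comm.1 hz, one_mul]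
  have hprod : zi * z' = Li' * (V * W') * M' := by
    rw [hzi, hz'a, hV, hW']
    simp only [Matrix.mul_assoc]
    rw [← Matrix.mul_assoc (diagonal a') (diagonal _), hdd, one_mul, ← Matrix.mul_assoc K Ki,
      hK.1, one_mul]
  have hW'n : ‖W'‖ ≤ B := (Matrix.norm_le_iff hB).2 fun i l => by
    rw [hW', mul_diagonal, diagonal_mul, norm_mul, norm_mul, norm_inv, mul_assoc,
      inv_mul_le_iff₀ (norm_pos_iff.2 (ha' i))]
    linarith [(f2 i l).2]
  have hVW : ‖V * W'‖ ≤ n * (B * R * B) := (norm_mul_le_card _ _).trans (by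
    rw [Fintype.card_fin]
    exact mul_le_mul_of_nonneg_left (mul_le_mul hVb hW'n (norm_nonneg _) (by positivity))
      (Nat.cast_nonneg _))
  have hmid : ‖Li' * (V * W')‖ ≤ n * (C * (n * (B * R * B))) :=
    (norm_mul_le_card _ _).trans (by
      rw [Fintype.card_fin]
      exact mul_le_mul_of_nonneg_left (mul_le_mul hL'.2.2.2 hVW (norm_nonneg _) hC0)
        (Nat.cast_nonneg _))
  rw [hprod]
  refine (norm_mul_le_card _ _).trans ?_
  rw [Fintype.card_fin]
  exact mul_le_mul_of_nonneg_left (mul_le_mul hmid hM'.2.2.1 (norm_nonneg _) (by positivity))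
    (Nat.cast_nonneg _)

end Field

end Vale.Agent.P165.EX
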