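import Vale.Agent.P165.EX.Windows

/-!
# The weighted rows of one window

The window splits into the small elements, the elements with a large cocycle and the rest. With the
weight `exp (-θ / (η n) * En)` linear volume bounds the middle part and small masses of the two others
bound the rows by `n / 4`, so Schur's test gives a small form at one of finitely many windows, and
hence at the parameter approached from below.
-/

namespace Vale.Agent.P165.EX

open Finset FF Filter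

variable {Γ O ι X : Type} [Group Γ] [DecidableEq Γ] [DecidableEq O] [Fintype ι]
  {G : SimpleGraph (Γ × O)} {nb : Γ × O → ι → Γ × O}

/-- The connection inside the window of a base vertex. -/
noncomputable def winT (nb : Γ × O → ι → Γ × O) (q : ℝ) (n : ℕ) (o : O) (z : Γ × O) : ℝ :=
  tauIn nb (QT.wball nb ((1 : Γ), o) n) q ((1 : Γ), o) z

/-- Linear volume of the windows. -/
def WinVolume (nb : Γ × O → ι → Γ × O) (q : ℝ) (n : ℕ) (K : ℝ) : Prop :=
  ∀ o : O, ∑ z ∈ QT.wball nb ((1 : Γ), o) n, winT nb q n o z ≤ K * n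

/-- The small elements of a window carry at most `ε n`. -/
def WinSmall (nb : Γ × O → ι → Γ × O) (q : ℝ) (n : ℕ) (sz : Γ → ℝ) (η ε : ℝ) : Prop :=
  ∀ o : O, ∑ z ∈ (QT.wball nb ((1 : Γ), o) n).filter (fun z => sz z.1 ≤ η * n),
    winT nb q n o z ≤ ε * n

/-- The large elements of a window with small cocycle carry at most `ε n`. -/
def WinBad (nb : Γ × O → ι → Γ × O) (q : ℝ) (n : ℕ) (sz : Γ → ℝ) (En : X → Γ → ℝ) (η ε : ℝ) :
    Prop :=
  ∀ (x : X) (o : O), ∑ z ∈ (QT.wball nb ((1 : Γ), o) n).filter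
    (fun z => η * n < sz z.1 ∧ En x z.1 ≤ η * n / 2), winT nb q n o z ≤ ε * n

omit [DecidableEq Γ] in
theorem cocycle_exp {En : X → Γ → ℝ} (β : ℝ)
    (hco : ∀ x g, ∃ x', ∀ h, En x (g * h) = En x g + En x' h) :
    Cocycle fun x g => Real.exp (-(β * En x g)) := by
  refine ⟨fun x g => Real.exp_pos _, fun x g => ?_⟩
  obtain ⟨x', hx'⟩ := hco x g
  refine ⟨x', fun h => ?_⟩
  simp only
  rw [hx' h, ← Real.exp_add]
  ring_nf

/-- The three parts bound the rows. -/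
theorem rowBound_of_parts (hl : Labelling G nb) {q : ℝ} (h0 : 0 ≤ q) (h1 : q ≤ 1) {n : ℕ}
    {sz : Γ → ℝ} {En : X → Γ → ℝ} {C₀ θ η εs εb K : ℝ} (hC : 0 ≤ C₀) (hθ : 0 ≤ θ) (hη : 0 < η)
    (hn : 1 ≤ η * n) (hlow : ∀ x g, -(C₀ * (sz g + 1)) ≤ En x g)
    (hwin : ∀ o, ∀ z ∈ QT.wball nb ((1 : Γ), o) n, sz z.1 ≤ C₀ * n)
    (hvol : WinVolume nb q n K) (hsmall : WinSmall nb q n sz η εs)
    (hbad : WinBad nb q n sz En η εb)
    (hnum : Real.exp (2 * C₀ * θ) * εs + Real.exp (-(θ / 2)) * K +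
      Real.exp (θ * C₀ * (C₀ + 1) / η) * εb ≤ 1 / 4) :
    RowBound nb (fun x g => Real.exp (-(θ / (η * n) * En x g))) q n ((n : ℝ) / 4) := by
  classical
  intro x o S
  have hη0 : 0 < η * n := by linarith
  have hn1 : (1 : ℝ) ≤ n := Nat.one_le_cast.2 (Nat.one_le_iff_ne_zero.2 fun h => by
    rw [h, Nat.cast_zero, mul_zero] at hn; linarith)
  set a : Γ × O := ((1 : Γ), o)
  set Q := QT.wball nb a n with hQ
  set W : Γ → ℝ := fun g => Real.exp (-(θ / (η * n) * En x g)) with hW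
  set b : Γ × O → ℝ := winT nb q n o with hb
  have hb0 : ∀ z, 0 ≤ b z := fun z => tauIn_nonneg _ h0 h1 _ _
  have hWle : ∀ g R, -En x g ≤ R → W g ≤ Real.exp (θ / (η * n) * R) := fun g R hR => by
    refine Real.exp_le_exp.2 ?_
    rw [← mul_neg]
    exact mul_le_mul_of_nonneg_left hR (div_nonneg hθ hη0.le)
  refine (sum_le_sum (g := fun y => (if y ∈ Q then b y else 0) * W y.1) fun y _ => ?_).trans ?_
  · refine mul_le_mul_of_nonneg_right ?_ (Real.exp_pos _).le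
    by_cases hy : y ∈ Q
    · rw [if_pos hy]
      exact FQ.tauW_le_tauIn _ h0 h1 _ _ _
    · rw [if_neg hy, tau, FQ.tauW_eq_zero hl (QT.covers_wball hl n) _ q fun h => hy h.1]
  have hsum : ∑ y ∈ S, (if y ∈ Q then b y else 0) * W y.1 ≤ ∑ y ∈ Q, b y * W y.1 := by
    simp only [ite_mul, zero_mul, ← sum_filter]
    exact sum_le_sum_of_subset_of_nonneg (fun y hy => (mem_filter.1 hy).2)
      fun y _ _ => mul_nonneg (hb0 y) (Real.exp_pos _).le
  refine hsum.trans ?_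
  rw [← sum_filter_add_sum_filter_not Q fun z => sz z.1 ≤ η * n,
    ← sum_filter_add_sum_filter_not (Q.filter fun z => ¬sz z.1 ≤ η * n)
      fun z => En x z.1 ≤ η * n / 2]
  have hs : ∑ z ∈ Q.filter (fun z => sz z.1 ≤ η * n), b z * W z.1 ≤
      εs * n * Real.exp (2 * C₀ * θ) := by
    refine (sum_le_sum (g := fun z => b z * Real.exp (2 * C₀ * θ)) fun z hz =>
      mul_le_mul_of_nonneg_left ((hWle z.1 (C₀ * (η * n + 1)) ?_).trans
        (Real.exp_le_exp.2 ?_)) (hb0 z)).trans ?_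
    · have := mul_le_mul_of_nonneg_left (mem_filter.1 hz).2 hC
      linarith [hlow x z.1]
    · rw [div_mul_eq_mul_div, div_le_iff₀ hη0]
      have := mul_le_mul_of_nonneg_left hn (mul_nonneg hC hθ)
      linarith
    · rw [← sum_mul]
      exact mul_le_mul_of_nonneg_right (hsmall o) (Real.exp_pos _).le
  have hbd : ∑ z ∈ (Q.filter fun z => ¬sz z.1 ≤ η * n).filter (fun z => En x z.1 ≤ η * n / 2),
      b z * W z.1 ≤ εb * n * Real.exp (θ * C₀ * (C₀ + 1) / η) := by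
    refine (sum_le_sum (g := fun z => b z * Real.exp (θ * C₀ * (C₀ + 1) / η)) fun z hz =>
      mul_le_mul_of_nonneg_left ((hWle z.1 (C₀ * ((C₀ + 1) * n)) ?_).trans
        (Real.exp_le_exp.2 (le_of_eq ?_))) (hb0 z)).trans ?_
    · have h1' := hwin o z (filter_subset _ _ (filter_subset _ _ hz))
      have := mul_le_mul_of_nonneg_left (add_le_add h1' hn1) hC
      linarith [hlow x z.1]
    · field_simp
    · rw [← sum_mul]
      refine mul_le_mul_of_nonneg_right ?_ (Real.exp_pos _).le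
      rw [filter_filter]
      simp only [not_le]
      exact hbad x o
  have hg : ∑ z ∈ (Q.filter fun z => ¬sz z.1 ≤ η * n).filter (fun z => ¬En x z.1 ≤ η * n / 2),
      b z * W z.1 ≤ K * n * Real.exp (-(θ / 2)) := by
    refine (sum_le_sum (g := fun z => b z * Real.exp (-(θ / 2))) fun z hz =>
      mul_le_mul_of_nonneg_left (Real.exp_le_exp.2 ?_) (hb0 z)).trans ?_
    · have hz' := lt_of_not_ge (mem_filter.1 hz).2
      have h := mul_le_mul_of_nonneg_left hz'.le (div_nonneg hθ hη0.le)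
      rw [show θ / (η * n) * (η * n / 2) = θ / 2 by field_simp] at h
      linarith
    · rw [← sum_mul]
      refine mul_le_mul_of_nonneg_right ((sum_le_sum_of_subset_of_nonneg
        (fun z hz => filter_subset _ _ (filter_subset _ _ hz)) fun z _ _ => hb0 z).trans (hvol o))
          (Real.exp_pos _).le
  refine (add_le_add hs (add_le_add hbd hg)).trans ?_
  have := mul_le_mul_of_nonneg_left hnum (zero_le_one.trans hn1)
  linarith

/-- Linear volume, small elements and bad bands give small rows in finitely many windows. -/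
theorem windowsBelow_of_parts [Nonempty X] (hl : Labelling G nb) {p : ℝ}
    (hp : 0 < p) (hp1 : p ≤ 1) {sz : Γ → ℝ} {En : X → Γ → ℝ} {C₀ : ℝ} (hC : 0 ≤ C₀)
    (hlow : ∀ x g, -(C₀ * (sz g + 1)) ≤ En x g)
    (hco : ∀ x g, ∃ x', ∀ h, En x (g * h) = En x g + En x' h)
    (hwin : ∀ (n : ℕ) o, 1 ≤ n → ∀ z ∈ QT.wball nb ((1 : Γ), o) n, sz z.1 ≤ C₀ * n)
    (hvol : ∃ K : ℝ, 0 ≤ K ∧ ∀ n : ℕ, 1 ≤ n → ∀ q, p / 2 ≤ q → q < p → WinVolume nb q n K)
    (hsmall : ∀ ε : ℝ, 0 < ε → ∃ η : ℝ, 0 < η ∧ ∃ n₀ : ℕ, ∀ n, n₀ ≤ n → ∀ q, p / 2 ≤ q → q < p →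
      WinSmall nb q n sz η ε)
    (hbad : ∀ η : ℝ, 0 < η → ∀ ε : ℝ, 0 < ε → ∀ n₀ : ℕ, ∃ Nmax : ℕ, ∀ q, p / 2 ≤ q → q < p →
      ∃ n, n₀ ≤ n ∧ n ≤ Nmax ∧ WinBad nb q n sz En η ε) :
    WindowsBelow nb p := by
  classical
  obtain ⟨K, hK, hV⟩ := hvol
  obtain ⟨θ, hθ, hθK⟩ : ∃ θ : ℝ, 0 ≤ θ ∧ Real.exp (-(θ / 2)) * K ≤ 1 / 12 := by
    refine ⟨24 * K, by positivity, ?_⟩
    rw [Real.exp_neg, inv_mul_le_iff₀ (Real.exp_pos _)]
    linarith [Real.add_one_le_exp (24 * K / 2)]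
  set εs : ℝ := 1 / (12 * Real.exp (2 * C₀ * θ)) with hεs
  obtain ⟨η, hη, n₁, hS⟩ := hsmall εs (by positivity)
  set εb : ℝ := 1 / (12 * Real.exp (θ * C₀ * (C₀ + 1) / η)) with hεb
  set n₀ : ℕ := max n₁ (⌈1 / η⌉₊ + 1)
  obtain ⟨Nmax, hN⟩ := hbad η hη εb (by positivity) n₀
  refine ⟨Finset.Icc n₀ Nmax, fun q hq hq' => ?_⟩
  obtain ⟨n, hn0, hnN, hB⟩ := hN q hq hq'
  have hn1 : ⌈1 / η⌉₊ + 1 ≤ n := (le_max_right _ _).trans hn0
  have hn : 1 ≤ η * n := by
    have h : 1 / η ≤ n := (Nat.le_ceil _).trans (Nat.cast_le.2 ((Nat.le_succ _).trans hn1))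
    rw [div_le_iff₀ hη] at h
    linarith
  have h0 : 0 ≤ q := by linarith [hp]
  have h1 : q ≤ 1 := hq'.le.trans hp1
  refine ⟨n, Finset.mem_Icc.2 ⟨hn0, hnN⟩, by omega, X, inferInstance, _,
    cocycle_exp (θ / (η * n)) hco,
    rowBound_of_parts hl h0 h1 hC hθ hη hn hlow (fun o => hwin n o (by omega))
      (hV n (by omega) q hq hq') (hS n ((le_max_left _ _).trans hn0) q hq hq') hB ?_⟩
  have e1 : Real.exp (2 * C₀ * θ) * εs = 1 / 12 := by rw [hεs]; field_simp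
  have e2 : Real.exp (θ * C₀ * (C₀ + 1) / η) * εb = 1 / 12 := by rw [hεb]; field_simp
  linarith

end Vale.Agent.P165.EX
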