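import Vale.Agent.P165.EX.States
import Vale.Agent.P165.EX.Rows
import Vale.Agent.P165.EX.BallCount

/-!
# Linear volume and small elements from the master inequality

With one finite set of frames and pushes of small average, the master inequality on a whole window
gives linear volume, and on its small elements that are not too weakly connected a mass which is a
small multiple of the window.
-/

namespace Vale.Agent.P165.EX

open Finset Matrix FF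
open scoped Matrix.Norms.Elementwise MatrixGroups

variable {k : Type} [NontriviallyNormedField k] {d : ℕ} {Γ : Type} [Group Γ] (ρ : Γ →* SL(d, k))
  {O ι : Type} [DecidableEq Γ] [DecidableEq O] [Fintype O] [Fintype ι]
  {G : SimpleGraph (Γ × O)} {nb : Γ × O → ι → Γ × O}

/-- The master inequality for one frame set and one push set: parents in a window, children from a
set carrying half of the connections from the anchor. -/
def MasterOn (nb : Γ × O → ι → Γ × O) (o₁ : O) (p₀ : ℝ) (F : Finset Γ) (A C₁ CS : ℝ)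
    (S : Finset Γ) : Prop :=
  ∀ q, p₀ ≤ q → q ≤ 1 → Witness nb q → ∀ ε : ℝ, 0 ≤ ε →
    (∀ X : Finset (Γ × O), ∑ x ∈ X, (∑ g ∈ S, T nb q (g, o₁) x) ^ 2 ≤ (ε * S.card) ^ 2) →
    ∀ U : Finset Γ, (∀ U' : Finset Γ, ∑ g ∈ U', anc nb o₁ q g ≤ 2 * ∑ g ∈ U, anc nb o₁ q g) →
    ∀ (m : ℕ) (o : O) (W₀ : Finset (Γ × O)), W₀ ⊆ QT.wball nb ((1 : Γ), o) m →
    ∀ r, 0 < r → r ≤ 1 → (∀ w ∈ W₀, r ≤ T nb q ((1 : Γ), o) w) →
    ∀ R : Γ → Γ → Γ, (∀ z h, R z h ∈ F ∧ Cand ρ F A (z * R z h * h) z) →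
    ∀ Y : Finset Γ, (∀ w ∈ W₀, ∀ g ∈ S, ∀ h ∈ U, w.1 * R w.1 (g * h) * (g * h) ∈ Y) →
      (∑ w ∈ W₀, winT nb q m o w) * ∑ g ∈ U, anc nb o₁ q g ≤
        C₁ * ε * (∑ w ∈ QT.wball nb ((1 : Γ), o) m, winT nb q m o w) * ∑ g ∈ U, anc nb o₁ q g +
          CS * (1 + Real.log (1 / r)) * ∑ y ∈ Y, T nb q ((1 : Γ), o) (y, o₁)

omit [Fintype O] in
/-- A window connects at least like its length. -/
theorem pow_le_T (hl : Labelling G nb) {q : ℝ} (h0 : 0 ≤ q) (h1 : q ≤ 1) {n : ℕ} {a z : Γ × O}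
    (hz : z ∈ QT.wball nb a n) : q ^ n ≤ T nb q a z := by
  obtain ⟨w, hw⟩ := (QT.wball_mem hl).1 hz
  have hlen : w.edges.toFinset.card ≤ n :=
    ((List.toFinset_card_le _).trans (by simp)).trans hw
  exact (pow_le_pow_of_le_one h0 h1 hlen).trans
    ((pow_le_tauIn hl w h0 h1).trans (le_T h0 h1 _ a z))

/-- Half of the connections from the anchor lie in a finite set. -/
theorem exists_half (hl : Labelling G nb) (hinv : Inv G) (o₁ : O) {q : ℝ} (h0 : 0 ≤ q)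
    (h1 : q ≤ 1) (hw : Witness nb q) :
    ∃ U : Finset Γ, 0 < ∑ g ∈ U, anc nb o₁ q g ∧
      ∀ U' : Finset Γ, ∑ g ∈ U', anc nb o₁ q g ≤ 2 * ∑ g ∈ U, anc nb o₁ q g := by
  classical
  obtain ⟨X, hX⟩ := susceptibility hl hinv h0 h1 hw
  set V := Set.range fun U : Finset Γ => ∑ g ∈ U, anc nb o₁ q g with hV
  have hVb : BddAbove V := ⟨X, by
    rintro _ ⟨U, rfl⟩
    have h := sum_T_le hl h0 h1 ((1 : Γ), o₁) (U.image fun g => (g, o₁)) fun S => hX S _ _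
    rw [sum_image fun a _ b _ h => congrArg Prod.fst h] at h
    exact h⟩
  have hsup : 1 ≤ sSup V := le_csSup_of_le hVb ⟨{1}, rfl⟩ (by simp [anc, T_self h0 h1])
  obtain ⟨_, ⟨U, rfl⟩, hU⟩ := exists_lt_of_lt_csSup ⟨_, Set.mem_range_self (∅ : Finset Γ)⟩
    (show sSup V / 2 < sSup V by linarith)
  simp only at hU
  exact ⟨U, by linarith, fun U' => by linarith [le_csSup hVb (Set.mem_range_self U')]⟩

/-- The children of any set carry a bounded multiple of the connections from the anchor. -/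
theorem exists_children_le (hl : Labelling G nb) (hconn : G.Connected) (o₁ : O)
    {p₀ : ℝ} (hp : 0 < p₀) (hp1 : p₀ ≤ 1) :
    ∃ C : ℝ, 0 ≤ C ∧ ∀ q, p₀ ≤ q → q ≤ 1 → ∀ (o : O) (Y : Finset Γ),
      ∑ y ∈ Y, T nb q ((1 : Γ), o) (y, o₁) ≤ C * ∑ y ∈ Y, anc nb o₁ q y := by
  set b : O → ℝ := fun o => (T nb p₀ ((1 : Γ), o₁) ((1 : Γ), o))⁻¹
  have hb : ∀ o, 0 ≤ b o := fun o => inv_nonneg.2 (T_nonneg hp.le hp1 _ _)
  refine ⟨∑ o, b o, sum_nonneg fun o _ => hb o, fun q hq hq1 o Y => ?_⟩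
  have h0 : 0 ≤ q := hp.le.trans hq
  rw [mul_sum]
  refine sum_le_sum fun y _ => ?_
  have hpos := T_pos hl hconn hp hp1 ((1 : Γ), o₁) ((1 : Γ), o)
  have h2 : T nb p₀ ((1 : Γ), o₁) ((1 : Γ), o) * T nb q ((1 : Γ), o) (y, o₁) ≤
      anc nb o₁ q y :=
    (mul_le_mul_of_nonneg_right (T_mono hp.le hq hq1 _ _) (T_nonneg h0 hq1 _ _)).trans
      (T_trans hl h0 hq1 _ _ _)
  rw [← le_div_iff₀' hpos, div_eq_inv_mul] at h2
  exact h2.trans (mul_le_mul_of_nonneg_right (single_le_sum (fun o _ => hb o) (mem_univ o))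
    (anc_nonneg o₁ h0 hq1 y))

/-- The master inequality against all children. -/
theorem master_le (hl : Labelling G nb) (hinv : Inv G) (o₁ : O) {p₀ : ℝ} {F : Finset Γ}
    {A C₁ CS Cc : ℝ} (hCS : 0 ≤ CS) (hCc : 0 ≤ Cc) {S : Finset Γ}
    (hM : MasterOn ρ nb o₁ p₀ F A C₁ CS S) {q : ℝ} (hq : p₀ ≤ q) (hq0 : 0 ≤ q) (hq1 : q ≤ 1)
    (hw : Witness nb q)
    (hchild : ∀ (o : O) (Y : Finset Γ),
      ∑ y ∈ Y, T nb q ((1 : Γ), o) (y, o₁) ≤ Cc * ∑ y ∈ Y, anc nb o₁ q y)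
    {ε : ℝ} (hε : 0 ≤ ε)
    (hpush : ∀ X : Finset (Γ × O), ∑ x ∈ X, (∑ g ∈ S, T nb q (g, o₁) x) ^ 2 ≤ (ε * S.card) ^ 2)
    (R : Γ → Γ → Γ) (hR : ∀ z h, R z h ∈ F ∧ Cand ρ F A (z * R z h * h) z)
    (m : ℕ) (o : O) (W₀ : Finset (Γ × O)) (hW : W₀ ⊆ QT.wball nb ((1 : Γ), o) m) {r : ℝ}
    (hr : 0 < r) (hr1 : r ≤ 1) (hlow : ∀ w ∈ W₀, r ≤ T nb q ((1 : Γ), o) w) :
    ∑ w ∈ W₀, winT nb q m o w ≤
      C₁ * ε * (∑ w ∈ QT.wball nb ((1 : Γ), o) m, winT nb q m o w) +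
        2 * CS * Cc * (1 + Real.log (1 / r)) := by
  classical
  obtain ⟨U, hUpos, hU⟩ := exists_half hl hinv o₁ hq0 hq1 hw
  set Y := (W₀ ×ˢ (S ×ˢ U)).image fun u => u.1.1 * R u.1.1 (u.2.1 * u.2.2) * (u.2.1 * u.2.2)
  have h := hM q hq hq1 hw ε hε hpush U hU m o W₀ hW r hr hr1 hlow R hR Y fun w hw g hg h hh =>
    mem_image.2 ⟨(w, g, h), mem_product.2 ⟨hw, mem_product.2 ⟨hg, hh⟩⟩, rfl⟩
  have hl0 : 0 ≤ 1 + Real.log (1 / r) :=
    add_nonneg zero_le_one (Real.log_nonneg (by rw [le_div_iff₀ hr]; linarith))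
  refine le_of_mul_le_mul_right (h.trans ?_) hUpos
  rw [add_mul]
  refine add_le_add le_rfl ?_
  calc CS * (1 + Real.log (1 / r)) * ∑ y ∈ Y, T nb q ((1 : Γ), o) (y, o₁)
      ≤ CS * (1 + Real.log (1 / r)) * (Cc * (2 * ∑ g ∈ U, anc nb o₁ q g)) :=
        mul_le_mul_of_nonneg_left ((hchild o Y).trans
          (mul_le_mul_of_nonneg_left (hU Y) hCc)) (mul_nonneg hCS hl0)
    _ = _ := by ring

/-- Linear volume and small elements. -/
theorem exists_volume_small [ProperSpace k] (hl : Labelling G nb) (hinv : Inv G)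
    (hconn : G.Connected) (hd : 0 < d)
    (hdense : SL.ZariskiDense (Set.range fun g => (ρ g : Matrix (Fin d) (Fin d) k)))
    (hfin : ∀ R : ℝ, {g : Γ | ‖(ρ g : Matrix (Fin d) (Fin d) k)‖ ≤ R}.Finite) (o₁ : O)
    {p : ℝ} (hs : FQ.Sub nb p)
    (hmaster : ∀ (F : Finset Γ) (A : ℝ), ∃ C₁ : ℝ, 0 ≤ C₁ ∧ ∀ S : Finset Γ, S.Nonempty →
      ∃ CS : ℝ, 0 ≤ CS ∧ MasterOn ρ nb o₁ (p / 2) F A C₁ CS S)
    (hpush : ∀ ε : ℝ, 0 < ε → ∃ S : Finset Γ, S.Nonempty ∧ ∀ q, p / 2 ≤ q → q < p →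
      ∀ X : Finset (Γ × O), ∑ x ∈ X, (∑ g ∈ S, T nb q (g, o₁) x) ^ 2 ≤ (ε * S.card) ^ 2) :
    (∃ K : ℝ, 0 ≤ K ∧ ∀ n : ℕ, 1 ≤ n → ∀ q, p / 2 ≤ q → q < p → WinVolume nb q n K) ∧
    ∀ ε : ℝ, 0 < ε → ∃ η : ℝ, 0 < η ∧ ∃ n₀ : ℕ, ∀ n, n₀ ≤ n → ∀ q, p / 2 ≤ q → q < p →
      WinSmall nb q n (fun g => |lsize ρ g|) η ε := by
  classical
  obtain ⟨hp, hp1, hwit⟩ := hs
  set p₀ := p / 2 with hp₀
  have hp00 : 0 < p₀ := half_pos hp
  have hp01 : p₀ ≤ 1 := by linarith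
  obtain ⟨F, A, -, hchild⟩ := exists_child ρ hd hdense 0
  choose R hR using fun z h => hchild (fun i => i.elim0) z h
  have hR' : ∀ z h, R z h ∈ F ∧ Cand ρ F A (z * R z h * h) z := fun z h =>
    ⟨(hR z h).1, (hR z h).2.1⟩
  obtain ⟨C₁, hC₁, hMaster⟩ := hmaster F A
  obtain ⟨Cc, hCc, hCh⟩ := exists_children_le hl hconn o₁ hp00 hp01
  set lp := Real.log (1 / p₀) with hlp
  have hlp0 : 0 ≤ lp := Real.log_nonneg (by rw [le_div_iff₀ hp00]; linarith)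
  -- linear volume
  obtain ⟨S, hS, hSp⟩ := hpush (1 / (2 * (C₁ + 1))) (by positivity)
  obtain ⟨CS, hCS, hM⟩ := hMaster S hS
  have hvol : ∀ n : ℕ, 1 ≤ n → ∀ q, p₀ ≤ q → q < p →
      WinVolume nb q n (4 * CS * Cc * (1 + lp)) := by
    intro n hn q hq hq' o
    have h0 : 0 ≤ q := by linarith
    have h1 : q ≤ 1 := hq'.le.trans hp1
    have h := master_le ρ hl hinv o₁ hCS hCc hM hq h0 h1 (hwit q h0 hq') (hCh q hq h1)
      (by positivity) (hSp q hq hq') R hR' n o _ subset_rfl (r := p₀ ^ n) (pow_pos hp00 n)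
      (pow_le_one₀ hp00.le hp01)
      fun w hw => (pow_le_pow_left₀ hp00.le hq n).trans (pow_le_T hl h0 h1 hw)
    set V := ∑ w ∈ QT.wball nb ((1 : Γ), o) n, winT nb q n o w with hV
    have hV0 : 0 ≤ V := sum_nonneg fun w _ => tauIn_nonneg _ h0 h1 _ _
    have hhalf : C₁ * (1 / (2 * (C₁ + 1))) * V ≤ 1 / 2 * V := by
      refine mul_le_mul_of_nonneg_right ?_ hV0
      rw [mul_one_div, div_le_iff₀ (by positivity)]
      linarith
    have hlog : Real.log (1 / p₀ ^ n) = n * lp := by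
      rw [← _root_.one_div_pow, Real.log_pow]
    rw [hlog] at h
    have hn1 : (1 : ℝ) ≤ n := Nat.one_le_cast.2 hn
    have : CS * Cc * (1 + n * lp) ≤ CS * Cc * ((1 + lp) * n) :=
      mul_le_mul_of_nonneg_left (by linarith) (mul_nonneg hCS hCc)
    linarith
  set K := 4 * CS * Cc * (1 + lp) with hK
  have hK0 : 0 ≤ K := by positivity
  refine ⟨⟨K, hK0, hvol⟩, fun ε hε => ?_⟩
  -- small elements
  obtain ⟨Cb, D, hCb, hcount⟩ := exists_ball_count ρ hfin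
  obtain ⟨S', hS', hSp'⟩ := hpush (ε / (3 * (C₁ * K + 1))) (by positivity)
  obtain ⟨CS', hCS', hM'⟩ := hMaster S' hS'
  set a : ℝ := 2 * CS' * Cc * D with ha
  set η : ℝ := ε / (3 * (a + 1)) with hη
  have ha0 : 0 ≤ a := by positivity
  obtain ⟨n₀, hn₀⟩ := exists_nat_ge (3 * (2 * CS' * Cc + Fintype.card O * Cb) / ε)
  refine ⟨η, by positivity, n₀ + 1, fun n hn q hq hq' o => ?_⟩
  have h0 : 0 ≤ q := by linarith
  have h1 : q ≤ 1 := hq'.le.trans hp1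
  set Q := (QT.wball nb ((1 : Γ), o) n).filter fun z => |lsize ρ z.1| ≤ η * n with hQ
  set r : ℝ := Real.exp (-((D : ℝ) * (η * n))) with hr
  have hηn : 0 ≤ η * n := by positivity
  have hr1 : r ≤ 1 := Real.exp_le_one_iff.2 (by nlinarith [(Nat.cast_nonneg D : (0 : ℝ) ≤ D)])
  rw [← sum_filter_add_sum_filter_not Q fun z => r ≤ T nb q ((1 : Γ), o) z]
  -- the weakly connected part
  have hweak : ∑ z ∈ Q.filter (fun z => ¬r ≤ T nb q ((1 : Γ), o) z), winT nb q n o z ≤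
      Fintype.card O * Cb := by
    set Q' := Q.filter fun z => ¬r ≤ T nb q ((1 : Γ), o) z
    have hcard : (Q'.card : ℝ) ≤ Fintype.card O * (Cb * Real.exp (η * n) ^ D) := by
      have h1' : Q'.card ≤ (Q'.image Prod.fst ×ˢ (univ : Finset O)).card :=
        card_le_card fun z hz => mem_product.2 ⟨mem_image_of_mem _ hz, mem_univ _⟩
      rw [card_product, card_univ, mul_comm] at h1'
      refine (Nat.cast_le.2 h1').trans ?_
      push_cast
      refine mul_le_mul_of_nonneg_left (hcount _ (Real.one_le_exp hηn) _ fun g hg => ?_)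
        (Nat.cast_nonneg _)
      obtain ⟨z, hz, rfl⟩ := mem_image.1 hg
      have h := (le_abs_self _).trans (mem_filter.1 (mem_filter.1 hz).1).2
      rwa [lsize, Real.log_le_iff_le_exp (norm_rho_pos ρ hd _)] at h
    refine (sum_le_card_nsmul Q' _ r fun z hz =>
      (le_T h0 h1 _ _ _).trans (not_le.1 (mem_filter.1 hz).2).le).trans ?_
    rw [nsmul_eq_mul]
    refine (mul_le_mul_of_nonneg_right hcard (Real.exp_pos _).le).trans (le_of_eq ?_)
    rw [← Real.exp_nat_mul, mul_assoc, mul_assoc, ← Real.exp_add, add_neg_cancel,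
      Real.exp_zero, mul_one]
  have hmain := master_le ρ hl hinv o₁ hCS' hCc hM' hq h0 h1 (hwit q h0 hq') (hCh q hq h1)
    (by positivity) (hSp' q hq hq') R hR' n o (Q.filter fun z => r ≤ T nb q ((1 : Γ), o) z)
    ((filter_subset _ _).trans (filter_subset _ _)) (r := r) (Real.exp_pos _) hr1
    fun z hz => (mem_filter.1 hz).2
  have hlog : Real.log (1 / r) = (D : ℝ) * (η * n) := by
    rw [hr, one_div, ← Real.exp_neg, neg_neg, Real.log_exp]
  rw [hlog] at hmain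
  have hVK := hvol n (by omega) q hq hq' o
  have e1 : C₁ * (ε / (3 * (C₁ * K + 1))) *
      (∑ w ∈ QT.wball nb ((1 : Γ), o) n, winT nb q n o w) ≤ ε / 3 * n := by
    refine (mul_le_mul_of_nonneg_left hVK (by positivity)).trans ?_
    have : C₁ * K / (C₁ * K + 1) ≤ 1 := by rw [div_le_one (by positivity)]; linarith
    calc C₁ * (ε / (3 * (C₁ * K + 1))) * (K * n)
        = C₁ * K / (C₁ * K + 1) * (ε / 3 * n) := by field_simp
      _ ≤ 1 * (ε / 3 * n) := mul_le_mul_of_nonneg_right this (by positivity)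
      _ = _ := one_mul _
  have e2 : 2 * CS' * Cc * ((D : ℝ) * (η * n)) ≤ ε / 3 * n := by
    have : a / (a + 1) ≤ 1 := by rw [div_le_one (by positivity)]; linarith
    calc 2 * CS' * Cc * ((D : ℝ) * (η * n)) = a / (a + 1) * (ε / 3 * n) := by
          rw [hη, ha]; field_simp
      _ ≤ 1 * (ε / 3 * n) := mul_le_mul_of_nonneg_right this (by positivity)
      _ = _ := one_mul _
  have e3 : 2 * CS' * Cc + Fintype.card O * Cb ≤ ε / 3 * n := by
    have h : 3 * (2 * CS' * Cc + Fintype.card O * Cb) / ε ≤ n :=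
      hn₀.trans (Nat.cast_le.2 (by omega))
    rw [div_le_iff₀ hε] at h
    linarith
  linarith

end Vale.Agent.P165.EX
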