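import Vale.Agent.P165.EX.Compound

/-!
# Complete pivoting: a bounded substitute for the Cartan decomposition over a normed field

Every matrix is `L * diagonal a * L'` with `L`, `L'` and their inverses bounded in terms of the
order only and `a` decreasing up to a constant. So the size of the `j`-th compound is the product
of the first `j` diagonal entries.
-/

namespace Vale.Agent.P165.EX

open Matrix Finset
open scoped Matrix.Norms.Elementwise

variable {k : Type} [NormedField k] {n : ℕ}

theorem norm_mul_le_card {I : Type} [Fintype I] (A B : Matrix I I k) :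
    ‖A * B‖ ≤ Fintype.card I * (‖A‖ * ‖B‖) := by
  refine (Matrix.norm_le_iff (by positivity)).2 fun i j => ?_
  rw [Matrix.mul_apply]
  refine (norm_sum_le _ _).trans ((sum_le_card_nsmul _ _ (‖A‖ * ‖B‖) fun l _ => ?_).trans_eq ?_)
  · rw [norm_mul]
    exact mul_le_mul (norm_entry_le_entrywise_sup_norm A) (norm_entry_le_entrywise_sup_norm B)
      (norm_nonneg _) (norm_nonneg _)
  · simp

theorem norm_det_le {j : ℕ} {B : ℝ} (M : Matrix (Fin j) (Fin j) k) (h : ∀ a b, ‖M a b‖ ≤ B) :
    ‖M.det‖ ≤ j.factorial * B ^ j := by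
  rw [det_apply]
  refine (norm_sum_le _ _).trans ((sum_le_card_nsmul _ _ (B ^ j) fun σ _ => ?_).trans_eq ?_)
  · have h1 : ‖∏ i, M (σ i) i‖ ≤ B ^ j := by
      rw [norm_prod]
      exact (prod_le_prod (fun i _ => norm_nonneg _) fun i _ => h _ _).trans_eq (by simp)
    rcases Int.units_eq_one_or (Equiv.Perm.sign σ) with hs | hs <;> simpa [hs, norm_prod] using h1
  · simp [Fintype.card_perm]

theorem norm_cmp_le (j : ℕ) (A : Matrix (Fin n) (Fin n) k) :
    ‖cmp j A‖ ≤ j.factorial * ‖A‖ ^ j :=
  (Matrix.norm_le_iff (by positivity)).2 fun _ _ =>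
    norm_det_le _ fun _ _ => norm_entry_le_entrywise_sup_norm A

/-- Uniform bounds on two sided multiples of a compound. -/
theorem norm_cmp_mul3_le {j : ℕ} {B : ℝ} (A X D : Matrix (Fin n) (Fin n) k) (hA : ‖A‖ ≤ B)
    (hD : ‖D‖ ≤ B) : ‖cmp j (A * X * D)‖ ≤
      (Fintype.card (Sub n j) * (j.factorial * B ^ j)) ^ 2 * ‖cmp j X‖ := by
  set c : ℝ := (Fintype.card (Sub n j) : ℝ)
  set b : ℝ := (j.factorial : ℝ) * B ^ j
  have hB : 0 ≤ B := (norm_nonneg A).trans hA
  have ha : ‖cmp j A‖ ≤ b := (norm_cmp_le j A).trans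
    (mul_le_mul_of_nonneg_left (pow_le_pow_left₀ (norm_nonneg _) hA j) (Nat.cast_nonneg _))
  have hd : ‖cmp j D‖ ≤ b := (norm_cmp_le j D).trans
    (mul_le_mul_of_nonneg_left (pow_le_pow_left₀ (norm_nonneg _) hD j) (Nat.cast_nonneg _))
  rw [cmp_mul, cmp_mul]
  calc ‖cmp j A * cmp j X * cmp j D‖ ≤ c * (‖cmp j A * cmp j X‖ * ‖cmp j D‖) :=
        norm_mul_le_card _ _
    _ ≤ c * (c * (b * ‖cmp j X‖) * b) := by
        have h0 : 0 ≤ b := (norm_nonneg _).trans ha
        have h1 := (norm_mul_le_card (cmp j A) (cmp j X)).trans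
          (mul_le_mul_of_nonneg_left (mul_le_mul_of_nonneg_right ha (norm_nonneg _))
            (Nat.cast_nonneg _))
        exact mul_le_mul_of_nonneg_left (mul_le_mul h1 hd (norm_nonneg _) (by positivity))
          (Nat.cast_nonneg _)
    _ = _ := by ring

/-- The matrix of a permutation of the coordinates. -/
def permM (σ : Equiv.Perm (Fin n)) : Matrix (Fin n) (Fin n) k :=
  Matrix.of fun a b => if σ a = b then 1 else 0

theorem norm_permM_le (σ : Equiv.Perm (Fin n)) : ‖(permM σ : Matrix (Fin n) (Fin n) k)‖ ≤ 1 :=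
  (Matrix.norm_le_iff zero_le_one).2 fun a b => by
    rw [permM, Matrix.of_apply]
    split_ifs <;> simp

theorem permM_mul (σ : Equiv.Perm (Fin n)) (A : Matrix (Fin n) (Fin n) k) :
    permM σ * A = A.submatrix σ id := by
  ext a b
  simp [permM, Matrix.mul_apply]

theorem mul_permM_symm (σ : Equiv.Perm (Fin n)) (A : Matrix (Fin n) (Fin n) k) :
    A * permM σ.symm = A.submatrix id σ := by
  ext a b
  simp [permM, Matrix.mul_apply, Equiv.symm_apply_eq]

theorem permM_symm_mul (σ : Equiv.Perm (Fin n)) :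
    (permM σ.symm : Matrix (Fin n) (Fin n) k) * permM σ = 1 := by
  rw [permM_mul]
  ext a b
  simp [permM, Matrix.one_apply]

/-- A matrix with an explicit bounded inverse. -/
def Bdd (C : ℝ) (L Li : Matrix (Fin n) (Fin n) k) : Prop :=
  L * Li = 1 ∧ Li * L = 1 ∧ ‖L‖ ≤ C ∧ ‖Li‖ ≤ C

theorem Bdd.mul {C C' : ℝ} {L Li M Mi : Matrix (Fin n) (Fin n) k} (h : Bdd C L Li)
    (h' : Bdd C' M Mi) : Bdd (n * (C * C')) (L * M) (Mi * Li) := by
  obtain ⟨a, a', b, c⟩ := h
  obtain ⟨d, d', e, f⟩ := h'
  have hC : 0 ≤ C := (norm_nonneg L).trans b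
  have hC' : 0 ≤ C' := (norm_nonneg M).trans e
  have key : ∀ {A B : Matrix (Fin n) (Fin n) k} {x y : ℝ}, ‖A‖ ≤ x → ‖B‖ ≤ y →
      ‖A * B‖ ≤ n * (x * y) := fun {A B x y} hA hB =>
    (norm_mul_le_card A B).trans (by
      rw [Fintype.card_fin]
      exact mul_le_mul_of_nonneg_left (mul_le_mul hA hB (norm_nonneg _) ((norm_nonneg A).trans hA))
        (Nat.cast_nonneg _))
  refine ⟨?_, ?_, key b e, (key f c).trans_eq (by ring)⟩
  · rw [mul_assoc, ← mul_assoc M, d, one_mul, a]
  · rw [mul_assoc, ← mul_assoc Li, a', one_mul, d']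

theorem bdd_permM (σ : Equiv.Perm (Fin n)) :
    Bdd 1 (permM σ : Matrix (Fin n) (Fin n) k) (permM σ.symm) :=
  ⟨mul_eq_one_comm.1 (permM_symm_mul σ), permM_symm_mul σ, norm_permM_le σ,
    norm_permM_le σ.symm⟩

/-- Elimination in one column. -/
theorem bdd_elim (x : Fin n → k) (j : Fin n) (hx : x j = 0) (h : ∀ a, ‖x a‖ ≤ 1) :
    Bdd 2 (1 + vecMulVec x (Pi.single j 1)) (1 - vecMulVec x (Pi.single j 1)) := by
  have hsq : vecMulVec x (Pi.single j 1) * vecMulVec x (Pi.single j (1 : k)) = 0 := by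
    rw [vecMulVec_mul_vecMulVec, single_one_dotProduct, hx, zero_smul]
    ext a b
    simp [vecMulVec_apply]
  have hb : ∀ a b, ‖(1 : Matrix (Fin n) (Fin n) k) a b‖ + ‖vecMulVec x (Pi.single j 1) a b‖ ≤ 2 :=
    fun a b => by
    have h1 : ‖(1 : Matrix (Fin n) (Fin n) k) a b‖ ≤ 1 := by
      rw [Matrix.one_apply]; split_ifs <;> simp
    have h2 : ‖vecMulVec x (Pi.single j 1) a b‖ ≤ 1 := by
      rw [vecMulVec_apply, norm_mul, Pi.single_apply]
      split_ifs <;> simp [h a]
    linarith
  refine ⟨?_, ?_, (Matrix.norm_le_iff zero_le_two).2 fun a b => ?_,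
    (Matrix.norm_le_iff zero_le_two).2 fun a b => ?_⟩
  · simp only [add_mul, mul_sub, one_mul, mul_one, hsq]; abel
  · simp only [sub_mul, mul_add, one_mul, mul_one, hsq]; abel
  · exact (norm_add_le _ _).trans (hb a b)
  · exact (norm_sub_le _ _).trans (hb a b)

theorem Bdd.transpose {C : ℝ} {L Li : Matrix (Fin n) (Fin n) k} (h : Bdd C L Li) :
    Bdd C Lᵀ Liᵀ :=
  ⟨by rw [← transpose_mul, h.2.1, transpose_one], by rw [← transpose_mul, h.1, transpose_one],
    by rw [norm_transpose]; exact h.2.2.1, by rw [norm_transpose]; exact h.2.2.2⟩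

/-- The first `j` diagonal places are done. -/
def Stage (j : ℕ) (M : Matrix (Fin n) (Fin n) k) : Prop :=
  (∀ a b : Fin n, a ≠ b → (a.1 < j ∨ b.1 < j) → M a b = 0) ∧
    ∀ i a b : Fin n, i.1 < j → i ≤ a → i ≤ b → ‖M a b‖ ≤ 2 ^ j * ‖M i i‖

theorem exists_stage (n j : ℕ) : ∃ C : ℝ, ∀ z : Matrix (Fin n) (Fin n) k,
    ∃ L Li L' Li' M : Matrix (Fin n) (Fin n) k,
      z = L * M * L' ∧ Bdd C L Li ∧ Bdd C L' Li' ∧ Stage j M := by
  induction j with
  | zero =>
    refine ⟨1, fun z => ⟨1, 1, 1, 1, z, by simp, ?_, ?_, fun a b _ h => by simp at h,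
      fun i a b h => by simp at h⟩⟩
    all_goals
      refine ⟨mul_one 1, mul_one 1, ?_, ?_⟩ <;>
        exact (Matrix.norm_le_iff zero_le_one).2 fun a b => by
          rw [Matrix.one_apply]; split_ifs <;> simp
  | succ j ih =>
    obtain ⟨C, hC⟩ := ih
    by_cases hj : j < n
    swap
    · refine ⟨C, fun z => ?_⟩
      obtain ⟨L, Li, L', Li', M, h1, h2, h3, h4, h5⟩ := hC z
      refine ⟨L, Li, L', Li', M, h1, h2, h3, fun a b hab _ => h4 a b hab (Or.inl (by omega)),
        fun i a b _ hia hib => ?_⟩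
      refine (h5 i a b (by omega) hia hib).trans ?_
      exact mul_le_mul_of_nonneg_right (pow_le_pow_right₀ one_le_two j.le_succ) (norm_nonneg _)
    refine ⟨(n : ℝ) * ((n * (C * 1)) * 2), fun z => ?_⟩
    obtain ⟨L, Li, L', Li', M, hz, hL, hL', hz0, hdom⟩ := hC z
    set J : Fin n := ⟨j, hj⟩ with hJ
    -- the pivot
    obtain ⟨⟨p, q⟩, hpq, hmax⟩ := exists_max_image
      ((univ.filter fun a : Fin n => J ≤ a) ×ˢ (univ.filter fun a : Fin n => J ≤ a))
      (fun e => ‖M e.1 e.2‖) ⟨(J, J), by simp⟩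
    simp only [mem_product, mem_filter, mem_univ, true_and] at hpq
    have hmax' : ∀ a b, J ≤ a → J ≤ b → ‖M a b‖ ≤ ‖M p q‖ := fun a b ha hb =>
      hmax (a, b) (by simp [ha, hb])
    set σ : Equiv.Perm (Fin n) := Equiv.swap J p with hσ
    set τ : Equiv.Perm (Fin n) := Equiv.swap J q with hτ
    have hge : ∀ (r : Fin n), J ≤ r → ∀ a : Fin n,
        (a < J → Equiv.swap J r a = a) ∧ (J ≤ a → J ≤ Equiv.swap J r a) := fun r hr a => by
      constructor
      · intro ha
        exact Equiv.swap_apply_of_ne_of_ne ha.ne (ha.trans_le hr).ne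
      · intro ha
        rw [Equiv.swap_apply_def]
        split_ifs <;> first | exact hr | exact le_rfl | exact ha
    have hσlt : ∀ a, a < J → σ a = a := fun a => (hge p hpq.1 a).1
    have hσge : ∀ a, J ≤ a → J ≤ σ a := fun a => (hge p hpq.1 a).2
    have hτlt : ∀ a, a < J → τ a = a := fun a => (hge q hpq.2 a).1
    have hτge : ∀ a, J ≤ a → J ≤ τ a := fun a => (hge q hpq.2 a).2
    set M1 : Matrix (Fin n) (Fin n) k := M.submatrix σ τ with hM1
    have hM1z : ∀ a b : Fin n, a ≠ b → (a < J ∨ b < J) → M1 a b = 0 := by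
      intro a b hab h
      rw [hM1, submatrix_apply]
      rcases h with h | h
      · refine hz0 _ _ ?_ (Or.inl (by rw [hσlt a h]; exact h))
        rcases lt_or_ge b J with hb | hb
        · rw [hσlt a h, hτlt b hb]; exact hab
        · rw [hσlt a h]; exact (h.trans_le (hτge b hb)).ne
      · refine hz0 _ _ ?_ (Or.inr (by rw [hτlt b h]; exact h))
        rcases lt_or_ge a J with ha | ha
        · rw [hσlt a ha, hτlt b h]; exact hab
        · rw [hτlt b h]; exact (h.trans_le (hσge a ha)).ne'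
    set d : k := M1 J J with hd
    have hdmax : ∀ a b, J ≤ a → J ≤ b → ‖M1 a b‖ ≤ ‖d‖ := fun a b ha hb => by
      rw [hd, hM1, submatrix_apply, submatrix_apply, hσ, hτ, Equiv.swap_apply_left,
        Equiv.swap_apply_left]
      exact hmax' _ _ ((hge p hpq.1 a).2 ha) ((hge q hpq.2 b).2 hb)
    set x : Fin n → k := fun a => if J < a then M1 a J / d else 0 with hx
    set y : Fin n → k := fun b => if J < b then M1 J b / d else 0 with hy
    have hxj : x J = 0 := if_neg (lt_irrefl J)
    have hyj : y J = 0 := if_neg (lt_irrefl J)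
    have hxb : ∀ a, ‖x a‖ ≤ 1 := fun a => by
      rw [hx]; dsimp only; split_ifs with h
      · rw [norm_div]; exact div_le_one_of_le₀ (hdmax a J h.le le_rfl) (norm_nonneg _)
      · simp
    have hyb : ∀ b, ‖y b‖ ≤ 1 := fun b => by
      rw [hy]; dsimp only; split_ifs with h
      · rw [norm_div]; exact div_le_one_of_le₀ (hdmax J b le_rfl h.le) (norm_nonneg _)
      · simp
    have hcan : ∀ u, ‖u‖ ≤ ‖d‖ → u / d * d = u := fun u hu => by
      by_cases h0 : d = 0
      · rw [h0, norm_zero] at hu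
        simp [norm_le_zero_iff.1 hu]
      · exact div_mul_cancel₀ u h0
    have hdx : ∀ a, a ≠ J → x a * d = M1 a J := fun a ha => by
      rw [hx]; dsimp only; split_ifs with h
      · exact hcan _ (hdmax a J h.le le_rfl)
      · rw [zero_mul, hM1z a J ha (Or.inl (lt_of_le_of_ne (not_lt.1 h) ha))]
    have hdy : ∀ b, b ≠ J → d * y b = M1 J b := fun b hb => by
      rw [hy]; dsimp only; split_ifs with h
      · rw [mul_comm]; exact hcan _ (hdmax J b le_rfl h.le)
      · rw [mul_zero, hM1z J b hb.symm (Or.inr (lt_of_le_of_ne (not_lt.1 h) hb))]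
    set M2 : Matrix (Fin n) (Fin n) k := Matrix.of fun a b =>
      if a = J then (if b = J then d else 0) else
        if b = J then 0 else M1 a b - x a * M1 J b with hM2
    set E : Matrix (Fin n) (Fin n) k := 1 + vecMulVec x (Pi.single J 1) with hE
    set E' : Matrix (Fin n) (Fin n) k := (1 + vecMulVec y (Pi.single J 1))ᵀ with hE'
    have hfac : M1 = E * M2 * E' := by
      have e1 : ∀ (A : Matrix (Fin n) (Fin n) k) a b, (E * A) a b = A a b + x a * A J b :=
        fun A a b => by
        rw [hE, add_mul, one_mul, Matrix.add_apply, vecMulVec_mul, vecMulVec_apply,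
          single_one_vecMul]
        rfl
      have e2 : ∀ (A : Matrix (Fin n) (Fin n) k) a b, (A * E') a b = A a b + A a J * y b :=
        fun A a b => by
        rw [hE', transpose_add, transpose_one, transpose_vecMulVec, mul_add, mul_one,
          Matrix.add_apply, mul_vecMulVec, vecMulVec_apply, mulVec_single_one]
        rfl
      ext a b
      rw [e2, e1, e1, hM2]
      simp only [Matrix.of_apply]
      by_cases ha : a = J <;> by_cases hb : b = J
      · subst ha hb; simp [hxj, hyj, hd]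
      · subst ha; simp [hxj, hb, hdy b hb]
      · subst hb; simp [hyj, ha, hdx a ha]
      · simp only [ha, hb, if_false, if_true]
        linear_combination (-(x a)) * hdy b hb
    have hM2z : Stage (j + 1) M2 := by
      refine ⟨fun a b hab h => ?_, fun i a b hi hia hib => ?_⟩
      · rw [hM2, Matrix.of_apply]
        by_cases ha : a = J <;> by_cases hb : b = J <;> simp only [ha, hb, if_true, if_false]
        · exact absurd (ha.trans hb.symm) hab
        have h' : a < J ∨ b < J := by
          simp only [Fin.ext_iff, hJ] at ha hb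
          rcases h with h | h
          · exact Or.inl (show a.1 < j by omega)
          · exact Or.inr (show b.1 < j by omega)
        rw [hM1z a b hab h']
        rcases h' with h' | h'
        · rw [hx]; simp [not_lt.2 h'.le]
        · rw [hM1z J b (fun e => hb e.symm) (Or.inr h'), mul_zero, sub_zero]
      · -- domination
        have hM2b : ∀ a b, ∀ B : ℝ, 0 ≤ B → (a ≠ J → b ≠ J → ‖M1 a b‖ ≤ B ∧ ‖M1 J b‖ ≤ B) →
            (a = J → b = J → ‖d‖ ≤ 2 * B) → ‖M2 a b‖ ≤ 2 * B := by
          intro a b B hB h1 h2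
          rw [hM2, Matrix.of_apply]
          by_cases ha : a = J <;> by_cases hb : b = J <;> simp only [ha, hb, if_true, if_false]
          · exact h2 ha hb
          · simp [hB]
          · simp [hB]
          · obtain ⟨u, v⟩ := h1 ha hb
            refine (norm_sub_le _ _).trans ?_
            rw [norm_mul]
            linarith [mul_le_mul (hxb a) v (norm_nonneg _) zero_le_one]
        rcases eq_or_ne i J with rfl | hiJ
        · have hii : M2 J J = d := by simp [hM2]
          rw [hii]
          refine (hM2b a b ‖d‖ (norm_nonneg _)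
            (fun _ _ => ⟨hdmax a b hia hib, hdmax J b le_rfl hib⟩) fun _ _ => ?_).trans ?_
          · linarith [norm_nonneg d]
          · rw [pow_succ']
            exact mul_le_mul_of_nonneg_right (le_mul_of_one_le_right zero_le_two
              (one_le_pow₀ one_le_two)) (norm_nonneg _)
        · have hiJ' : i < J := by
            simp only [ne_eq, Fin.ext_iff, hJ] at hiJ
            exact show i.1 < j by omega
          have hii : M2 i i = M i i := by
            rw [hM2, Matrix.of_apply]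
            simp only [hiJ, if_false]
            rw [hM1z J i hiJ'.ne' (Or.inr hiJ'), mul_zero, sub_zero, hM1, submatrix_apply,
              hσlt i hiJ', hτlt i hiJ']
          rw [hii, pow_succ', mul_assoc]
          have hup : ∀ (r : Fin n), J ≤ r → ∀ c : Fin n, i ≤ c → i ≤ Equiv.swap J r c :=
            fun r hr c hc => by
            rcases lt_or_ge c J with h | h
            · rw [(hge r hr c).1 h]; exact hc
            · exact hiJ'.le.trans ((hge r hr c).2 h)
          have hb' : ∀ a b, i ≤ a → i ≤ b → ‖M1 a b‖ ≤ 2 ^ j * ‖M i i‖ := fun a b ha hb =>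
            hdom i _ _ hiJ' (hup p hpq.1 a ha) (hup q hpq.2 b hb)
          refine hM2b a b _ (by positivity) (fun _ _ => ⟨hb' a b hia hib, hb' J b hiJ'.le hib⟩)
            fun _ _ => ?_
          have h3 := hb' J J hiJ'.le hiJ'.le
          rw [← hd] at h3
          linarith [norm_nonneg d]
    have hMM : M = permM σ.symm * M1 * permM τ := by
      rw [← Equiv.symm_symm τ, mul_permM_symm, permM_mul, hM1, submatrix_submatrix,
        submatrix_submatrix]
      ext a b
      simp [submatrix_apply]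
    have hR := ((bdd_elim y J hyj hyb).transpose.mul ((bdd_permM τ).mul hL'))
    rw [show (n : ℝ) * (2 * (n * (1 * C))) = n * ((n * (C * 1)) * 2) by ring] at hR
    refine ⟨_, _, _, _, M2, ?_, (hL.mul (bdd_permM σ.symm)).mul (bdd_elim x J hxj hxb), hR, hM2z⟩
    rw [hz, hMM, hfac]
    simp only [Matrix.mul_assoc, hE, hE']

/-- A bounded factorisation through a decreasing diagonal. -/
theorem exists_pivot (n : ℕ) : ∃ C : ℝ, 1 ≤ C ∧ ∀ z : Matrix (Fin n) (Fin n) k,
    ∃ L Li L' Li' : Matrix (Fin n) (Fin n) k, ∃ a : Fin n → k,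
      z = L * diagonal a * L' ∧ Bdd C L Li ∧ Bdd C L' Li' ∧ ∀ i l, i ≤ l → ‖a l‖ ≤ C * ‖a i‖ := by
  obtain ⟨C, hC⟩ := exists_stage (k := k) n n
  refine ⟨max C (2 ^ n), le_max_of_le_right (one_le_pow₀ one_le_two), fun z => ?_⟩
  obtain ⟨L, Li, L', Li', M, hz, hL, hL', hd, hdom⟩ := hC z
  have hM : M = diagonal M.diag := by
    ext a b
    by_cases h : a = b
    · subst h; simp
    · rw [diagonal_apply_ne _ h, hd a b h (Or.inl a.2)]
  refine ⟨L, Li, L', Li', M.diag, by rw [← hM]; exact hz,
    ⟨hL.1, hL.2.1, hL.2.2.1.trans (le_max_left _ _), hL.2.2.2.trans (le_max_left _ _)⟩,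
    ⟨hL'.1, hL'.2.1, hL'.2.2.1.trans (le_max_left _ _), hL'.2.2.2.trans (le_max_left _ _)⟩,
    fun i l hil => ?_⟩
  exact (hdom i l l i.2 hil hil).trans
    (mul_le_mul_of_nonneg_right (le_max_right _ _) (norm_nonneg _))

end Vale.Agent.P165.EX
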