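import Vale.Agent.P165.QT.Threshold
import Vale.Agent.P165.FQ.Threshold
import Vale.Agent.P165.FQ.Entrance
import Vale.Agent.P165.TL.Main

/-!
# The recursion with cocycle weights, free of the rank

States carry positive weights on the group with the cocycle rule. If for every current bound `B`
on the weighted rows every state has a finite family of cuts, each leaving mass at most `P` outside
and their gates half the number of cuts in total, then the rows are bounded by `2 P` and Schur's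
test gives a small form. At every parameter with exit certificates this gives a nonuniqueness phase.
-/

namespace Vale.Agent.P165.EX

open Finset FF

variable {Γ O ι X : Type} [Group Γ] [DecidableEq Γ] [DecidableEq O] [Fintype ι]
  {G : SimpleGraph (Γ × O)} {nb : Γ × O → ι → Γ × O}

/-- The chance of at most `K` open steps from `a` to `y`. -/
noncomputable def tau (nb : Γ × O → ι → Γ × O) (p : ℝ) (K : ℕ) (a y : Γ × O) : ℝ :=
  FQ.tauW nb (QT.wball nb a K) p a y K

/-- Positive weights with the cocycle rule. -/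
def Cocycle (W : X → Γ → ℝ) : Prop :=
  (∀ x g, 0 < W x g) ∧ ∀ x g, ∃ x', ∀ h, W x (g * h) = W x g * W x' h

/-- A bound on the weighted rows of all states. -/
def RowBound (nb : Γ × O → ι → Γ × O) (W : X → Γ → ℝ) (p : ℝ) (K : ℕ) (B : ℝ) : Prop :=
  ∀ x (o : O) (S : Finset (Γ × O)), ∑ y ∈ S, tau nb p K ((1 : Γ), o) y * W x y.1 ≤ B

open Classical in
/-- The vertices of a window at which a set is left. -/
noncomputable def gates (nb : Γ × O → ι → Γ × O) (K : ℕ) (o : O) (C : Set Γ) : Finset (Γ × O) :=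
  (QT.wball nb ((1 : Γ), o) K).filter fun z =>
    z.1 ∈ C ∧ ∃ (o' : O) (i : ι), z.1 * (nb ((1 : Γ), o') i).1 ∉ C

/-- One round: cuts with outside mass at most `P` and half a gate on average. -/
def Round (nb : Γ × O → ι → Γ × O) (W : X → Γ → ℝ) (p : ℝ) (K : ℕ) (P : ℝ) : Prop :=
  ∀ B : ℝ, 0 ≤ B → RowBound nb W p K B → ∀ x (o : O), ∃ (M : ℕ) (cut : ℕ → Set Γ), 0 < M ∧
    (∀ k < M, (1 : Γ) ∉ cut k ∧ ∀ S : Finset (Γ × O), (∀ y ∈ S, y.1 ∉ cut k) →
      ∑ y ∈ S, tau nb p K ((1 : Γ), o) y * W x y.1 ≤ P) ∧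
    ∑ k ∈ range M, ∑ z ∈ gates nb K o (cut k), tau nb p K ((1 : Γ), o) z * W x z.1 ≤ M / 2

/-- Below a parameter every window has states whose recursion closes with one constant. -/
def ClosedBelow (nb : Γ × O → ι → Γ × O) (p : ℝ) : Prop :=
  ∃ P : ℝ, 0 ≤ P ∧ ∀ (K : ℕ) (q : ℝ), p / 2 ≤ q → q < p →
    ∃ (X : Type) (_ : Nonempty X) (W : X → Γ → ℝ), Cocycle W ∧ (∀ g, ∃ b, ∀ x, W x g ≤ b) ∧
      Round nb W q K P

omit [Group Γ] in
theorem tauW_nonneg {p : ℝ} (h0 : 0 ≤ p) (h1 : p ≤ 1) (K : ℕ) (a y : Γ × O) :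
    0 ≤ tau nb p K a y :=
  FQ.tauW_nonneg _ h0 h1 _ _ _

omit [Group Γ] in
theorem tau_comm (hl : Labelling G nb) {p : ℝ} (h0 : 0 ≤ p) (h1 : p ≤ 1) (K : ℕ) (a y : Γ × O) :
    tau nb p K a y = tau nb p K y a := by
  refine le_antisymm ?_ ?_
  · rw [tau, FQ.tauW_comm]
    exact FQ.tauW_le_window hl (QT.covers_wball hl K) _ h0 h1 y a
  · rw [tau, FQ.tauW_comm]
    exact FQ.tauW_le_window hl (QT.covers_wball hl K) _ h0 h1 a y

theorem tau_base (hl : Labelling G nb) (hinv : Inv G) (p : ℝ) (K : ℕ) (a y : Γ × O) :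
    tau nb p K a y = tau nb p K ((1 : Γ), a.2) (tr a.1⁻¹ y) := by
  have h := QT.image_wball hl (trIso hinv a.1⁻¹) a K
  have h' := FQ.tauW_map hl (trIso hinv a.1⁻¹) (QT.wball nb a K) p a y K
  rw [h] at h'
  rw [tau, ← h']
  simp [tau, trIso, tr]

theorem row_le (hl : Labelling G nb) (hinv : Inv G) {W : X → Γ → ℝ} (hc : Cocycle W) {p B : ℝ}
    {K : ℕ} (hB : RowBound nb W p K B) (x : X) (z : Γ × O) (S : Finset (Γ × O)) :
    ∑ y ∈ S, tau nb p K z y * W x y.1 ≤ W x z.1 * B := by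
  obtain ⟨x', hW⟩ := hc.2 x z.1
  calc ∑ y ∈ S, tau nb p K z y * W x y.1
      = ∑ y ∈ S.image (tr z.1⁻¹), W x z.1 * (tau nb p K ((1 : Γ), z.2) y * W x' y.1) := by
        rw [sum_image fun a _ b _ h => tr_injective z.1⁻¹ h]
        refine sum_congr rfl fun y _ => ?_
        rw [← tau_base hl hinv p K z y, mul_left_comm, ← hW, tr, mul_inv_cancel_left]
    _ ≤ _ := by
        rw [← mul_sum]
        exact mul_le_mul_of_nonneg_left (hB x' z.2 _) (hc.1 x z.1).le

/-- Splitting at the last entrance into a set. -/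
theorem split_le (hl : Labelling G nb) (hinv : Inv G) {W : X → Γ → ℝ} (hc : Cocycle W) {p B : ℝ}
    {K : ℕ} (h0 : 0 ≤ p) (h1 : p ≤ 1) (hB : RowBound nb W p K B) {C : Set Γ} (hC : (1 : Γ) ∉ C)
    (x : X) (o : O) {P : ℝ} (hout : ∀ S : Finset (Γ × O), (∀ y ∈ S, y.1 ∉ C) →
      ∑ y ∈ S, tau nb p K ((1 : Γ), o) y * W x y.1 ≤ P) (S : Finset (Γ × O)) :
    ∑ y ∈ S, tau nb p K ((1 : Γ), o) y * W x y.1 ≤
      P + B * ∑ z ∈ gates nb K o C, tau nb p K ((1 : Γ), o) z * W x z.1 := by
  classical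
  set a : Γ × O := ((1 : Γ), o)
  set Q := QT.wball nb a K
  set Z := gates nb K o C with hZ
  rw [← sum_filter_add_sum_filter_not S fun y => y.1 ∉ C]
  refine add_le_add (hout _ fun y hy => (mem_filter.1 hy).2) ?_
  have key : ∀ y ∈ S.filter (fun y => ¬y.1 ∉ C),
      tau nb p K a y * W x y.1 ≤ ∑ z ∈ Z, tau nb p K a z * (tau nb p K z y * W x y.1) := by
    intro y hy
    have hyC : y.1 ∈ C := not_not.1 (mem_filter.1 hy).2
    have hent := FQ.tauW_last_entrance hl Q Q {v | v.1 ∈ C} Z h0 h1 (a := a) hC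
      (fun u v huv hu hv hvW => ?_) (fun _ hv _ => hv) hyC K
    · refine (mul_le_mul_of_nonneg_right hent (hc.1 x y.1).le).trans ?_
      rw [sum_mul]
      refine sum_le_sum fun z _ => ?_
      rw [mul_assoc]
      exact mul_le_mul_of_nonneg_left (mul_le_mul_of_nonneg_right
        (FQ.tauW_le_window hl (QT.covers_wball hl K) Q h0 h1 z y) (hc.1 x y.1).le)
        (tauW_nonneg h0 h1 K a z)
    · rw [hZ, gates]
      refine mem_filter.2 ⟨hvW, hv, v.2, ?_⟩
      have hadj : G.Adj ((1 : Γ), v.2) (tr v.1⁻¹ u) := by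
        have := (hinv v.1⁻¹ v u).2 huv.symm
        simpa [tr] using this
      obtain ⟨i, hi⟩ := (hl.adj _ _).1 hadj
      refine ⟨i, ?_⟩
      rw [hi]
      simpa [tr] using hu
  calc _ ≤ ∑ y ∈ S.filter (fun y => ¬y.1 ∉ C),
        ∑ z ∈ Z, tau nb p K a z * (tau nb p K z y * W x y.1) := sum_le_sum key
    _ ≤ ∑ z ∈ Z, tau nb p K a z * (W x z.1 * B) := by
        rw [sum_comm]
        refine sum_le_sum fun z _ => ?_
        rw [← mul_sum]
        exact mul_le_mul_of_nonneg_left (row_le hl hinv hc hB x z _) (tauW_nonneg h0 h1 K a z)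
    _ = _ := by
        rw [mul_sum]
        exact sum_congr rfl fun z _ => by ring

omit [DecidableEq O] in
theorem sum_const_mul_le {M : ℕ} {a b : ℝ} (hM : 0 < M) (h : (M : ℝ) * a ≤ M * b) : a ≤ b :=
  le_of_mul_le_mul_left h (Nat.cast_pos.2 hM)

/-- A round halves the excess over `2 P`, so the rows are bounded by `2 P`. -/
theorem rowBound_of_round (hl : Labelling G nb) (hinv : Inv G) [Fintype O] {W : X → Γ → ℝ}
    (hc : Cocycle W) (hb : ∀ g, ∃ b, ∀ x, W x g ≤ b) {p P : ℝ} {K : ℕ} (h0 : 0 ≤ p) (h1 : p ≤ 1)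
    (hP : 0 ≤ P) (hr : Round nb W p K P) : RowBound nb W p K (2 * P) := by
  have step : ∀ B, 0 ≤ B → RowBound nb W p K B → RowBound nb W p K (P + B / 2) := by
    intro B hB hrow x o S
    obtain ⟨M, cut, hM, hk, hg⟩ := hr B hB hrow x o
    refine sum_const_mul_le hM ?_
    calc (M : ℝ) * ∑ y ∈ S, tau nb p K ((1 : Γ), o) y * W x y.1
        = ∑ _k ∈ range M, ∑ y ∈ S, tau nb p K ((1 : Γ), o) y * W x y.1 := by simp
      _ ≤ ∑ k ∈ range M, (P + B * ∑ z ∈ gates nb K o (cut k),
            tau nb p K ((1 : Γ), o) z * W x z.1) := sum_le_sum fun k hkM => by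
          obtain ⟨hk1, hk2⟩ := hk k (mem_range.1 hkM)
          exact split_le hl hinv hc h0 h1 hrow hk1 x o hk2 S
      _ ≤ M * P + B * (M / 2) := by
          rw [sum_add_distrib, ← mul_sum]
          exact add_le_add (le_of_eq (by simp)) (mul_le_mul_of_nonneg_left hg hB)
      _ = _ := by ring
  -- some finite bound on the window
  choose b hb using hb
  set B₀ := ∑ o : O, ∑ y ∈ QT.wball nb ((1 : Γ), o) K, |b y.1|
  have hB₀ : 0 ≤ B₀ := sum_nonneg fun o _ => sum_nonneg fun y _ => abs_nonneg _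
  have hrow₀ : RowBound nb W p K B₀ := by
    classical
    intro x o S
    set Q := QT.wball nb ((1 : Γ), o) K
    calc ∑ y ∈ S, tau nb p K ((1 : Γ), o) y * W x y.1
        = ∑ y ∈ S.filter (· ∈ Q), tau nb p K ((1 : Γ), o) y * W x y.1 := by
          refine (sum_filter_of_ne fun y _ hy => ?_).symm
          by_contra hW'
          exact hy (by
            rw [show tau nb p K ((1 : Γ), o) y = 0 from
              FQ.tauW_eq_zero hl (QT.covers_wball hl K) _ p fun hc' => hW' hc'.1, zero_mul])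
      _ ≤ ∑ y ∈ S.filter (· ∈ Q), |b y.1| := sum_le_sum fun y _ =>
          (mul_le_of_le_one_left (hc.1 x y.1).le (FQ.tauW_le_one _ h0 h1 _ _ _)).trans
            ((hb y.1 x).trans (le_abs_self _))
      _ ≤ ∑ y ∈ Q, |b y.1| :=
          sum_le_sum_of_subset_of_nonneg (fun y hy => (mem_filter.1 hy).2) fun y _ _ => abs_nonneg _
      _ ≤ _ := single_le_sum (f := fun o => ∑ y ∈ QT.wball nb ((1 : Γ), o) K, |b y.1|)
          (fun o _ => sum_nonneg fun y _ => abs_nonneg _) (mem_univ o)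
  have iter : ∀ n : ℕ, RowBound nb W p K (2 * P + B₀ / 2 ^ n) := by
    intro n
    induction n with
    | zero =>
      intro x o S
      linarith [hrow₀ x o S]
    | succ n ih =>
      intro x o S
      refine (step _ (by positivity) ih x o S).trans_eq ?_
      rw [pow_succ]; ring
  intro x o S
  refine le_of_forall_pos_le_add fun e he => ?_
  obtain ⟨n, hn⟩ := pow_unbounded_of_one_lt (B₀ / e) (one_lt_two (α := ℝ))
  refine (iter n x o S).trans (add_le_add le_rfl ?_)
  rw [div_lt_iff₀ he] at hn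
  rw [div_le_iff₀ (by positivity)]
  linarith

/-- Schur's test. -/
theorem schur (hl : Labelling G nb) (hinv : Inv G) [Nonempty X] {W : X → Γ → ℝ} (hc : Cocycle W)
    {p B : ℝ} {n : ℕ} (h0 : 0 ≤ p) (h1 : p ≤ 1) (hB : RowBound nb W p n B) (hBn : 4 * B ≤ n) :
    FQ.FormSmall nb (fun x => QT.wball nb x n) n p (1 / 4) := by
  intro F f hf
  obtain ⟨x₀⟩ := (inferInstance : Nonempty X)
  set φ : Γ × O → ℝ := fun v => W x₀ v.1 with hφ
  have hpos : ∀ v, 0 < φ v := fun v => hc.1 _ _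
  set t : Γ × O → Γ × O → ℝ := fun x y => tau nb p n x y
  have htc : ∀ x y, t x y = t y x := fun x y => tau_comm hl h0 h1 n x y
  have hpt : ∀ x y, f x * f y * t x y ≤
      (f x ^ 2 / φ x * (t x y * φ y) + f y ^ 2 / φ y * (t y x * φ x)) / 2 := by
    intro x y
    have hd := mul_pos (hpos x) (hpos y)
    have h2 : f x ^ 2 / φ x * (t x y * φ y) + f y ^ 2 / φ y * (t y x * φ x) =
        t x y * ((f x * φ y) ^ 2 + (f y * φ x) ^ 2) / (φ x * φ y) := by
      rw [← htc x y]
      field_simp [(hpos x).ne', (hpos y).ne']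
    rw [h2, div_div, le_div_iff₀ (mul_pos hd two_pos)]
    nlinarith [mul_nonneg (tauW_nonneg (nb := nb) h0 h1 n x y)
      (sq_nonneg (f x * φ y - f y * φ x))]
  have hS : ∑ x ∈ F, ∑ y ∈ F, f x ^ 2 / φ x * (t x y * φ y) ≤ B * ∑ x ∈ F, f x ^ 2 := by
    rw [mul_sum]
    refine sum_le_sum fun x _ => ?_
    rw [← mul_sum]
    refine (mul_le_mul_of_nonneg_left (row_le hl hinv hc hB x₀ x F)
      (div_nonneg (sq_nonneg _) (hpos x).le)).trans (le_of_eq ?_)
    change f x ^ 2 / φ x * (φ x * B) = _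
    field_simp [(hpos x).ne']
  calc ∑ x ∈ F, ∑ y ∈ F, f x * f y * t x y
      ≤ ∑ x ∈ F, ∑ y ∈ F,
          (f x ^ 2 / φ x * (t x y * φ y) + f y ^ 2 / φ y * (t y x * φ x)) / 2 :=
        sum_le_sum fun x _ => sum_le_sum fun y _ => hpt x y
    _ = ∑ x ∈ F, ∑ y ∈ F, f x ^ 2 / φ x * (t x y * φ y) := by
        simp only [← sum_div, sum_add_distrib]
        rw [sum_comm (f := fun x y => f y ^ 2 / φ y * (t y x * φ x))]
        ring
    _ ≤ _ := hS.trans (mul_le_mul_of_nonneg_right (by linarith)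
        (sum_nonneg fun x _ => sq_nonneg _))

omit [Group Γ] in
/-- A small form just below a parameter passes to it. -/
theorem limit {p η : ℝ} {n : ℕ} (h0 : 0 < p)
    (h : ∀ q, p / 2 ≤ q → q < p → FQ.FormSmall nb (fun x => QT.wball nb x n) n q η) :
    FQ.FormSmall nb (fun x => QT.wball nb x n) n p η := by
  intro F f hf
  have hcont : Continuous fun q : ℝ => ∑ x ∈ F, ∑ y ∈ F,
      f x * f y * FQ.tauW nb (QT.wball nb x n) q x y n := by
    refine continuous_finsetSum _ fun x _ => continuous_finsetSum _ fun y _ => ?_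
    exact continuous_const.mul (FQ.tauW_continuous _ x y n)
  refine le_of_tendsto (x := nhdsWithin p (Set.Iio p))
    ((hcont.tendsto p).mono_left nhdsWithin_le_nhds) ?_
  filter_upwards [Ioo_mem_nhdsLT (show p / 2 < p by linarith)] with q hq
  exact h q hq.1.le hq.2 F f hf

/-- The recursion at every parameter with exit certificates gives `pc < pu`. -/
theorem pc_lt_pu [Fintype O] [Infinite Γ] [Nonempty O] (hl : Labelling G nb) (hinv : Inv G)
    (hconn : G.Connected) (hclosed : ∀ p, FQ.Sub nb p → ClosedBelow nb p) : pc G < pu G := by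
  refine FQ.pc_lt_pu_of_small hl hinv hconn fun p hs => ?_
  obtain ⟨P, hP, hX⟩ := hclosed p hs
  obtain ⟨n, hn⟩ := exists_nat_ge (8 * P)
  refine ⟨fun x => QT.wball nb x (n + 1), n + 1, by omega, QT.covers_wball hl _,
    fun g x => QT.image_wball hl (trIso hinv g) x _, limit hs.1 fun q hq hq' => ?_⟩
  obtain ⟨X, hX', W, hc, hb, hr⟩ := hX (n + 1) q hq hq'
  have h0 : 0 ≤ q := by linarith [hs.1]
  have h1 : q ≤ 1 := hq'.le.trans hs.2.1
  exact schur hl hinv hc h0 h1 (rowBound_of_round hl hinv hc hb h0 h1 hP hr)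
    (by push_cast; linarith)

omit [DecidableEq Γ] [DecidableEq O] [Fintype ι] in
/-- The recursion on every chart gives a nonuniqueness phase. -/
theorem nonuniquePhase_of_closed [DecidableEq Γ] [Infinite Γ]
    (hclosed : ∀ (O : Type) [Fintype O] [DecidableEq O] (d : ℕ) (G : SimpleGraph (Γ × O))
      (nb : Γ × O → Fin d → Γ × O), Labelling G nb → Inv G → G.Connected →
      ∀ p, FQ.Sub nb p → ClosedBelow nb p) :
    SG.NonuniquePhase Γ := by
  classical
  have key : ∀ (V : Type) (G : SimpleGraph V) (d : ℕ), G.Connected →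
      (∀ v, (G.neighborSet v).encard = d) → ∀ (Φ : Γ →* (G ≃g G)),
      (∀ g v, Φ g v = v → g = 1) → ∀ R : Finset V, (∀ v, ∃ g, Φ g v ∈ R) → pc G < pu G := by
    intro V G d hc hd Φ free R cover
    obtain ⟨O, hO, hO', G', hinv, ⟨φ⟩⟩ := exists_chart G Φ free R cover
    have hc' : G'.Connected := φ.connected_iff.1 hc
    have hd' : ∀ x, (G'.neighborSet x).encard = d := fun x => by
      obtain ⟨v, rfl⟩ := φ.surjective x
      rw [← hd v]
      exact (ENat.card_congr (φ.mapNeighborSet v)).symm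
    obtain ⟨nb, hl⟩ := exists_labelling G' d hd'
    rw [pc_congr φ, pu_congr φ]
    have : Nonempty O := ⟨(hc'.nonempty.some).2⟩
    exact pc_lt_pu hl hinv hc' fun p hs => hclosed O d G' nb hl hinv hc' p hs
  refine ⟨key, fun Δ _ s hfins hgen ψ hψ hidx => ?_⟩
  obtain ⟨hconn, d, hd⟩ := TL.connected_regular_mulCayley s hfins hgen
  obtain ⟨Φ, R, free, cover⟩ := exists_leftAction (SimpleGraph.mulCayley s)
    (fun _ _ _ => SimpleGraph.mulCayley_adj_mul_iff_right) ψ hψ hidx
  exact key _ _ d hconn hd Φ free R cover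

end Vale.Agent.P165.EX
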