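import Vale.Agent.P165.EX.Exclusive

/-!
# First exit from a size ball

An open path leaving a set crosses a gate: it stays inside up to `z`, steps to `a` outside and the
rest is disjoint from both. By van den Berg and Kesten the connection probability is at most the sum
over gates of the inside connection, the edge and the connection from `a`. Applied to the balls of a
size this bounds the volume by the gates times the returns to the same sphere.
-/

namespace Vale.Agent.P165.EX

open Finset FF Gladkov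

variable {V : Type} [DecidableEq V]

/-- The edges of `E` with both ends in `P`. -/
noncomputable def inside (E : Finset (Sym2 V)) (P : V → Prop) : Finset (Sym2 V) :=
  @Finset.filter _ (fun e => ∀ v ∈ e, P v) (Classical.decPred _) E

/-- The edges of `E` leaving `P`, oriented outwards, among the vertices of `W`. -/
noncomputable def exits (E : Finset (Sym2 V)) (W : Finset V) (P : V → Prop) : Finset (V × V) :=
  @Finset.filter _ (fun q => P q.1 ∧ ¬P q.2 ∧ s(q.1, q.2) ∈ E) (Classical.decPred _) (W ×ˢ W)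

omit [DecidableEq V] in
theorem mem_exits {E : Finset (Sym2 V)} {W : Finset V} {P : V → Prop} {q : V × V} :
    q ∈ exits E W P ↔ (q.1 ∈ W ∧ q.2 ∈ W) ∧ P q.1 ∧ ¬P q.2 ∧ s(q.1, q.2) ∈ E := by
  simp [exits]

omit [DecidableEq V] in
theorem inside_subset (E : Finset (Sym2 V)) (P : V → Prop) : inside E P ⊆ E := by
  intro e he
  simp only [inside, mem_filter] at he
  exact he.1

/-- A path to the outside has a first exit. -/
theorem exists_exit {E η : Finset (Sym2 V)} (hη : η ⊆ E) {W : Finset V}
    (hW : ∀ e ∈ E, ∀ v ∈ e, v ∈ W) {P : V → Prop} {o y : V} (ho : P o) (hy : ¬P y)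
    (h : Rch η o y) :
    ∃ q ∈ exits E W P,
      box (fun θ => Rch (θ ∩ inside E P) o q.1 ∧ s(q.1, q.2) ∈ θ) (fun θ => Rch θ q.2 y) η := by
  classical
  obtain ⟨w⟩ := h
  set q := w.toPath.1
  have hp : q.IsPath := w.toPath.2
  have hex : ∃ k, ¬P (q.getVert k) := ⟨q.length, by rw [SimpleGraph.Walk.getVert_length]; exact hy⟩
  set k := Nat.find hex
  have hk : ¬P (q.getVert k) := Nat.find_spec hex
  have hlt : ∀ i < k, P (q.getVert i) := fun i hi => not_not.1 (Nat.find_min hex hi)
  have hk0 : 0 < k := Nat.pos_of_ne_zero fun h0 => by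
    rw [h0, SimpleGraph.Walk.getVert_zero] at hk
    exact hk ho
  have hkl : k ≤ q.length :=
    Nat.find_min' hex (by rw [SimpleGraph.Walk.getVert_length]; exact hy)
  have hsplit : (q.take k).edges ++ (q.drop k).edges = q.edges := by
    rw [← SimpleGraph.Walk.edges_append, SimpleGraph.Walk.append_take_drop_eq]
  have hnd := hsplit ▸ hp.isTrail.edges_nodup
  have hadj := q.adj_getVert_succ (i := k - 1) (by omega)
  rw [Nat.sub_add_cancel hk0] at hadj
  set z := q.getVert (k - 1)
  set a := q.getVert k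
  have he : s(z, a) ∈ η := mem_coe.1 ((SimpleGraph.fromEdgeSet_adj _).1 hadj).1
  have hsubset : ∀ {u v : V} (r : (SimpleGraph.fromEdgeSet (↑η : Set (Sym2 V))).Walk u v),
      r.edges.toFinset ⊆ η := fun r e h1 => by
    have h2 := r.edges_subset_edgeSet (List.mem_toFinset.1 h1)
    rw [SimpleGraph.edgeSet_fromEdgeSet] at h2
    exact mem_coe.1 h2.1
  refine ⟨(z, a), mem_exits.2 ⟨⟨hW _ (hη he) z (Sym2.mem_mk_left _ _),
    hW _ (hη he) a (Sym2.mem_mk_right _ _)⟩, hlt _ (by omega), hk, hη he⟩,
    (q.take k).edges.toFinset, (q.drop k).edges.toFinset, hsubset _, hsubset _,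
    List.disjoint_toFinset_iff_disjoint.2 (List.nodup_append'.1 hnd).2.2, ⟨?_, ?_⟩, ?_⟩
  · have htake : ∀ e ∈ (q.take (k - 1)).edges,
        e ∈ ((q.take k).edges.toFinset ∩ inside E P) ∧ ¬e.IsDiag := fun e h1 => by
      have h2 : e ∈ (q.take k).edges := by
        rw [SimpleGraph.Walk.edges_take] at h1 ⊢
        rw [show k - 1 = min (k - 1) k by omega, ← List.take_take] at h1
        exact List.mem_of_mem_take h1
      have h3 := (q.take k).edges_subset_edgeSet h2
      rw [SimpleGraph.edgeSet_fromEdgeSet] at h3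
      refine ⟨mem_inter.2 ⟨List.mem_toFinset.2 h2,
        ?_⟩, h3.2⟩
      simp only [inside, mem_filter]
      refine ⟨hη (mem_coe.1 h3.1), fun v hv => ?_⟩
      have h4 := SimpleGraph.Walk.mem_support_of_mem_edges h1 hv
      rw [SimpleGraph.Walk.mem_support_iff_exists_getVert] at h4
      obtain ⟨i, rfl, hi⟩ := h4
      rw [SimpleGraph.Walk.take_getVert]
      exact hlt _ (by omega)
    refine ⟨(q.take (k - 1)).transfer _ fun e h1 => ?_⟩
    rw [SimpleGraph.edgeSet_fromEdgeSet]
    exact ⟨mem_coe.2 (htake e h1).1, (htake e h1).2⟩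
  · rw [List.mem_toFinset, SimpleGraph.Walk.edges_take, List.mem_take_iff_getElem]
    refine ⟨k - 1, by rw [SimpleGraph.Walk.length_edges]; omega, ?_⟩
    rw [SimpleGraph.Walk.getElem_edges]
    simp [z, a, Nat.sub_add_cancel hk0]
  · refine ⟨(q.drop k).transfer _ fun e h1 => ?_⟩
    have h2 := (q.drop k).edges_subset_edgeSet h1
    rw [SimpleGraph.edgeSet_fromEdgeSet] at h2 ⊢
    exact ⟨mem_coe.2 (List.mem_toFinset.2 h1), h2.2⟩

/-- First exit decomposition. -/
theorem exit_le (E : Finset (Sym2 V)) {p : ℝ} (h0 : 0 ≤ p) (h1 : p ≤ 1) {W : Finset V}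
    (hW : ∀ e ∈ E, ∀ v ∈ e, v ∈ W) {P : V → Prop} {o y : V} (ho : P o) (hy : ¬P y) :
    Gladkov.tau E p o y ≤ ∑ q ∈ exits E W P,
      p * Gladkov.tau (inside E P) p o q.1 * Gladkov.tau E p q.2 y := by
  calc Gladkov.tau E p o y
      ≤ avg E p fun η => ∑ q ∈ exits E W P,
          ind (box (fun θ => Rch (θ ∩ inside E P) o q.1 ∧ s(q.1, q.2) ∈ θ)
            (fun θ => Rch θ q.2 y) η) := avg_mono E h0 h1 fun η hη => by
        by_cases h : Rch η o y
        · obtain ⟨q, hq, hb⟩ := exists_exit hη hW ho hy h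
          exact (ind_le_one _).trans ((le_of_eq (show ind _ = 1 from if_pos hb).symm).trans
            (single_le_sum (f := fun q => ind (box
              (fun θ => Rch (θ ∩ inside E P) o q.1 ∧ s(q.1, q.2) ∈ θ) (fun θ => Rch θ q.2 y) η))
              (fun _ _ => ind_nonneg _) hq))
        · exact (if_neg h : ind (Rch η o y) = 0).le.trans (sum_nonneg fun _ _ => ind_nonneg _)
    _ ≤ _ := by
        rw [avg_sum]
        refine sum_le_sum fun q hq => (bk E h0 h1 _ _ (fun s t hst hs => ⟨rch_mono
          (inter_subset_inter_right hst) hs.1, hst hs.2⟩) fun s t hst hs => rch_mono hst hs).trans ?_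
        refine mul_le_mul_of_nonneg_right (le_of_eq ?_) (tau_nonneg E h0 h1 _ _)
        obtain ⟨-, -, hout, he⟩ := mem_exits.1 hq
        have hnot : s(q.1, q.2) ∉ inside E P := fun h => by
          simp only [inside, mem_filter] at h
          exact hout (h.2 _ (Sym2.mem_mk_right _ _))
        have hsplit := avg_split (inside_subset E P) p (fun θ => ind (Rch θ o q.1))
          fun θ => if {s(q.1, q.2)} ⊆ θ then (1 : ℝ) else 0
        have hforced := avg_forced (F := {s(q.1, q.2)}) (E := E \ inside E P)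
          (singleton_subset_iff.2 (mem_sdiff.2 ⟨he, hnot⟩)) p fun _ => (1 : ℝ)
        rw [avg_one, mul_one, card_singleton, pow_one] at hforced
        rw [hforced] at hsplit
        rw [mul_comm p]
        refine (avg_congr E p fun η _ => ?_).trans hsplit
        simp only [singleton_subset_iff, mem_sdiff, hnot, not_false_eq_true, and_true]
        by_cases a : Rch (η ∩ inside E P) o q.1 <;> by_cases b : s(q.1, q.2) ∈ η <;>
          simp [ind, a, b]

/-- The mass of a set outside `P` is at most the gates times the returns. -/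
theorem exit_sum_le (E : Finset (Sym2 V)) {p : ℝ} (h0 : 0 ≤ p) (h1 : p ≤ 1) {W : Finset V}
    (hW : ∀ e ∈ E, ∀ v ∈ e, v ∈ W) {P : V → Prop} {o : V} (ho : P o) (S : Finset V)
    (hS : ∀ y ∈ S, ¬P y) {B : ℝ} (hB : ∀ q ∈ exits E W P, ∑ y ∈ S, Gladkov.tau E p q.2 y ≤ B) :
    ∑ y ∈ S, Gladkov.tau E p o y ≤
      B * ∑ q ∈ exits E W P, p * Gladkov.tau (inside E P) p o q.1 := by
  refine (sum_le_sum fun y hy => exit_le E h0 h1 hW ho (hS y hy)).trans ?_
  rw [sum_comm, mul_sum]
  refine sum_le_sum fun q hq => ?_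
  rw [← mul_sum, mul_comm B]
  exact mul_le_mul_of_nonneg_left (hB q hq) (mul_nonneg h0 (tau_nonneg _ h0 h1 _ _))

/-- The gates of the size ball below `L`, weighted by the inside connection and the edge. -/
noncomputable def gateMass (E : Finset (Sym2 V)) (W : Finset V) (p : ℝ) (size : V → ℕ) (o : V)
    (L : ℕ) : ℝ :=
  ∑ q ∈ exits E W (fun v => size v < L),
    p * Gladkov.tau (inside E fun v => size v < L) p o q.1

/-- The volume of a size ball is at most the gates times the returns to the same sphere, summed over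
the levels. The gate end lies in `[L, L + D)` when edges change the size by at most `D`. -/
theorem volume_le (E : Finset (Sym2 V)) {p : ℝ} (h0 : 0 ≤ p) (h1 : p ≤ 1) {W : Finset V}
    (hW : ∀ e ∈ E, ∀ v ∈ e, v ∈ W) (size : V → ℕ) {D : ℕ}
    (hD : ∀ u v, s(u, v) ∈ E → size v ≤ size u + D) {o : V} (ho : size o = 0) (S : Finset V)
    (R : ℕ) (B : ℕ → ℝ)
    (hB : ∀ L ∈ Icc 1 R, ∀ a ∈ W, L ≤ size a → size a < L + D →
      ∑ y ∈ S.filter (fun y => size y = L), Gladkov.tau E p a y ≤ B L) :
    ∑ y ∈ S.filter (fun y => size y ≤ R), Gladkov.tau E p o y ≤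
      (∑ y ∈ S.filter (fun y => size y = 0), Gladkov.tau E p o y) +
        ∑ L ∈ Icc 1 R, B L * gateMass E W p size o L := by
  have hins : Icc 0 R = insert 0 (Icc 1 R) := by
    ext i; simp only [mem_Icc, mem_insert]; omega
  calc ∑ y ∈ S.filter (fun y => size y ≤ R), Gladkov.tau E p o y
      = ∑ L ∈ Icc 0 R, ∑ y ∈ S.filter (fun y => size y = L), Gladkov.tau E p o y := by
        rw [← sum_fiberwise_of_maps_to (g := size) (t := Icc 0 R)
          (fun y hy => mem_Icc.2 ⟨Nat.zero_le _, (mem_filter.1 hy).2⟩)]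
        refine sum_congr rfl fun L hL => sum_congr ?_ fun _ _ => rfl
        rw [filter_filter]
        refine filter_congr fun y _ => ?_
        exact ⟨fun h => h.2, fun h => ⟨h ▸ (mem_Icc.1 hL).2, h⟩⟩
    _ ≤ _ := by
        rw [hins, sum_insert (by simp)]
        refine add_le_add le_rfl (sum_le_sum fun L hL => ?_)
        have hL1 := (mem_Icc.1 hL).1
        refine exit_sum_le E h0 h1 hW (show size o < L by omega) _ (fun y hy => ?_) fun q hq => ?_
        · rw [(mem_filter.1 hy).2]; exact lt_irrefl L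
        · obtain ⟨⟨-, hqW⟩, hz, ha, he⟩ := mem_exits.1 hq
          have := hD _ _ he
          exact hB L hL q.2 hqW (not_lt.1 ha) (by omega)

end Vale.Agent.P165.EX
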