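import Vale.Agent.P165.EX.Child
import Vale.Agent.P165.FF.Base
import Vale.Agent.P165.QT.Threshold

/-!
# States and the size of a window

The states are nonzero covectors, with the additive cocycle `log (|φ g| / |φ|)`. It is bounded
below linearly in the size, and the size grows at most linearly along a window.
-/

namespace Vale.Agent.P165.EX

open Finset Matrix FF
open scoped Matrix.Norms.Elementwise MatrixGroups

variable {k : Type} [NontriviallyNormedField k] {d : ℕ} {Γ : Type} [Group Γ] (ρ : Γ →* SL(d, k))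

theorem norm_rho_pos (hd : 0 < d) (g : Γ) : 0 < ‖(ρ g : Matrix (Fin d) (Fin d) k)‖ := by
  rw [← norm_cmp_one]
  exact norm_cm_pos ρ hd g

theorem lsize_mul_le (hd : 0 < d) (g h : Γ) :
    lsize ρ (g * h) ≤ lsize ρ g + lsize ρ h + Real.log d := by
  have h1 := norm_mul_le_card (ρ g : Matrix (Fin d) (Fin d) k) (ρ h : Matrix (Fin d) (Fin d) k)
  rw [Fintype.card_fin, ← coe_mul] at h1
  have h2 := Real.log_le_log (norm_rho_pos ρ hd _) h1
  have hd0 : (d : ℝ) ≠ 0 := Nat.cast_ne_zero.2 hd.ne'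
  rw [Real.log_mul hd0 (mul_pos (norm_rho_pos ρ hd g) (norm_rho_pos ρ hd h)).ne',
    Real.log_mul (norm_rho_pos ρ hd g).ne' (norm_rho_pos ρ hd h).ne'] at h2
  simp only [lsize]
  linarith

/-- The size is bounded below. -/
theorem exists_lsize_low (hd : 0 < d) : ∃ c : ℝ, 0 ≤ c ∧ ∀ g, -c ≤ lsize ρ g := by
  refine ⟨Real.log d.factorial, Real.log_nonneg (Nat.one_le_cast.2 d.factorial_pos), fun g => ?_⟩
  set M := (ρ g : Matrix (Fin d) (Fin d) k) with hM
  have hb : (1 : ℝ) ≤ d.factorial * ‖M‖ ^ d := by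
    have h := norm_det_le M fun i j => norm_entry_le_entrywise_sup_norm M
    rw [hM, (ρ g).2, norm_one] at h
    exact h
  have hpos := norm_rho_pos ρ hd g
  have h := Real.log_le_log zero_lt_one hb
  rw [Real.log_one, Real.log_mul (Nat.cast_ne_zero.2 d.factorial_ne_zero) (pow_pos hpos _).ne',
    Real.log_pow] at h
  have hl : 0 ≤ Real.log (d.factorial : ℝ) :=
    Real.log_nonneg (Nat.one_le_cast.2 d.factorial_pos)
  by_contra hlt
  push Not at hlt
  change Real.log ‖M‖ < _ at hlt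
  have hd1 : (1 : ℝ) ≤ d := Nat.one_le_cast.2 hd
  have : (d : ℝ) * Real.log ‖M‖ ≤ 1 * Real.log ‖M‖ :=
    mul_le_mul_of_nonpos_right hd1 (by linarith)
  linarith

/-- The nonzero covectors. -/
abbrev State (k : Type) [Zero k] (d : ℕ) : Type := {φ : Fin d → k // φ ≠ 0}

/-- The cocycle of a covector. -/
noncomputable def energy (x : State k d) (g : Γ) : ℝ :=
  Real.log ‖x.1 ᵥ* (ρ g : Matrix (Fin d) (Fin d) k)‖ - Real.log ‖x.1‖

theorem vecMul_ne {φ : Fin d → k} (hφ : φ ≠ 0) (g : Γ) :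
    φ ᵥ* (ρ g : Matrix (Fin d) (Fin d) k) ≠ 0 := fun h => hφ (by
  calc φ = φ ᵥ* ((ρ g : Matrix (Fin d) (Fin d) k) * (ρ g⁻¹ : Matrix (Fin d) (Fin d) k)) := by
        rw [← coe_mul, mul_inv_cancel, coe_one, vecMul_one]
    _ = 0 := by rw [← vecMul_vecMul, h, zero_vecMul])

theorem energy_cocycle (x : State k d) (g : Γ) :
    ∃ x' : State k d, ∀ h, energy ρ x (g * h) = energy ρ x g + energy ρ x' h :=
  ⟨⟨x.1 ᵥ* (ρ g : Matrix (Fin d) (Fin d) k), vecMul_ne ρ x.2 g⟩, fun h => by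
    simp only [energy, coe_mul, vecMul_vecMul]; ring⟩

/-- The defect of the rows of a state. -/
theorem energy_eq (hd : 0 < d) (x : State k d) (g : Γ) :
    energy ρ x g = lsize ρ g - defect ρ (rowsOf x.1) g - Real.log ‖x.1‖ := by
  rw [energy, defect_rowsOf ρ hd]; ring

/-- The cocycle is bounded below linearly in the size, shifted to be nonnegative. -/
theorem exists_energy_low (hd : 0 < d) : ∃ C : ℝ, 0 ≤ C ∧
    ∀ (x : State k d) g, -(C * (|lsize ρ g| + 1)) ≤ energy ρ x g := by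
  refine ⟨(d : ℝ) + 2 + |Real.log d + Real.log d.factorial|, by positivity, fun x g => ?_⟩
  have h := (defect_bounds ρ hd (rowsOf_ne_zero hd x.2) g).2
  rw [norm_rowsOf hd] at h
  rw [energy_eq ρ hd]
  have h1 := neg_abs_le (lsize ρ g)
  have h2 := le_abs_self (Real.log d + Real.log d.factorial)
  have h3 : 0 ≤ |Real.log d + Real.log d.factorial| * |lsize ρ g| := by positivity
  nlinarith [abs_nonneg (lsize ρ g)]

variable {O ι : Type} [DecidableEq Γ] [DecidableEq O] [Fintype O] [Fintype ι]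
  {G : SimpleGraph (Γ × O)} {nb : Γ × O → ι → Γ × O}

/-- The size grows at most linearly along a window. -/
theorem exists_window_size (hl : Labelling G nb) (hinv : Inv G) (hd : 0 < d) :
    ∃ C : ℝ, 0 ≤ C ∧ ∀ (n : ℕ) (o : O), 1 ≤ n →
      ∀ z ∈ QT.wball nb ((1 : Γ), o) n, |lsize ρ z.1| ≤ C * n := by
  classical
  obtain ⟨c, hc, hlow⟩ := exists_lsize_low ρ hd
  set s := Real.log d + ∑ oi : O × ι, |lsize ρ (nb ((1 : Γ), oi.1) oi.2).1| with hs
  have hsum : 0 ≤ ∑ oi : O × ι, |lsize ρ (nb ((1 : Γ), oi.1) oi.2).1| :=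
    sum_nonneg fun _ _ => abs_nonneg _
  have hlog : 0 ≤ Real.log (d : ℝ) := Real.log_nonneg (Nat.one_le_cast.2 hd)
  have step : ∀ u v, G.Adj u v → lsize ρ v.1 ≤ lsize ρ u.1 + s := fun u v huv => by
    have hadj : G.Adj ((1 : Γ), u.2) (tr u.1⁻¹ v) := by
      have := (hinv u.1⁻¹ u v).2 huv
      simpa [tr] using this
    obtain ⟨i, hi⟩ := (hl.adj _ _).1 hadj
    have hv : v.1 = u.1 * (nb ((1 : Γ), u.2) i).1 := by rw [hi]; simp [tr]
    rw [hv, hs]
    refine (lsize_mul_le ρ hd _ _).trans ?_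
    have := single_le_sum (f := fun oi : O × ι => |lsize ρ (nb ((1 : Γ), oi.1) oi.2).1|)
      (fun _ _ => abs_nonneg _) (mem_univ (u.2, i))
    linarith [le_abs_self (lsize ρ (nb ((1 : Γ), u.2) i).1)]
  have walk : ∀ u v (w : G.Walk u v), lsize ρ v.1 ≤ lsize ρ u.1 + w.length * s := by
    intro u v w
    induction w with
    | nil => simp
    | cons h p ih =>
      have := step _ _ h
      push_cast [SimpleGraph.Walk.length_cons]
      linarith
  refine ⟨|lsize ρ 1| + s + c, by positivity, fun n o hn z hz => ?_⟩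
  obtain ⟨w, hw⟩ := (QT.wball_mem hl).1 hz
  have h1 := walk _ _ w
  have hn1 : (1 : ℝ) ≤ n := Nat.one_le_cast.2 hn
  have hw' : (w.length : ℝ) ≤ n := Nat.cast_le.2 hw
  have hs0 : 0 ≤ s := by positivity
  rw [abs_le]
  constructor
  · have := hlow z.1
    nlinarith [abs_nonneg (lsize ρ 1)]
  · nlinarith [le_abs_self (lsize ρ 1), abs_nonneg (lsize ρ 1)]

end Vale.Agent.P165.EX
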